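import Vale.Agent.P301.H794.LimGeo

/-! P301, H794 (CY-LIM): main theorem. -/

open Filter Metric Set MeasureTheory Topology
open scoped ENNReal ComplexOrder Matrix ComplexConjugate Manifold ContDiff

set_option linter.all false

noncomputable section

namespace Vale.Agent.P301.H794

open Vale.Agent.P272.K Vale.Agent.P299.IX Vale.Agent.P299.IX.Fock Vale.Agent.P301.H85
open Vale.Agent.P301.H599 Vale.Agent.P301.H862 Vale.Agent.P299.H954

variable {d : ℕ} {X : Type} [TopologicalSpace X] [ChartedSpace (Cm d) X]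
variable {ι : Type} {L : LineBundle d X ι} {α : Type*}
variable [IsManifold 𝓘(ℂ, Cm d) ω X] [CompactSpace X] [T2Space X]

/-- **CY-LIM.** The limits of almost orthonormal approximate kernel elements of degree `p` with
respect to the metrics `ρ₀ + v N` are linearly independent holomorphic sections all of whose
maximal minors vanish. -/
theorem cy_lim (l : Ultrafilter α) {k n : ℕ} (hk : k < d) (hnk : n ≤ k)
    {w : Fm d X} (hw : IsKahler w) {ρ₀ : ι → X → ℝ} (hρ₀ : IsMetric L ρ₀)
    {v : α → X → ℝ} (hv : ∀ N, Smooth (d := d) (v N)) {C1 : ℝ} (hvC : ∀ N x, v N x ≤ C1)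
    (hexp : ∀ e ∈ atlas (Cm d) X, ∀ K : Set (Cm d), IsCompact K → K ⊆ e.target →
      ∃ B : ℝ≥0∞, B ≠ ⊤ ∧ ∀ N,
        ∫⁻ z in K, ENNReal.ofReal (Real.exp (-((2 * d + 1) * v N (e.symm z)))) ≤ B)
    {τ : α → Fm d X} (hτ : ∀ N, IsKahler (τ N))
    {ε : α → ℝ} (hε0 : ∀ N, 0 < ε N) (hε : Tendsto ε l (𝓝 0))
    {a b : ℝ} (ha : 0 ≤ a) (hb : 0 < b)
    (hcurv : ∀ N, ∀ i (e : Chart d X) x, At e x → x ∈ L.U i →
      (cHess (fun z => ρ₀ i (e.symm z) + v N (e.symm z)) (e x) +
        ((a * ε N : ℝ) : ℂ) • w e (e x) - (b : ℂ) • τ N e (e x)).PosSemidef)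
    {c0 K : ℝ} (hc0 : 0 < c0)
    (hdet : ∀ N (e : Chart d X) x, At e x →
      c0 * ε N ^ n * (w e (e x)).det.re ≤ (τ N e (e x)).det.re)
    (hK : ∀ N, INT.intX (fun e z => (w e z + τ N e z).det.re) ≤ K)
    {p r : ℕ} (hr : cnt d (d - k) p < r)
    {g : α → Fin r → H862.Fam d X ι} (hg : ∀ N c, H862.IsSec L (g N c))
    (hgp : ∀ N c i e x, At e x → x ∈ L.U i → ∀ I, I.card ≠ p → g N c i e (e x) I = 0)
    {η : α → ℝ} (hη : Tendsto η l (𝓝 0)) (hη1 : ∀ N, η N ≤ 1)
    (horth : ∀ N c c', ‖H862.ip L (fun i x => ρ₀ i x + v N x) w (g N c) (g N c') -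
      (if c = c' then 1 else 0)‖ ≤ η N)
    {C2 : ℝ} (hgk : ∀ N c,
      (H862.ip L (fun i x => ρ₀ i x + v N x) w (DX (fun i x => ρ₀ i x + v N x) (g N c))
        (DX (fun i x => ρ₀ i x + v N x) (g N c))).re +
      (H862.ip L (fun i x => ρ₀ i x + v N x) w (dX w (g N c)) (dX w (g N c))).re ≤ C2 * ε N) :
    ∃ u : Fin r → H862.Fam d X ι, (∀ c, H897.IsHol L (u c)) ∧
      (∀ c i e x, At e x → x ∈ L.U i → ∀ I, I.card ≠ p → u c i e (e x) I = 0) ∧
      H724.LinInd L u ∧
      ∀ i (e : Chart d X) x, At e x → x ∈ L.U i → ∀ J : Fin r → FI d,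
        (Matrix.of fun c j => u c i e (e x) (J j)).det = 0 := by
  have hρN : ∀ N, IsMetric L (fun i x => ρ₀ i x + v N x) := fun N => isMetric_add hρ₀ (hv N)
  have hgn : ∀ N c, (H862.ip L (fun i x => ρ₀ i x + v N x) w (g N c) (g N c)).re ≤ 2 := by
    intro N c
    have h1 := horth N c c
    rw [if_pos rfl] at h1
    have h2 := (Complex.abs_re_le_norm _).trans h1
    rw [Complex.sub_re, Complex.one_re, abs_le] at h2
    linarith [hη1 N]
  have hcurv' : ∀ N, ∀ i (e : Chart d X) x, At e x → x ∈ L.U i →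
      (cHess (fun z => ρ₀ i (e.symm z) + v N (e.symm z)) (e x) +
        ((a * ε N : ℝ) : ℂ) • w e (e x)).PosSemidef := by
    intro N i e x hx hi
    have h1 := hcurv N i e x hx hi
    have h2 : ((b : ℂ) • τ N e (e x)).PosSemidef :=
      ((hτ N).posDef e x hx).posSemidef.smul (Complex.zero_le_real.2 hb.le)
    have h3 := h1.add h2
    rwa [sub_add_cancel] at h3
  have hgrad : ∀ c, Tendsto (fun N => (intC L
      (gradX (fun i x => ρ₀ i x + v N x) w (g N c) (g N c))).re) l (𝓝 0) := by
    intro c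
    have h1 : Tendsto (fun N => C2 * ε N + a * ε N * d * 2) l (𝓝 (C2 * 0 + a * 0 * d * 2)) :=
      (hε.const_mul _).add (((hε.const_mul _).mul_const _).mul_const _)
    have h2 : C2 * 0 + a * 0 * d * 2 = 0 := by ring
    rw [h2] at h1
    refine tendsto_of_tendsto_of_tendsto_of_le_of_le tendsto_const_nhds h1 (fun N => ?_)
      fun N => ?_
    · exact intC_re_nonneg fun i e x hx _ => gradX_nonneg hw _ _ _ hx
    · have haε : 0 ≤ a * ε N := mul_nonneg ha (hε0 N).le
      have h3 := intC_grad_le hw (hρN N) haε (hcurv' N) (hg N c)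
      have h4 : a * ε N * d * (H862.ip L (fun i x => ρ₀ i x + v N x) w (g N c) (g N c)).re ≤
          a * ε N * d * 2 := mul_le_mul_of_nonneg_left (hgn N c) (by positivity)
      have h5 := hgk N c
      show (intC L (gradX (fun i x => ρ₀ i x + v N x) w (g N c) (g N c))).re ≤ _
      linarith
  have key := fun c => H897.lim_main hw hρ₀ l hv hvC (g := fun N => g N c) (fun N => hg N c)
    (M := 2) (fun N => hgn N c) (hgrad c)
  choose u hu hK1 hI hlast using key
  refine ⟨u, hu, ?_, ?_, ?_⟩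
  · intro c i e x hx hi I hI'
    exact hI c I (fun N i e x hx hi => hgp N c i e x hx hi I hI') i e x hx hi
  · refine linInd_of_lim (l := (l : Filter α)) hw (Eventually.of_forall hρN)
      (Eventually.of_forall hg) (fun c => (hu c).isSec) (fun c => hlast c hexp) ?_
    intro c c'
    rw [tendsto_iff_norm_sub_tendsto_zero]
    exact squeeze_zero (fun _ => norm_nonneg _) (fun N => horth N c c') hη
  · intro i e x hx hi J
    refine minors_vanish (l := (l : Filter α)) hk hnk hw hρ₀ (Eventually.of_forall hv)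
      (Eventually.of_forall hvC) (Eventually.of_forall hτ) (Eventually.of_forall hε0) hε ha hb
      (Eventually.of_forall hcurv) hc0 (Eventually.of_forall hdet) (Eventually.of_forall hK) hr
      (Eventually.of_forall hg) (Eventually.of_forall hgp) (C2 := max 2 C2)
      (Eventually.of_forall fun N c => (hgn N c).trans (le_max_left _ _))
      (Eventually.of_forall fun N c => (hgk N c).trans
        (mul_le_mul_of_nonneg_right (le_max_right _ _) (hε0 N).le)) ?_ i hx hi J
    intro i e x hx hi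
    obtain ⟨R, hR, hRd⟩ := Metric.nhds_basis_closedBall.mem_iff.1
      ((H862.isOpen_dom L i e).mem_nhds (H862.mem_dom hx hi))
    refine ⟨R, hR, hRd, ?_, ?_⟩
    · intro c I z hz
      have h1 := H862.At.of_dom hx.1 (hRd hz)
      have := ((hu c).holo i e _ h1.1 h1.2.1 I).continuousAt
      rw [h1.2.2] at this
      exact this.continuousWithinAt
    · intro c I
      exact (hK1 c e hx.1 i _ (isCompact_closedBall (e x) R) hRd).one
        (isCompact_closedBall _ _).measure_ne_top subset_rfl I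

/-- in the vocabulary of H724 -/
lemma isSec_of_isHol {m : ℕ} {u : H862.Fam d X ι} (hu : H897.IsHol (powL L m) u) :
    H724.IsSec L H897.LamF m u where
  holo := hu.holo
  chL i j e x hx hi hj := by
    rw [hu.change i j e e x hx hx hi hj, jacM_self hx, Matrix.transpose_one, lam_one,
      Matrix.smul_mulVec, Matrix.one_mulVec]
    rfl
  chV i e e' x hx hx' hi := by
    rw [hu.change i i e e' x hx hx' hi hi, H897.g_self (powL L m) hi, one_smul]
    rfl

end Vale.Agent.P301.H794
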