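import Vale.Agent.P301.H794.CYMain
import Vale.Agent.P301.H862.KZero
import Vale.Agent.P301.H599.CY5
import Vale.Agent.P301.H724.Ten

/-! P301, H794: assembly. Linearly independent sections of `Λ^p ⊗ L^m` with vanishing minors. -/

open Filter Metric Set MeasureTheory Topology
open scoped ENNReal ComplexOrder Matrix ComplexConjugate Manifold ContDiff

set_option linter.all false

noncomputable section

namespace Vale.Agent.P301.H794

open Vale.Agent.P272.K Vale.Agent.P299.IX Vale.Agent.P299.IX.Fock Vale.Agent.P301.H85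
open Vale.Agent.P301.H599 Vale.Agent.P301.H862 Vale.Agent.P299.H954

variable {d : ℕ} {X : Type} [TopologicalSpace X] [ChartedSpace (Cm d) X]
variable {ι : Type} {L : LineBundle d X ι} {α : Type*}
variable [IsManifold 𝓘(ℂ, Cm d) ω X] [CompactSpace X] [T2Space X]

/-- **CY-LIM.** The limits of almost orthonormal approximate kernel elements of degree `p` with
respect to the metrics `ρ₀ + v N` are linearly independent holomorphic sections all of whose
maximal minors vanish. -/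
theorem cy_lim_gen (l : Ultrafilter α) {k n : ℕ} (hk : k < d) (hnk : n ≤ k)
    {w : Fm d X} (hw : IsKahler w) {ρ₀ : ι → X → ℝ} (hρ₀ : IsMetric L ρ₀)
    {v : α → X → ℝ} (hv : ∀ N, Smooth (d := d) (v N)) {C1 : ℝ} (hvC : ∀ N x, v N x ≤ C1)
    (hexp : ∀ e ∈ atlas (Cm d) X, ∀ K : Set (Cm d), IsCompact K → K ⊆ e.target →
      ∃ B : ℝ≥0∞, B ≠ ⊤ ∧ ∀ N,
        ∫⁻ z in K, ENNReal.ofReal (Real.exp (-((2 * d + 1) * v N (e.symm z)))) ≤ B)
    {τ : α → Fm d X} (hτ : ∀ N, IsKahler (τ N))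
    {ε : α → ℝ} (hε0 : ∀ N, 0 < ε N) (hε : Tendsto ε l (𝓝 0))
    {a b : ℝ} (ha : 0 ≤ a) (hb : 0 < b)
    (hcurv : ∀ N, ∀ i (e : Chart d X) x, At e x → x ∈ L.U i →
      (cHess (fun z => ρ₀ i (e.symm z) + v N (e.symm z)) (e x) +
        ((a * ε N : ℝ) : ℂ) • w e (e x) - (b : ℂ) • τ N e (e x)).PosSemidef)
    {c0 K : ℝ} (hc0 : 0 < c0)
    (hdet : ∀ N (e : Chart d X) x, At e x →
      c0 * ε N ^ n * (w e (e x)).det.re ≤ (τ N e (e x)).det.re)
    (hK : ∀ N, INT.intX (fun e z => (w e z + τ N e z).det.re) ≤ K)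
    {p r : ℕ} {g : α → Fin r → H862.Fam d X ι} (hg : ∀ N c, H862.IsSec L (g N c))
    (hgp : ∀ N c i e x, At e x → x ∈ L.U i → ∀ I, I.card ≠ p → g N c i e (e x) I = 0)
    {η : α → ℝ} (hη : Tendsto η l (𝓝 0)) (hη1 : ∀ N, η N ≤ 1)
    (horth : ∀ N c c', ‖H862.ip L (fun i x => ρ₀ i x + v N x) w (g N c) (g N c') -
      (if c = c' then 1 else 0)‖ ≤ η N)
    {C2 : ℝ} (hgk : ∀ N c,
      (H862.ip L (fun i x => ρ₀ i x + v N x) w (DX (fun i x => ρ₀ i x + v N x) (g N c))
        (DX (fun i x => ρ₀ i x + v N x) (g N c))).re +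
      (H862.ip L (fun i x => ρ₀ i x + v N x) w (dX w (g N c)) (dX w (g N c))).re ≤ C2 * ε N) :
    ∃ u : Fin r → H862.Fam d X ι, (∀ c, H897.IsHol L (u c)) ∧
      (∀ c i e x, At e x → x ∈ L.U i → ∀ I, I.card ≠ p → u c i e (e x) I = 0) ∧
      H724.LinInd L u ∧
      ∀ {r' : ℕ} (f : Fin r' → Fin r), cnt d (d - k) p < r' →
        ∀ i (e : Chart d X) x, At e x → x ∈ L.U i → ∀ J : Fin r' → FI d,
          (Matrix.of fun c j => u (f c) i e (e x) (J j)).det = 0 := by
  have hρN : ∀ N, IsMetric L (fun i x => ρ₀ i x + v N x) := fun N => isMetric_add hρ₀ (hv N)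
  have hgn : ∀ N c, (H862.ip L (fun i x => ρ₀ i x + v N x) w (g N c) (g N c)).re ≤ 2 := by
    intro N c
    have h1 := horth N c c
    rw [if_pos rfl] at h1
    have h2 := (Complex.abs_re_le_norm _).trans h1
    rw [Complex.sub_re, Complex.one_re, abs_le] at h2
    linarith [hη1 N]
  have hcurv' : ∀ N, ∀ i (e : Chart d X) x, At e x → x ∈ L.U i →
      (cHess (fun z => ρ₀ i (e.symm z) + v N (e.symm z)) (e x) +
        ((a * ε N : ℝ) : ℂ) • w e (e x)).PosSemidef := by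
    intro N i e x hx hi
    have h1 := hcurv N i e x hx hi
    have h2 : ((b : ℂ) • τ N e (e x)).PosSemidef :=
      ((hτ N).posDef e x hx).posSemidef.smul (Complex.zero_le_real.2 hb.le)
    have h3 := h1.add h2
    rwa [sub_add_cancel] at h3
  have hgrad : ∀ c, Tendsto (fun N => (intC L
      (gradX (fun i x => ρ₀ i x + v N x) w (g N c) (g N c))).re) l (𝓝 0) := by
    intro c
    have h1 : Tendsto (fun N => C2 * ε N + a * ε N * d * 2) l (𝓝 (C2 * 0 + a * 0 * d * 2)) :=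
      (hε.const_mul _).add (((hε.const_mul _).mul_const _).mul_const _)
    have h2 : C2 * 0 + a * 0 * d * 2 = 0 := by ring
    rw [h2] at h1
    refine tendsto_of_tendsto_of_tendsto_of_le_of_le tendsto_const_nhds h1 (fun N => ?_)
      fun N => ?_
    · exact intC_re_nonneg fun i e x hx _ => gradX_nonneg hw _ _ _ hx
    · have haε : 0 ≤ a * ε N := mul_nonneg ha (hε0 N).le
      have h3 := intC_grad_le hw (hρN N) haε (hcurv' N) (hg N c)
      have h4 : a * ε N * d * (H862.ip L (fun i x => ρ₀ i x + v N x) w (g N c) (g N c)).re ≤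
          a * ε N * d * 2 := mul_le_mul_of_nonneg_left (hgn N c) (by positivity)
      have h5 := hgk N c
      show (intC L (gradX (fun i x => ρ₀ i x + v N x) w (g N c) (g N c))).re ≤ _
      linarith
  have key := fun c => H897.lim_main hw hρ₀ l hv hvC (g := fun N => g N c) (fun N => hg N c)
    (M := 2) (fun N => hgn N c) (hgrad c)
  choose u hu hK1 hI hlast using key
  refine ⟨u, hu, ?_, ?_, ?_⟩
  · intro c i e x hx hi I hI'
    exact hI c I (fun N i e x hx hi => hgp N c i e x hx hi I hI') i e x hx hi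
  · refine linInd_of_lim (l := (l : Filter α)) hw (Eventually.of_forall hρN)
      (Eventually.of_forall hg) (fun c => (hu c).isSec) (fun c => hlast c hexp) ?_
    intro c c'
    rw [tendsto_iff_norm_sub_tendsto_zero]
    exact squeeze_zero (fun _ => norm_nonneg _) (fun N => horth N c c') hη
  · intro r' f hr i e x hx hi J
    refine minors_vanish (l := (l : Filter α)) hk hnk hw hρ₀ (Eventually.of_forall hv)
      (Eventually.of_forall hvC) (Eventually.of_forall hτ) (Eventually.of_forall hε0) hε ha hb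
      (Eventually.of_forall hcurv) hc0 (Eventually.of_forall hdet) (Eventually.of_forall hK) hr
      (g := fun N c => g N (f c)) (G := fun c => u (f c))
      (Eventually.of_forall fun N c => hg N (f c)) (Eventually.of_forall fun N c => hgp N (f c))
      (C2 := max 2 C2)
      (Eventually.of_forall fun N c => (hgn N (f c)).trans (le_max_left _ _))
      (Eventually.of_forall fun N c => (hgk N (f c)).trans
        (mul_le_mul_of_nonneg_right (le_max_right _ _) (hε0 N).le)) ?_ i hx hi J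
    intro i e x hx hi
    obtain ⟨R, hR, hRd⟩ := Metric.nhds_basis_closedBall.mem_iff.1
      ((H862.isOpen_dom L i e).mem_nhds (H862.mem_dom hx hi))
    refine ⟨R, hR, hRd, ?_, ?_⟩
    · intro c I z hz
      have h1 := H862.At.of_dom hx.1 (hRd hz)
      have := ((hu (f c)).holo i e _ h1.1 h1.2.1 I).continuousAt
      rw [h1.2.2] at this
      exact this.continuousWithinAt
    · intro c I
      exact (hK1 (f c) e hx.1 i _ (isCompact_closedBall (e x) R) hRd).one
        (isCompact_closedBall _ _).measure_ne_top subset_rfl I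


/-- a subsequence with constant finite data -/
lemma exists_const_sub {β : Type*} [Finite β] (f : ℕ → β) :
    ∃ (y : β) (φ : ℕ → ℕ), (∀ K, K ≤ φ K) ∧ ∀ K, f (φ K) = y := by
  obtain ⟨y, hy⟩ := Finite.exists_infinite_fiber f
  have h1 : (f ⁻¹' {y}).Infinite := Set.infinite_coe_iff.1 hy
  have h2 : ∀ K, ∃ N, K ≤ N ∧ f N = y := fun K => by
    obtain ⟨N, hN, hK⟩ := h1.exists_gt K
    exact ⟨N, hK.le, hN⟩
  choose φ h3 h4 using h2
  exact ⟨y, φ, h3, h4⟩

/-- truncation of the ranks -/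
lemma sum_min_le {s : Finset ℕ} {Q : ℕ → Prop} [DecidablePred Q] {r : ℕ → ℕ} {χ : ℕ}
    (h : χ ≤ ∑ p ∈ s, if Q p then r p else 0) :
    χ ≤ ∑ p ∈ s, if Q p then min (r p) χ else 0 := by
  by_cases hc : ∃ p ∈ s, Q p ∧ χ ≤ r p
  · obtain ⟨p, hp, hQ, hr⟩ := hc
    calc χ = if Q p then min (r p) χ else 0 := by rw [if_pos hQ, min_eq_right hr]
      _ ≤ _ := Finset.single_le_sum (f := fun p => if Q p then min (r p) χ else 0)
        (fun _ _ => Nat.zero_le _) hp
  · push Not at hc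
    refine h.trans (le_of_eq (Finset.sum_congr rfl fun p hp => ?_))
    by_cases hQ : Q p
    · rw [if_pos hQ, if_pos hQ, min_eq_left (hc p hp hQ).le]
    · rw [if_neg hQ, if_neg hQ]

/-- almost orthonormal approximate kernel elements of degree `p` in `L^q` for the metric `ρ` -/
def Good (L : LineBundle d X ι) (w : Fm d X) (ρ : ι → X → ℝ) (q p r : ℕ) (ε : ℝ) : Prop :=
  ∃ g : Fin r → H862.Fam d X ι, (∀ a, H862.IsSec (powL L q) (g a)) ∧
    (∀ a i e x, At e x → x ∈ L.U i → ∀ I : FI d, I.card ≠ p → g a i e (e x) I = 0) ∧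
    (∀ a b, ‖H862.ip (powL L q) (fun i x => (q : ℕ) * ρ i x) w (g a) (g b) -
      if a = b then 1 else 0‖ ≤ ε) ∧
    ∀ a, (H862.ip (powL L q) (fun i x => (q : ℕ) * ρ i x) w
        (DX (fun i x => (q : ℕ) * ρ i x) (g a)) (DX (fun i x => (q : ℕ) * ρ i x) (g a))).re +
      (H862.ip (powL L q) (fun i x => (q : ℕ) * ρ i x) w (dX w (g a)) (dX w (g a))).re ≤ ε

lemma Good.mono {w : Fm d X} {ρ : ι → X → ℝ} {q p r r' : ℕ} {ε : ℝ} (h : Good L w ρ q p r ε)
    (hr : r' ≤ r) : Good L w ρ q p r' ε := by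
  obtain ⟨g, h1, h2, h3, h4⟩ := h
  refine ⟨fun a => g (Fin.castLE hr a), fun a => h1 _, fun a => h2 _, fun a b => ?_, fun a => h4 _⟩
  have h5 := h3 (Fin.castLE hr a) (Fin.castLE hr b)
  simpa only [Fin.castLE_inj] using h5

lemma exp_le_one_add {t P y : ℝ} (h0 : 0 ≤ t) (h1 : t ≤ P) :
    Real.exp (-(t * y)) ≤ 1 + Real.exp (-(P * y)) := by
  rcases le_total 0 y with hy | hy
  · have : Real.exp (-(t * y)) ≤ 1 := by
      rw [Real.exp_le_one_iff]
      have := mul_nonneg h0 hy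
      linarith
    linarith [Real.exp_pos (-(P * y))]
  · have : Real.exp (-(t * y)) ≤ Real.exp (-(P * y)) := by
      apply Real.exp_le_exp.2
      nlinarith
    linarith

/-- **limits of the approximate kernels for the Calabi-Yau metrics** -/
theorem good_limit {F : X → X} {w : Fm d X} (hw : IsKahler w) {ρ : ι → X → ℝ} (hρ : IsMetric L ρ)
    {ε : ℕ → ℝ} (hε0 : ∀ N, 0 < ε N) (hε1 : ∀ N, ε N ≤ 1) (hεt : Tendsto ε atTop (𝓝 0))
    {φ : ℕ → X → ℝ} {τ : ℕ → Fm d X} {n : ℕ} (hn : n < d) (hnd : d - n = n)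
    {δ C C₁ c₀ K P : ℝ} (hδ : 0 < δ)
    (hC : 0 ≤ C) (hc₀ : 0 < c₀)
    (hA : ∀ N, CYApprox F L ρ w n 1 δ C C₁ c₀ K (ε N) (φ N) (τ N))
    (hexp : ∀ e ∈ atlas (Cm d) X, ∀ S : Set (Cm d), IsCompact S → S ⊆ e.target →
      ∃ B : ℝ≥0∞, B ≠ ⊤ ∧ ∀ N,
        ∫⁻ z in S, ENNReal.ofReal (Real.exp (-(P * φ N (e.symm z)))) ≤ B)
    {q : ℕ} (hq : 1 ≤ q) (hqP : (2 * d + 1) * (q : ℝ) ≤ P) {p r : ℕ}
    (hG : ∀ N, Good L w (fun i x => ρ i x + φ N x) q p r (ε N)) :
    ∃ v : Fin r → H862.Fam d X ι, (∀ a, H724.IsSec L H897.LamF q (v a)) ∧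
      (∀ a, H724.Homog L p (v a)) ∧ H724.LinInd L v ∧
      ∀ {r' : ℕ} (f : Fin r' → Fin r), cnt d n p < r' →
        ∀ i (e : Chart d X) x, At e x → x ∈ L.U i →
          H724.wedge (fun a => v (f a)) i e (e x) = 0 := by
  have hq0 : (0 : ℝ) < q := by exact_mod_cast hq
  choose g g1 g2 g3 g4 using hG
  have hwt : ∀ N, (fun i x => (q : ℕ) * (ρ i x + φ N x)) =
      fun i x => (q : ℝ) * ρ i x + (q : ℝ) * φ N x := fun N => by
    funext i x; ring
  have hρq := powL_metric hρ q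
  have hexp' : ∀ e ∈ atlas (Cm d) X, ∀ S : Set (Cm d), IsCompact S → S ⊆ e.target →
      ∃ B : ℝ≥0∞, B ≠ ⊤ ∧ ∀ N,
        ∫⁻ z in S, ENNReal.ofReal (Real.exp (-((2 * d + 1) * ((q : ℝ) * φ N (e.symm z))))) ≤ B := by
    intro e he S hS hSe
    obtain ⟨B, hB, hBN⟩ := hexp e he S hS hSe
    refine ⟨volume S + B, by finiteness [hS.measure_lt_top (μ := volume)], fun N => ?_⟩
    calc ∫⁻ z in S, ENNReal.ofReal (Real.exp (-((2 * d + 1) * ((q : ℝ) * φ N (e.symm z)))))
        ≤ ∫⁻ z in S, (1 + ENNReal.ofReal (Real.exp (-(P * φ N (e.symm z))))) := by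
          refine lintegral_mono fun z => ?_
          rw [← ENNReal.ofReal_one, ← ENNReal.ofReal_add zero_le_one (Real.exp_pos _).le]
          apply ENNReal.ofReal_le_ofReal
          rw [← mul_assoc]
          exact exp_le_one_add (by positivity) hqP
      _ = volume S + ∫⁻ z in S, ENNReal.ofReal (Real.exp (-(P * φ N (e.symm z)))) := by
          rw [lintegral_add_left measurable_const]
          simp
      _ ≤ _ := by gcongr; exact hBN N
  have hcurv' : ∀ N, ∀ i (e : Chart d X) x, At e x → x ∈ (powL L q).U i →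
      (cHess (fun z => (q : ℝ) * ρ i (e.symm z) + (q : ℝ) * φ N (e.symm z)) (e x) +
        ((q * C * ε N : ℝ) : ℂ) • w e (e x) - ((q * δ : ℝ) : ℂ) • τ N e (e x)).PosSemidef := by
    intro N i e x hx hi
    have h1 := (hA N).curv i e x hx hi
    have s1 : ContDiffAt ℝ 2 (fun z => ρ i (e.symm z)) (e x) :=
      (hρ.smooth i e x hx hi).of_le (by norm_cast)
    have s2 : ContDiffAt ℝ 2 (fun z => φ N (e.symm z)) (e x) :=
      ((hA N).smooth e x hx).of_le (by norm_cast)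
    have h2 : cHess (fun z => (q : ℝ) * ρ i (e.symm z) + (q : ℝ) * φ N (e.symm z)) (e x) =
        ((q : ℝ) : ℂ) • cHess (fun z => ρ i (e.symm z) + φ N (e.symm z)) (e x) := by
      rw [← C2.cHess_const_mul (q : ℝ) (s1.add s2)]
      congr 1
      funext z; ring
    have h3 : pull (F^[0]) (τ N) e (e x) = τ N e (e x) :=
      pull_id (hA N).kahler.toIsHermitian.isForm e x hx
    rw [Finset.sum_range_one, h3] at h1
    have h4 := h1.smul (Complex.zero_le_real.2 hq0.le)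
    have h5 : ((q : ℝ) : ℂ) • (cHess (fun z => ρ i (e.symm z) + φ N (e.symm z)) (e x) +
        ((C * ε N : ℝ) : ℂ) • w e (e x) - ((δ / (1 : ℕ) : ℝ) : ℂ) • τ N e (e x)) =
        cHess (fun z => (q : ℝ) * ρ i (e.symm z) + (q : ℝ) * φ N (e.symm z)) (e x) +
          ((q * C * ε N : ℝ) : ℂ) • w e (e x) - ((q * δ : ℝ) : ℂ) • τ N e (e x) := by
      rw [h2]
      push_cast
      module
    rw [h5] at h4
    exact h4
  have horth' : ∀ N a b, ‖H862.ip (powL L q) (fun i x => (q : ℝ) * ρ i x + (q : ℝ) * φ N x) w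
      (g N a) (g N b) - (if a = b then 1 else 0)‖ ≤ ε N := by
    intro N a b
    have := g3 N a b
    rw [hwt N] at this
    exact this
  have hgk' : ∀ N a,
      (H862.ip (powL L q) (fun i x => (q : ℝ) * ρ i x + (q : ℝ) * φ N x) w
        (DX (fun i x => (q : ℝ) * ρ i x + (q : ℝ) * φ N x) (g N a))
        (DX (fun i x => (q : ℝ) * ρ i x + (q : ℝ) * φ N x) (g N a))).re +
      (H862.ip (powL L q) (fun i x => (q : ℝ) * ρ i x + (q : ℝ) * φ N x) w
        (dX w (g N a)) (dX w (g N a))).re ≤ 1 * ε N := by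
    intro N a
    have := g4 N a
    rw [hwt N] at this
    rw [one_mul]
    exact this
  obtain ⟨v, hv1, hv2, hv3, hv4⟩ := cy_lim_gen (L := powL L q) (hyperfilter ℕ) (k := n) (n := n) hn
    le_rfl hw (ρ₀ := fun i x => (q : ℝ) * ρ i x) hρq (v := fun N x => (q : ℝ) * φ N x)
    (fun N => Smooth.const_mul _ (hA N).smooth) (C1 := q * C₁)
    (fun N x => mul_le_mul_of_nonneg_left ((hA N).upper x) hq0.le) hexp'
    (τ := τ) (fun N => (hA N).kahler) hε0 (hεt.mono_left Nat.hyperfilter_le_atTop)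
    (a := q * C) (b := q * δ) (by positivity) (by positivity) hcurv' (c0 := c₀) (K := K) hc₀
    (fun N e x hx => (hA N).det e x hx) (fun N => (hA N).det_add) (p := p) (r := r) (g := g)
    (fun N a => g1 N a) (fun N a => g2 N a) (η := ε) (hεt.mono_left Nat.hyperfilter_le_atTop) hε1
    horth' (C2 := 1) hgk'
  refine ⟨v, fun a => isSec_of_isHol (hv1 a), fun a => hv2 a, hv3, ?_⟩
  intro r' f hr' i e x hx hi
  funext J
  have h1 := hv4 f (by rw [hnd]; exact hr') i e x hx hi J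
  rw [← Matrix.det_transpose] at h1
  exact h1

variable {w s : Fm d X} {ρ : ι → X → ℝ} {F : Auto d X} {c : ℝ} {u h : X → ℝ}

/-- **Limit forms.** Linearly independent holomorphic `L^q`-valued forms of fixed parity, at least
`|χ|` in number, any `cnt d n p + 1` of those of degree `p` being dependent at every point. -/
theorem exists_limit_forms [ConnectedSpace X] (hs : IsSymplectic d X w s)
    (D : Dat F w L ρ c u h) {n : ℕ} (hd : d = 2 * n) (hn : 0 < n)
    (hne : ¬ H450.IsExact (curvature L ρ)) (hχ : HB.chi0 d X ≠ 0) {k0 : ℕ} (hk0 : 1 ≤ k0) :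
    ∃ (m : ℕ) (σ : ℤˣ) (r : ℕ → ℕ), 1 ≤ m ∧
      (HB.chi0 d X).natAbs ≤ (∑ p ∈ Finset.range (d + 1), if (-1) ^ p = σ then r p else 0) ∧
      ∀ p ∈ Finset.range (d + 1), (-1) ^ p = σ →
        ∃ v : Fin (r p) → H862.Fam d X ι, (∀ a, H724.IsSec L H897.LamF (m * k0) (v a)) ∧
          (∀ a, H724.Homog L p (v a)) ∧ H724.LinInd L v ∧
          ∀ {r' : ℕ} (f : Fin r' → Fin (r p)), cnt d n p < r' →
            ∀ i (e : Chart d X) x, At e x → x ∈ L.U i →
              H724.wedge (fun a => v (f a)) i e (e x) = 0 := by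
  classical
  obtain ⟨M, hM⟩ := exists_forms_chi L k0 hχ
  obtain ⟨δ, C, C₁, c₀, K, hδ, -, hC, hc₀, φ, τ, hA, hexp⟩ :=
    exists_cy_symplectic hs D hd hn hne (m := 1) le_rfl (p := (2 * d + 1) * ((M * k0 : ℕ) : ℝ))
      (by positivity)
  set χ : ℕ := (HB.chi0 d X).natAbs with hχdef
  set ε : ℕ → ℝ := fun N => 1 / ((N : ℝ) + 1) with hε
  have hε0 : ∀ N, 0 < ε N := fun N => by positivity
  have hε1 : ∀ N, ε N ≤ 1 := fun N => by
    rw [hε]
    simp only
    rw [div_le_one (by positivity)]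
    have : (0 : ℝ) ≤ N := Nat.cast_nonneg _
    linarith
  have hεm : ∀ {N N' : ℕ}, N ≤ N' → ε N' ≤ ε N := fun {N N'} h => by
    have : (N : ℝ) ≤ N' := by exact_mod_cast h
    exact one_div_le_one_div_of_le (by positivity) (by linarith)
  have hstep : ∀ N : ℕ, ∃ (m : ℕ) (σ : ℤˣ) (r : ℕ → ℕ), 1 ≤ m ∧ m ≤ M ∧
      χ ≤ (∑ p ∈ Finset.range (d + 1), if (-1) ^ p = σ then r p else 0) ∧ (∀ p, r p ≤ χ) ∧
      ∀ p ∈ Finset.range (d + 1), (-1) ^ p = σ →
        Good L w (fun i x => ρ i x + φ (ε N) x) (m * k0) p (r p) (ε N) := by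
    intro N
    obtain ⟨m, hm1, hm2, σ, r, hr, hg⟩ := hM _
      (isMetric_add D.metric (hA _ (hε0 N) (hε1 N)).smooth) w D.kahler (ε N) (hε0 N)
    refine ⟨m, σ, fun p => min (r p) χ, hm1, hm2, sum_min_le hr, fun p => min_le_right _ _,
      fun p hp hps => ?_⟩
    exact Good.mono (hg p hp hps) (min_le_left _ _)
  choose m σ r hm1 hm2 hr hrχ hG using hstep
  obtain ⟨⟨m₀, σ₀, r₀⟩, ψ, hψ, hψc⟩ := exists_const_sub (β := Fin (M + 1) × ℤˣ ×
    (Fin (d + 1) → Fin (χ + 1))) fun N => (⟨m N, Nat.lt_succ_of_le (hm2 N)⟩, σ N,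
      fun p => ⟨r N p, Nat.lt_succ_of_le (hrχ N p)⟩)
  have e1 : ∀ K, m (ψ K) = m₀ := fun K => congrArg (fun q => (q.1 : ℕ)) (hψc K)
  have e2 : ∀ K, σ (ψ K) = σ₀ := fun K => congrArg (fun q => q.2.1) (hψc K)
  have e3 : ∀ K (p : Fin (d + 1)), r (ψ K) p = r₀ p := fun K p =>
    congrArg (fun q => ((q.2.2 p : Fin (χ + 1)) : ℕ)) (hψc K)
  refine ⟨m₀, σ₀, r (ψ 0), by rw [← e1 0]; exact hm1 _, by rw [← e2 0]; exact hr _, ?_⟩
  intro p hp hps
  have hpd : p < d + 1 := Finset.mem_range.1 hp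
  have hrr : ∀ K, r (ψ K) p = r (ψ 0) p := fun K => by
    rw [show p = ((⟨p, hpd⟩ : Fin (d + 1)) : ℕ) from rfl, e3 K, e3 0]
  have hm0M : (m₀ : ℕ) ≤ M := Nat.le_of_lt_succ m₀.2
  have hm01 : 1 ≤ (m₀ : ℕ) := by rw [← e1 0]; exact hm1 _
  refine good_limit (F := F) D.kahler D.metric (ε := fun K => ε (ψ K)) (fun K => hε0 _)
    (fun K => hε1 _) ?_ (φ := fun K => φ (ε (ψ K))) (τ := fun K => τ (ε (ψ K))) (n := n)
    (by omega) (by omega) hδ hC hc₀ (fun K => hA _ (hε0 _) (hε1 _))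
    (P := (2 * d + 1) * ((M * k0 : ℕ) : ℝ)) (fun e he S hS hSe => ?_) (q := m₀ * k0)
    (Nat.mul_pos hm01 hk0) ?_ (p := p) (r := r (ψ 0) p) fun K => ?_
  · refine squeeze_zero (fun K => (hε0 _).le) (fun K => hεm (hψ K)) ?_
    exact tendsto_one_div_add_atTop_nhds_zero_nat
  · obtain ⟨B, hB, hB'⟩ := hexp e he S hS hSe
    exact ⟨B, hB, fun K => hB' _ (hε0 _) (hε1 _)⟩
  · have : ((m₀ * k0 : ℕ) : ℝ) ≤ ((M * k0 : ℕ) : ℝ) := by
      exact_mod_cast Nat.mul_le_mul_right k0 hm0M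
    exact mul_le_mul_of_nonneg_left this (by positivity)
  · have h1 := hG (ψ K) p hp (by rw [e2 K]; exact hps)
    rw [e1 K, hrr K] at h1
    exact h1

end Vale.Agent.P301.H794
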