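import Vale.Agent.P301.H450.HI
import Vale.Agent.P301.H599.Sym
import Vale.Agent.P301.H599.Iter

/-! P301, H794: invariance of the form `q` under automorphisms. -/

open scoped Manifold ContDiff ComplexOrder Topology Matrix ComplexConjugate
open Filter Metric Set
open Vale.Agent.P272.K Vale.Agent.P272.K.C2
open Vale.Agent.P299 Vale.Agent.P299.H954 Vale.Agent.P301.H599 Vale.Agent.P301.H450
open Vale.Agent.P272.K.INT (IsClosedForm IsDensity intX)

set_option linter.all false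

noncomputable section

namespace Vale.Agent.P301.H794

section loc

variable {d : ℕ}

/-- pullback of a closed form, in coordinates -/
lemma closed_pull_loc {B : Cm d → Matrix (Fin d) (Fin d) ℂ} {Φ : Cm d → Cm d} {z : Cm d}
    (hΦ : ContDiffAt ℂ ω Φ z) (hB : ∀ p q, ContDiffAt ℝ ∞ (fun y => B y p q) (Φ z))
    (hc : ∀ i k l, dz i (fun y => B y k l) (Φ z) = dz k (fun y => B y i l) (Φ z))
    (i k l : Fin d) :
    dz i (fun y => ((jmat Φ y)ᵀ * B (Φ y) * (jmat Φ y).map (starRingEnd ℂ)) k l) z =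
      dz k (fun y => ((jmat Φ y)ᵀ * B (Φ y) * (jmat Φ y).map (starRingEnd ℂ)) i l) z := by
  have hΦd : DifferentiableAt ℂ Φ z := hΦ.differentiableAt (by simp)
  have hΦr : ContDiffAt ℝ ∞ Φ z := (hΦ.restrict_scalars ℝ).of_le (by exact le_top)
  have hJ : ∀ p q, DifferentiableAt ℝ (fun y => jmat Φ y p q) z := fun p q =>
    ((jmat_holo hΦ p q).differentiableAt (by simp)).restrictScalars ℝ
  have hJc : ∀ p q, DifferentiableAt ℝ (fun y => conj (jmat Φ y p q)) z := fun p q =>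
    Complex.conjCLE.differentiableAt.comp z (hJ p q)
  have hBΦ : ∀ p q, DifferentiableAt ℝ (fun y => B (Φ y) p q) z := fun p q =>
    ((hB p q).comp z hΦr).differentiableAt (by simp)
  have key : ∀ i k, dz i (fun y => ((jmat Φ y)ᵀ * B (Φ y) *
      (jmat Φ y).map (starRingEnd ℂ)) k l) z =
      ∑ q, ∑ p, (dz i (fun y => jmat Φ y p k) z * B (Φ z) p q * conj (jmat Φ z q l) +
        jmat Φ z p k * (∑ r, dz r (fun y => B y p q) (Φ z) * jmat Φ z r i) *
          conj (jmat Φ z q l)) := by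
    intro i k
    have h1 : (fun y => ((jmat Φ y)ᵀ * B (Φ y) * (jmat Φ y).map (starRingEnd ℂ)) k l) =
        fun y => ∑ q, ∑ p, jmat Φ y p k * B (Φ y) p q * conj (jmat Φ y q l) := by
      funext y
      simp only [Matrix.mul_apply, Matrix.transpose_apply, Matrix.map_apply, Finset.sum_mul]
    rw [h1, C2.dz_sum i Finset.univ (F := fun q y => ∑ p, jmat Φ y p k * B (Φ y) p q *
      conj (jmat Φ y q l)) (fun q _ => DifferentiableAt.fun_sum fun p _ =>
        ((hJ p k).mul (hBΦ p q)).mul (hJc q l))]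
    refine Finset.sum_congr rfl fun q _ => ?_
    rw [C2.dz_sum i Finset.univ (F := fun p y => jmat Φ y p k * B (Φ y) p q *
      conj (jmat Φ y q l)) (fun p _ => ((hJ p k).mul (hBΦ p q)).mul (hJc q l))]
    refine Finset.sum_congr rfl fun p _ => ?_
    have h2 : dz i (fun y => jmat Φ y p k * B (Φ y) p q * (starRingEnd ℂ) (jmat Φ y q l)) z =
        dz i (fun y => jmat Φ y p k * B (Φ y) p q) z * (starRingEnd ℂ) (jmat Φ z q l) +
        (jmat Φ z p k * B (Φ z) p q) * dz i (fun y => (starRingEnd ℂ) (jmat Φ y q l)) z :=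
      C2.dz_mul i ((hJ p k).mul (hBΦ p q)) (hJc q l)
    have h3 : dz i (fun y => jmat Φ y p k * B (Φ y) p q) z =
        dz i (fun y => jmat Φ y p k) z * B (Φ z) p q +
        jmat Φ z p k * dz i (fun y => B (Φ y) p q) z := C2.dz_mul i (hJ p k) (hBΦ p q)
    have h4 : dz i (fun y => (starRingEnd ℂ) (jmat Φ y q l)) z = 0 := by
      have h5 : dz i (fun y => (starRingEnd ℂ) (jmat Φ y q l)) z =
        (starRingEnd ℂ) (dzb i (fun y => jmat Φ y q l) z) := C2.dz_conj i (hJ q l)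
      rw [h5, dzb_of_holo ((jmat_holo hΦ q l).differentiableAt (by simp)), map_zero]
    have h6 : dz i (fun y => B (Φ y) p q) z =
        ∑ r, dz r (fun y => B y p q) (Φ z) * jmat Φ z r i :=
      dz_comp_holo (i := i) (f := fun y => B y p q) ((hB p q).differentiableAt (by simp)) hΦd
    rw [h2, h3, h4, h6]
    ring
  rw [key i k, key k i]
  simp only [Finset.sum_add_distrib]
  congr 1
  · refine Finset.sum_congr rfl fun q _ => Finset.sum_congr rfl fun p _ => ?_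
    have h2 : ContDiffAt ℝ 2 (fun y => Φ y p) z :=
      ((contDiffAt_pi.1 hΦr) p).of_le (by norm_cast)
    have h3 : dz i (fun y => jmat Φ y p k) z = dz k (fun y => jmat Φ y p i) z :=
      C2.dz_dz_comm i k h2
    rw [h3]
  · refine Finset.sum_congr rfl fun q _ => ?_
    simp only [Finset.mul_sum, Finset.sum_mul]
    rw [Finset.sum_comm]
    refine Finset.sum_congr rfl fun p _ => Finset.sum_congr rfl fun r _ => ?_
    rw [hc p r q]
    ring

end loc

variable {d : ℕ} {X : Type} [TopologicalSpace X] [ChartedSpace (Cm d) X]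
  [IsManifold 𝓘(ℂ, Cm d) ω X]

lemma pull_ev {F : X → X} (hF : ContMDiff 𝓘(ℂ, Cm d) 𝓘(ℂ, Cm d) ω F) {b : Fm d X}
    (hb : IsForm b) {e e' : Chart d X} {x : X} (h : At e x) (h' : At e' (F x)) :
    ∀ᶠ z in 𝓝 (e x), pull F b e z = (jmat (fun y => e' (F (e.symm y))) z)ᵀ *
      b e' (e' (F (e.symm z))) * (jmat (fun y => e' (F (e.symm y))) z).map (starRingEnd ℂ) := by
  filter_upwards [map_near hF.continuous h h'] with z hz
  have := pull_eq hF hb hz.2.1 hz.2.2
  rw [e.right_inv hz.1] at this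
  exact this

/-- the pullback of a closed form is closed -/
theorem isClosedForm_pull {F : X → X} (hF : ContMDiff 𝓘(ℂ, Cm d) 𝓘(ℂ, Cm d) ω F) {b : Fm d X}
    (hb : IsClosedForm b) : IsClosedForm (pull F b) := by
  have key : ∀ (e : Chart d X) x, At e x → ∃ (Φ : Cm d → Cm d) (B : Cm d → Matrix (Fin d) (Fin d) ℂ),
      ContDiffAt ℂ ω Φ (e x) ∧ (∀ p q, ContDiffAt ℝ ∞ (fun y => B y p q) (Φ (e x))) ∧
      (∀ i k l, dz i (fun y => B y k l) (Φ (e x)) = dz k (fun y => B y i l) (Φ (e x))) ∧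
      ∀ᶠ z in 𝓝 (e x), pull F b e z = (jmat Φ z)ᵀ * B (Φ z) *
        (jmat Φ z).map (starRingEnd ℂ) := by
    intro e x h
    have hc := atChart (d := d) (F x)
    set e' := chartAt (Cm d) (F x) with he'
    have h0 : (fun z => e' (F (e.symm z))) (e x) = e' (F x) := by
      show e' (F (e.symm (e x))) = _
      rw [h.left_inv]
    refine ⟨fun z => e' (F (e.symm z)), b e', map_holo hF h hc, ?_, ?_, pull_ev hF hb.form h hc⟩
    · rw [h0]; exact hb.smooth e' _ hc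
    · rw [h0]; exact hb.closed e' _ hc
  refine ⟨?_, isForm_pull hF hb.form, ?_⟩
  · intro e x h i j
    obtain ⟨Φ, B, hΦ, hB, -, hev⟩ := key e x h
    have hΦr : ContDiffAt ℝ ∞ Φ (e x) := (hΦ.restrict_scalars ℝ).of_le (by exact le_top)
    have h1 : (fun z => pull F b e z i j) =ᶠ[𝓝 (e x)] fun z => ∑ q, (∑ p, jmat Φ z p i *
        B (Φ z) p q) * conj (jmat Φ z q j) := by
      filter_upwards [hev] with z hz
      rw [hz]
      simp only [Matrix.mul_apply, Matrix.transpose_apply, Matrix.map_apply]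
    refine ContDiffAt.congr_of_eventuallyEq ?_ h1
    have hJ : ∀ p q, ContDiffAt ℝ ∞ (fun y => jmat Φ y p q) (e x) := fun p q =>
      ((jmat_holo hΦ p q).restrict_scalars ℝ).of_le (by exact le_top)
    refine ContDiffAt.sum fun q _ => (ContDiffAt.sum fun p _ => (hJ p i).mul
      ((hB p q).comp (e x) hΦr)).mul ?_
    exact Complex.conjCLE.contDiff.contDiffAt.comp (e x) (hJ q j)
  · intro e x h i k l
    obtain ⟨Φ, B, hΦ, hB, hc, hev⟩ := key e x h
    have h1 : ∀ k, (fun z => pull F b e z k l) =ᶠ[𝓝 (e x)] fun z => ((jmat Φ z)ᵀ * B (Φ z) *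
        (jmat Φ z).map (starRingEnd ℂ)) k l := by
      intro k
      filter_upwards [hev] with z hz
      rw [hz]
    rw [C2.dz_congr i (h1 k), C2.dz_congr k (h1 i)]
    exact closed_pull_loc hΦ hB hc i k l

/-- matrix identity -/
lemma trace_pull {A B S S₁ J : Matrix (Fin d) (Fin d) ℂ} {α : ℂ} (hα : ‖α‖ = 1)
    (hJ : IsUnit J.det) (hS : IsUnit S.det) (h : Jᵀ * S * J = α • S₁) :
    ((Jᵀ * A * J.map (starRingEnd ℂ)) * ((S₁ᴴ)⁻¹ * (Jᵀ * B * J.map (starRingEnd ℂ))ᵀ *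
      S₁⁻¹)).trace = (A * ((Sᴴ)⁻¹ * Bᵀ * S⁻¹)).trace := by
  have hα0 : α ≠ 0 := by
    intro h0; rw [h0, norm_zero] at hα; exact zero_ne_one hα
  have hJT : IsUnit (Jᵀ).det := by rwa [Matrix.det_transpose]
  have hS1 : S₁ = α⁻¹ • (Jᵀ * S * J) := by
    rw [h, smul_smul, inv_mul_cancel₀ hα0, one_smul]
  have hS1i : S₁⁻¹ = α • (J⁻¹ * S⁻¹ * (Jᵀ)⁻¹) := by
    refine Matrix.inv_eq_right_inv ?_
    rw [hS1, Matrix.smul_mul, Matrix.mul_smul, smul_smul, inv_mul_cancel₀ hα0, one_smul]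
    calc Jᵀ * S * J * (J⁻¹ * S⁻¹ * (Jᵀ)⁻¹) = Jᵀ * (S * (J * J⁻¹) * S⁻¹) * (Jᵀ)⁻¹ := by
          simp only [Matrix.mul_assoc]
      _ = 1 := by
          rw [Matrix.mul_nonsing_inv _ hJ, Matrix.mul_one, Matrix.mul_nonsing_inv _ hS,
            Matrix.mul_one, Matrix.mul_nonsing_inv _ hJT]
  have hS1h : (S₁ᴴ)⁻¹ = conj α • ((J.map (starRingEnd ℂ))⁻¹ * (Sᴴ)⁻¹ * (Jᴴ)⁻¹) := by
    have h1 : (S₁ᴴ)⁻¹ = (S₁⁻¹)ᴴ := (Matrix.conjTranspose_nonsing_inv S₁).symm
    have h2 : ((Jᵀ)⁻¹)ᴴ = (J.map (starRingEnd ℂ))⁻¹ := by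
      rw [Matrix.conjTranspose_nonsing_inv]
      congr 1
    rw [h1, hS1i, Matrix.conjTranspose_smul, Matrix.conjTranspose_mul, Matrix.conjTranspose_mul,
      h2, Matrix.conjTranspose_nonsing_inv, Matrix.conjTranspose_nonsing_inv, Matrix.mul_assoc]
    rfl
  have hJc : IsUnit (J.map (starRingEnd ℂ)).det := by
    have h1 : (J.map (starRingEnd ℂ)).det = (starRingEnd ℂ) J.det := (RingHom.map_det _ _).symm
    rw [h1]
    exact hJ.map (starRingEnd ℂ)
  have hJh : IsUnit (Jᴴ).det := by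
    rw [Matrix.det_conjTranspose]
    exact hJ.map (starRingEnd ℂ)
  have hbT : (Jᵀ * B * J.map (starRingEnd ℂ))ᵀ = Jᴴ * Bᵀ * J := by
    rw [Matrix.transpose_mul, Matrix.transpose_mul, Matrix.transpose_transpose, Matrix.mul_assoc]
    rfl
  rw [hS1i, hS1h, hbT]
  have hαα : conj α * α = 1 := by
    rw [mul_comm, Complex.mul_conj, Complex.normSq_eq_norm_sq, hα]; norm_num
  have h3 : conj α • ((J.map (starRingEnd ℂ))⁻¹ * (Sᴴ)⁻¹ * (Jᴴ)⁻¹) * (Jᴴ * Bᵀ * J) *
      (α • (J⁻¹ * S⁻¹ * (Jᵀ)⁻¹)) =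
      (J.map (starRingEnd ℂ))⁻¹ * ((Sᴴ)⁻¹ * Bᵀ * S⁻¹) * (Jᵀ)⁻¹ := by
    rw [Matrix.smul_mul, Matrix.smul_mul, Matrix.mul_smul, smul_smul, hαα, one_smul]
    calc (J.map (starRingEnd ℂ))⁻¹ * (Sᴴ)⁻¹ * (Jᴴ)⁻¹ * (Jᴴ * Bᵀ * J) * (J⁻¹ * S⁻¹ * (Jᵀ)⁻¹)
        = (J.map (starRingEnd ℂ))⁻¹ * ((Sᴴ)⁻¹ * ((Jᴴ)⁻¹ * Jᴴ) * Bᵀ * (J * J⁻¹) * S⁻¹) *
            (Jᵀ)⁻¹ := by simp only [Matrix.mul_assoc]
      _ = _ := by
          rw [Matrix.nonsing_inv_mul _ hJh, Matrix.mul_nonsing_inv _ hJ, Matrix.mul_one,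
            Matrix.mul_one]
  rw [h3]
  calc (Jᵀ * A * J.map (starRingEnd ℂ) * ((J.map (starRingEnd ℂ))⁻¹ *
        ((Sᴴ)⁻¹ * Bᵀ * S⁻¹) * (Jᵀ)⁻¹)).trace
      = (Jᵀ * (A * (J.map (starRingEnd ℂ) * (J.map (starRingEnd ℂ))⁻¹) *
        ((Sᴴ)⁻¹ * Bᵀ * S⁻¹)) * (Jᵀ)⁻¹).trace := by simp only [Matrix.mul_assoc]
    _ = (Jᵀ * (A * ((Sᴴ)⁻¹ * Bᵀ * S⁻¹)) * (Jᵀ)⁻¹).trace := by
        rw [Matrix.mul_nonsing_inv _ hJc, Matrix.mul_one]
    _ = _ := by
        rw [Matrix.trace_mul_comm, ← Matrix.mul_assoc, Matrix.nonsing_inv_mul _ hJT,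
          Matrix.one_mul]

variable [T2Space X] [CompactSpace X]

/-- **The form `q` is invariant under automorphisms.** -/
theorem q_pull [Nonempty X] (F : Auto d X) {w0 s w a b : Fm d X} {κ : ℝ}
    (hs : IsSymplectic d X w0 s) (S : SData s w κ) (ha : IsClosedForm a) (hb : IsClosedForm b) :
    q s (pull F a) (pull F b) = q s a b := by
  have hF := F.contMDiff
  obtain ⟨α, hα⟩ := hs.unique _ (isHolTwoForm_pull2 hF hs.form)
  unfold q
  rw [← intX_pullD F (q_dens S ha hb)]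
  refine INT.intX_congr fun e x h => ?_
  have hc := atChart (d := d) (F x)
  set e' : Chart d X := chartAt (Cm d) (F x) with he'
  rw [pullD_eq hF (q_dens S ha hb) h hc]
  set J := jacF F e e' (e x) with hJ
  have hvol := pullD_vol2_eq F hs h
  rw [pullD_eq hF (isDensity_vol2 hs.form) h hc] at hvol
  have h2 := hα e x h
  rw [pull2_eq hF hs.form h hc] at h2
  have hne1 : (s e (e x)).det ≠ 0 := hs.nondeg e x h
  have hne2 : (s e' (e' (F x))).det ≠ 0 := hs.nondeg e' (F x) hc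
  have hvol' : ‖(s e' (e' (F x))).det‖ * ‖J.det‖ ^ 2 = ‖(s e (e x)).det‖ := hvol
  have hJ0 : J.det ≠ 0 := by
    intro h0
    rw [h0, norm_zero] at hvol'
    simp only [ne_eq, OfNat.ofNat_ne_zero, not_false_eq_true, zero_pow, mul_zero] at hvol'
    exact hne1 (norm_eq_zero.1 hvol'.symm)
  rcases Nat.eq_zero_or_pos d with hd0 | hd
  · subst hd0
    simp [Matrix.trace]
  have hαn : ‖α‖ = 1 := by
    have h3 := congrArg (fun M => ‖Matrix.det M‖) h2
    simp only [Matrix.det_mul, Matrix.det_transpose, Matrix.det_smul, norm_mul, norm_pow,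
      Fintype.card_fin] at h3
    have h4 : ‖J.det‖ * ‖(s e' (e' (F x))).det‖ * ‖J.det‖ = ‖(s e (e x)).det‖ := by
      rw [← hvol']; ring
    rw [h4] at h3
    have h5 : 0 < ‖(s e (e x)).det‖ := norm_pos_iff.2 hne1
    have h6 : ‖α‖ ^ d = 1 := by
      have := mul_right_cancel₀ h5.ne' (h3.symm.trans (one_mul _).symm)
      exact this
    exact (pow_eq_one_iff_of_nonneg (norm_nonneg _) hd.ne').1 h6
  have h6 := trace_pull (A := a e' (e' (F x))) (B := b e' (e' (F x))) hαn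
    (isUnit_iff_ne_zero.2 hJ0) (isUnit_iff_ne_zero.2 hne2) h2
  show ((pull F a e (e x)) * (((‖(s e (e x)).det‖ : ℝ) : ℂ) • (((s e (e x))ᴴ)⁻¹ *
    (pull F b e (e x))ᵀ * (s e (e x))⁻¹))).trace.re =
    ((a e' (e' (F x))) * (((‖(s e' (e' (F x))).det‖ : ℝ) : ℂ) • (((s e' (e' (F x)))ᴴ)⁻¹ *
    (b e' (e' (F x)))ᵀ * (s e' (e' (F x)))⁻¹))).trace.re * ‖J.det‖ ^ 2
  rw [pull_eq hF ha.form h hc, pull_eq hF hb.form h hc, Matrix.mul_smul, Matrix.mul_smul,
    Matrix.trace_smul, Matrix.trace_smul, smul_eq_mul, smul_eq_mul, Complex.re_ofReal_mul,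
    Complex.re_ofReal_mul, h6, ← hvol']
  ring

/-- a fixed class has the same product with `b` and with `F^* b` -/
theorem q_fixed [Nonempty X] (F : Auto d X) {w0 s w a b : Fm d X} {κ : ℝ}
    (hs : IsSymplectic d X w0 s) (S : SData s w κ) (ha : IsClosedForm a)
    (hFa : SameClass (pull F a) a) (hb : IsClosedForm b) : q s a (pull F b) = q s a b := by
  obtain ⟨u, hu, h1⟩ := hFa
  have hFb := isClosedForm_pull F.contMDiff hb
  have h2 := q_pull F hs S ha hb
  have h3 : q s (pull F a) (pull F b) = q s (fun e z => a e z + ddc u e z) (pull F b) :=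
    q_congr h1 fun _ _ _ => rfl
  rw [h3, q_add_left S ha (isClosed_ddc hu) hFb, q_hess_left S hFb hu, add_zero] at h2
  exact h2

/-- **A fixed class is orthogonal to the parabolic class.** If `(F^* - 1)^2 [b] = c [θ]`, `c ≠ 0`,
and `F^*[a] = [a]`, then `q(a, θ) = 0`. -/
theorem q_fixed_theta [Nonempty X] (F : Auto d X) {w0 s w a b θ : Fm d X} {κ c : ℝ}
    (hs : IsSymplectic d X w0 s) (S : SData s w κ) (ha : IsClosedForm a) (hb : IsClosedForm b)
    (hθ : IsClosedForm θ) (hFa : SameClass (pull F a) a) (hc : c ≠ 0)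
    (hFb : SameClass (fun e z => pull F (pull F b) e z - (2 : ℂ) • pull F b e z + b e z)
      (fun e z => (c : ℂ) • θ e z)) : q s a θ = 0 := by
  obtain ⟨u, hu, h1⟩ := hFb
  have c1 := isClosedForm_pull F.contMDiff hb
  have c2 := isClosedForm_pull F.contMDiff c1
  have c3 : IsClosedForm fun e z => ((-2 : ℝ) : ℂ) • pull F b e z := c1.smul _
  have c4 : IsClosedForm fun e z => (c : ℂ) • θ e z := hθ.smul _
  have h2 : q s a (fun e z => (pull F (pull F b) e z + ((-2 : ℝ) : ℂ) • pull F b e z) + b e z) =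
      q s a (fun e z => (c : ℂ) • θ e z + ddc u e z) := by
    refine q_congr (fun _ _ _ => rfl) fun e x hx => ?_
    rw [← h1 e x hx]
    push_cast
    module
  rw [q_add_right S ha (c2.add c3) hb, q_add_right S ha c2 c3, q_smul_right S,
    q_fixed F hs S ha hFa c1, q_fixed F hs S ha hFa hb, q_add_right S ha c4 (isClosed_ddc hu),
    q_smul_right S, q_hess_right S ha hu] at h2
  have h3 : c * q s a θ = 0 := by linarith
  exact (mul_eq_zero.1 h3).resolve_left hc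

end Vale.Agent.P301.H794
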