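import Vale.Agent.P301.H794.Assembly
import Vale.Agent.P301.H794.FInv
import Vale.Agent.P301.H724.Asm
import Vale.Agent.P301.H450.Kap
import Vale.Agent.P301.H85.SC.Chi

/-! P301, H794: Kodaira dimension at least one for fourfolds. -/

open Filter Metric Set MeasureTheory Topology
open scoped ENNReal ComplexOrder Matrix ComplexConjugate Manifold ContDiff

set_option linter.all false

noncomputable section

namespace Vale.Agent.P301.H794

open Vale.Agent.P272.K Vale.Agent.P299.IX Vale.Agent.P299.IX.Fock Vale.Agent.P301.H85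
open Vale.Agent.P301.H599 Vale.Agent.P301.H862 Vale.Agent.P299.H954

section fixed

variable {d : ℕ} {X : Type} [TopologicalSpace X] [ChartedSpace (Cm d) X]
variable {ι : Type} {L : LineBundle d X ι}
variable [IsManifold 𝓘(ℂ, Cm d) ω X] [CompactSpace X] [T2Space X]
variable {w s : Fm d X} {ρ : ι → X → ℝ} {F : Auto d X} {c : ℝ} {u h : X → ℝ}

/-- the class of the curvature is invariant -/
theorem Dat_fixed (D : Dat F w L ρ c u h) :
    SameClass (pull F (curvature L ρ)) (curvature L ρ) := by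
  have hF : ContMDiff 𝓘(ℂ, Cm d) 𝓘(ℂ, Cm d) ω F := F.contMDiff
  have huF : Smooth (d := d) (fun x => u (F x)) := Smooth.comp hF D.su
  have hc := D.cpos.ne'
  have hcc : (c : ℂ) ≠ 0 := by exact_mod_cast hc
  refine ⟨fun x => (1 / c) * ((u x + h x) - u (F x)),
    ((D.su.add D.sh).sub huF).const_mul _, fun e x hx => ?_⟩
  have h1 := D.pdd e x hx
  have h2 := pull_congr F D.dd e x hx
  rw [pull_add, pull_smul] at h2
  simp only [] at h2
  have h3 := ddc_comp hF D.su e x hx
  have h4 := D.dd e x hx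
  rw [ddc_const_mul (1 / c) ((D.su.add D.sh).sub huF) e x hx]
  simp only []
  rw [ddc_sub (D.su.add D.sh) huF e x hx]
  simp only []
  rw [ddc_add D.su D.sh e x hx]
  simp only []
  rw [h3]
  have h5 : (c : ℂ) • pull F (curvature L ρ) e (e x) =
      (c : ℂ) • curvature L ρ e (e x) + (ddc u e (e x) + ddc h e (e x) -
        pull F (ddc u) e (e x)) := by
    have h6 : (c : ℂ) • pull F (curvature L ρ) e (e x) =
        pull F (DD F w) e (e x) - pull F (ddc u) e (e x) := by
      rw [h2]; abel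
    rw [h6, h1]
    simp only []
    rw [h4]
    show (c : ℂ) • curvature L ρ e (e x) + ddc u e (e x) + ddc h e (e x) -
      pull F (ddc u) e (e x) = _
    rw [add_assoc, add_sub_assoc]
  have h7 : pull F (curvature L ρ) e (e x) =
      (c : ℂ)⁻¹ • ((c : ℂ) • pull F (curvature L ρ) e (e x)) := by
    rw [smul_smul, inv_mul_cancel₀ hcc, one_smul]
  rw [h7, h5, smul_add, smul_smul, inv_mul_cancel₀ hcc, one_smul]
  congr 2
  push_cast
  rw [one_div]

/-- the class of the curvature is isotropic -/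
theorem Dat_q_zero [ConnectedSpace X] (hs : IsSymplectic d X w s) (D : Dat F w L ρ c u h) :
    H450.q s (curvature L ρ) (curvature L ρ) = 0 := by
  haveI : Nonempty X := inferInstance
  obtain ⟨v, κ, hv, hk⟩ := H450.exists_rf hs hs.kahler
  refine q_fixed_theta F hs (H450.SData.of hs hk) (isClosedForm_curvature D.metric)
    (b := w) (INT.IsKahler.isClosedForm hs.kahler) (isClosedForm_curvature D.metric)
    (Dat_fixed D) D.cpos.ne' ⟨u, D.su, fun e x hx => D.dd e x hx⟩

/-- **Nonvanishing.** -/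
theorem Dat_hasSec [ConnectedSpace X] [SimplyConnectedSpace X] (hd : 0 < d)
    (hs : IsSymplectic d X w s) (D : Dat F w L ρ c u h)
    (hne : ¬ H450.IsExact (curvature L ρ)) (hχ : HB.chi0 d X ≠ 0) :
    ∃ k, 0 < k ∧ H724.HasSec L k :=
  H450.kappa_nonneg hd hs D.metric D.isNef (Dat_q_zero hs D) hne fun N => by
    obtain ⟨m, p, hm, hp, v, hv, hh, hx⟩ := H724.exists_form_large D hχ N
    exact ⟨m, v, hm, hv, hx⟩

end fixed

variable {X : Type} [TopologicalSpace X] [ChartedSpace (Cm 4) X] [T2Space X] [CompactSpace X]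
  [SimplyConnectedSpace X] [IsManifold 𝓘(ℂ, Cm 4) ω X]
variable {ι : Type} {L : LineBundle 4 X ι}
variable {w s : Fm 4 X} {ρ : ι → X → ℝ} {F : Auto 4 X} {c : ℝ} {u h : X → ℝ}

lemma chi0_four (hs : IsSymplectic 4 X w s) : HB.chi0 4 X = 3 := chi_eq hs

/-- **Dependent forms in dimension four.** -/
theorem exists_dependent_four (hs : IsSymplectic 4 X w s) (D : Dat F w L ρ c u h)
    (hne : ¬ H450.IsExact (curvature L ρ)) {k0 : ℕ} (hk0 : 1 ≤ k0) :
    ∃ m p r : ℕ, 1 ≤ m ∧ ∃ v : Fin r → H862.Fam 4 X ι,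
      (∀ a, H724.IsSec L H897.LamF (m * k0) (v a)) ∧ (∀ a, H724.Homog L p (v a)) ∧
      H724.LinInd L v ∧ ∀ i (e : Chart 4 X) x, At e x → x ∈ L.U i →
        H724.wedge v i e (e x) = 0 := by
  classical
  have hχ := chi0_four hs
  obtain ⟨m, σ, r, hm, hr, hv⟩ := exists_limit_forms hs D (n := 2) (by norm_num) (by norm_num) hne
    (by rw [hχ]; norm_num) hk0
  rw [hχ] at hr
  have h1 : (∑ p ∈ Finset.range (4 + 1), if (-1 : ℤˣ) ^ p = σ then cnt 4 2 p else 0) ≤ 2 := by
    rcases Int.units_eq_one_or σ with rfl | rfl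
    · decide
    · decide
  have h2 : ∃ p ∈ Finset.range (4 + 1), (-1 : ℤˣ) ^ p = σ ∧ cnt 4 2 p < r p := by
    by_contra hcon
    push Not at hcon
    have h3 : (∑ p ∈ Finset.range (4 + 1), if (-1 : ℤˣ) ^ p = σ then r p else 0) ≤
        ∑ p ∈ Finset.range (4 + 1), if (-1 : ℤˣ) ^ p = σ then cnt 4 2 p else 0 := by
      refine Finset.sum_le_sum fun p hp => ?_
      split_ifs with h
      · exact hcon p hp h
      · exact le_rfl
    have h4 : (3 : ℤ).natAbs = 3 := rfl
    omega
  obtain ⟨p, hp, hps, hpr⟩ := h2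
  obtain ⟨v, hv1, hv2, hv3, hv4⟩ := hv p hp hps
  exact ⟨m, p, r p, hm, v, hv1, hv2, hv3, fun i e x hx hi => hv4 id hpr i e x hx hi⟩

/-- **Kodaira dimension at least one.** The line bundle of a parabolic automorphism of a simply
connected irreducible holomorphic symplectic fourfold has a positive power with two linearly
independent sections. -/
theorem Dat_hasTwoSec_four (hs : IsSymplectic 4 X w s) (D : Dat F w L ρ c u h)
    (hne : ¬ H450.IsExact (curvature L ρ)) : ∃ k, 0 < k ∧ H450.HasTwoSec L k := by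
  obtain ⟨m, p, r, hm, v, hv, hh, hi, hw⟩ := exists_dependent_four hs D hne (k0 := 1) le_rfl
  exact H450.kappa_one (m := m * 1) (by norm_num) hs D.metric D.isNef (Dat_q_zero hs D) hne
    hv (fun b i e x hx hi => hh b i e x hx hi) hi hw

end Vale.Agent.P301.H794
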