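import Vale.Agent.P301.H794.Global

/-! P301, H794: the functions `UU F h c k + f` form a family with uniform constants; uniform
exponential integrability of the approximating metrics. -/

open scoped Manifold ContDiff ComplexOrder Topology ENNReal
open Filter Metric Set MeasureTheory

set_option linter.all false

noncomputable section

namespace Vale.Agent.P301.H794

open Vale.Agent.P272.K Vale.Agent.P272.K.QN Vale.Agent.P301.H599

lemma S1_abs {X : Type} {F : X → X} {h : X → ℝ} {H : ℝ} (hH : ∀ x, |h x| ≤ H) (k : ℕ) (x : X) :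
    |S1 F h k x| ≤ k * H := by
  induction k with
  | zero => simp
  | succ k ih =>
    rw [S1_succ]
    refine (abs_add_le _ _).trans ?_
    have := hH (F^[k] x)
    push_cast
    linarith

lemma S2_abs {X : Type} {F : X → X} {h : X → ℝ} {H : ℝ} (hH : ∀ x, |h x| ≤ H) (k : ℕ) (x : X) :
    |S2 F h k x| ≤ k * (k - 1) / 2 * H := by
  induction k with
  | zero => simp
  | succ k ih =>
    rw [S2_succ]
    refine (abs_add_le _ _).trans ?_
    have := S1_abs (F := F) hH k x
    push_cast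
    linarith

lemma S3_diff {X : Type} {F : X → X} {h : X → ℝ} {H : ℝ} (hH : ∀ x, |h x| ≤ H) (k : ℕ) (x : X) :
    |S3 F h k (F x) - S3 F h k x| ≤ H * (k : ℝ) ^ 2 := by
  have h1 : S3 F h k (F x) - S3 F h k x = S2 F h k x - (k * (k - 1) / 2 : ℝ) * h x := by
    rw [S3_comp, S3_succ]; ring
  rw [h1]
  have hH0 : 0 ≤ H := (abs_nonneg _).trans (hH x)
  have h2 := S2_abs (F := F) hH k x
  have hk : (0 : ℝ) ≤ k * (k - 1) / 2 := by
    rcases Nat.eq_zero_or_pos k with rfl | hk
    · simp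
    · have : (1 : ℝ) ≤ k := by exact_mod_cast hk
      have : (0 : ℝ) ≤ k * (k - 1) := mul_nonneg (by linarith) (by linarith)
      linarith
  have h3 : |(k * (k - 1) / 2 : ℝ) * h x| ≤ k * (k - 1) / 2 * H := by
    rw [abs_mul, abs_of_nonneg hk]
    exact mul_le_mul_of_nonneg_left (hH x) hk
  have h4 := abs_sub (S2 F h k x) ((k * (k - 1) / 2 : ℝ) * h x)
  have h5 : (0 : ℝ) ≤ k := Nat.cast_nonneg k
  have h6 : 0 ≤ (k : ℝ) * H := mul_nonneg h5 hH0
  nlinarith

variable {d : ℕ} {X : Type} [TopologicalSpace X] [ChartedSpace (Cm d) X]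
  [IsManifold 𝓘(ℂ, Cm d) ω X] [CompactSpace X]

lemma exists_abs_le {f : X → ℝ} (hf : Smooth (d := d) f) : ∃ H : ℝ, 0 ≤ H ∧ ∀ x, |f x| ≤ H := by
  have hc : Continuous f := INT.SmoothFn.continuous hf
  obtain ⟨H, hH⟩ := isCompact_univ.exists_bound_of_continuousOn (f := f) hc.continuousOn
  exact ⟨|H|, abs_nonneg _, fun x => (hH x (mem_univ x)).trans (le_abs_self H)⟩

/-- lower bound for the complex Hessian of a smooth function -/
lemma exists_low_hess {w : Fm d X} (hw : IsKahler w) {f : X → ℝ} (hf : Smooth (d := d) f) :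
    ∃ B : ℝ, 0 ≤ B ∧ ∀ e x, At e x → (ddc f e (e x) + (B : ℂ) • w e (e x)).PosSemidef := by
  have hform : IsForm (ddc (d := d) f) := isForm_ddc' fun e x h => hf.two e x h
  obtain ⟨B, hB, h⟩ := exists_comparison_form (b := fun e z => -ddc f e z) hw.toIsHermitian
    (fun e x hx i j => (INT.smooth_cHess (hf e x hx) i j).neg)
    (fun e x hx => (cHess_isHermitian (hf.two e x hx)).neg) (IsForm.neg' hform)
  refine ⟨B, hB.le, fun e x hx => ?_⟩
  have h1 := h e x hx
  have h2 : ddc f e (e x) + (B : ℂ) • w e (e x) = (B : ℂ) • w e (e x) - -ddc f e (e x) := by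
    rw [sub_neg_eq_add, add_comm]
  rw [h2]
  exact h1

variable [T2Space X] {ι : Type} {F : Auto d X} {w : Fm d X} {L : LineBundle d X ι}
  {ρ : ι → X → ℝ} {c : ℝ} {u h : X → ℝ}

/-- the functions `UU F h c k + f` -/
theorem exists_fam (D : Dat F w L ρ c u h) {f : X → ℝ} (hf : Smooth (d := d) f) :
    ∃ A C₀ C₁ C₂ : ℝ, 0 ≤ A ∧ ∀ k : ℕ, 1 ≤ k →
      Fam F w A C₀ C₁ C₂ (fun x => UU F h c k x + f x) := by
  have hc := D.cpos
  obtain ⟨A, hA, hAk⟩ := exists_A F D.kahler D.sh D.pdd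
  obtain ⟨B, hB, hBf⟩ := exists_low_hess D.kahler hf
  obtain ⟨C, hC⟩ := D.UU_le
  obtain ⟨Mf, hMf0, hMf⟩ := exists_abs_le hf
  obtain ⟨H, hH0, hH⟩ := exists_abs_le D.sh
  have hf1 : ∀ x, f x ≤ Mf := fun x => (le_abs_self _).trans (hMf x)
  have hf2 : ∀ x, -Mf ≤ f x := fun x => (abs_le.1 (hMf x)).1
  refine ⟨2 / c * A + B, C + Mf, 2 / c * H + 2 * Mf, 2 / c + Mf, by positivity, fun k hk => ?_⟩
  have hk0 : (0 : ℝ) < k := by exact_mod_cast hk
  have hS : Smooth (d := d) (fun y => S3 F h k y / (k : ℝ) ^ 2) := by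
    have := (smooth_S3 F.contMDiff D.sh k).const_mul (((k : ℝ) ^ 2)⁻¹)
    have h6 : (fun y => S3 F h k y / (k : ℝ) ^ 2) = fun z => ((k : ℝ) ^ 2)⁻¹ * S3 F h k z := by
      funext z; rw [div_eq_inv_mul]
    rw [h6]; exact this
  have hU : Smooth (d := d) (UU F h c k) := hS.const_mul (2 / c)
  refine ⟨hU.add hf, fun e x hx => ?_, fun x => add_le_add (hC k x) (hf1 x), fun x => ?_,
    fun x => ?_⟩
  · have h1 := (hAk k hk e x hx).smul (show 0 ≤ 2 / c by positivity)
    have h2 := hBf e x hx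
    have h3 := ddc_add hU hf e x hx
    have h4 := ddc_const_mul (2 / c) hS e x hx
    have h5 : ddc (UU F h c k) e (e x) = ((2 / c : ℝ) : ℂ) •
        cHess (fun z => (fun y => S3 F h k y / (k : ℝ) ^ 2) (e.symm z)) (e x) := h4
    have h6 : cHess (fun z => UU F h c k (e.symm z) + f (e.symm z)) (e x) =
        ((2 / c : ℝ) : ℂ) •
        cHess (fun z => (fun y => S3 F h k y / (k : ℝ) ^ 2) (e.symm z)) (e x) +
        ddc f e (e x) := by
      rw [← h5]; exact h3
    rw [h6]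
    have h7 : ((2 / c : ℝ) : ℂ) •
        cHess (fun z => (fun y => S3 F h k y / (k : ℝ) ^ 2) (e.symm z)) (e x) +
        ddc f e (e x) + ((2 / c * A + B : ℝ) : ℂ) • w e (e x) =
        (2 / c) • (cHess (fun z => (fun y => S3 F h k y / (k : ℝ) ^ 2) (e.symm z)) (e x) +
        (A : ℂ) • w e (e x)) + (ddc f e (e x) + (B : ℂ) • w e (e x)) := by
      ext i j
      simp only [Matrix.add_apply, Matrix.smul_apply, smul_eq_mul, Complex.real_smul]
      push_cast
      ring
    rw [h7]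
    exact h1.add h2
  · have h1 := S3_diff (F := F) hH k x
    have h2 : UU F h c k (F x) - UU F h c k x =
        (2 / c) * ((S3 F h k (F x) - S3 F h k x) / (k : ℝ) ^ 2) := by
      unfold UU; ring
    have h3 : |UU F h c k (F x) - UU F h c k x| ≤ 2 / c * H := by
      rw [h2, abs_mul, abs_of_pos (by positivity : 0 < 2 / c), abs_div,
        abs_of_pos (by positivity : 0 < (k : ℝ) ^ 2)]
      refine mul_le_mul_of_nonneg_left ?_ (by positivity)
      rw [div_le_iff₀ (by positivity)]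
      exact h1
    have h4 := abs_le.1 h3
    have a1 := hf1 (F x)
    have a2 := hf2 (F x)
    have a3 := hf1 x
    have a4 := hf2 x
    rw [abs_le]
    constructor <;> linarith [h4.1, h4.2]
  · obtain ⟨i, hi⟩ := D.orbit k x
    refine ⟨i, ?_⟩
    have h1 : -(2 / c) ≤ UU F h c k (F^[i] x) := by
      unfold UU
      have hk1 : (1 : ℝ) ≤ k := by exact_mod_cast hk
      have h1 : (-1 : ℝ) ≤ S3 F h k (F^[i] x) / (k : ℝ) ^ 2 := by
        rw [le_div_iff₀ (by positivity)]
        nlinarith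
      have h2 : (0 : ℝ) < 2 / c := by positivity
      nlinarith
    have := hf2 (F^[i] x)
    linarith

variable [PreconnectedSpace X]

/-- **Uniform exponential integrability of the approximating metrics**, local form. -/
theorem Dat_exp_bound (D : Dat F w L ρ c u h) {f : X → ℝ} (hf : Smooth (d := d) f) {p : ℝ}
    (hp : 0 ≤ p) {e : Chart d X} (he : e ∈ atlas (Cm d) X) {K : Set (Cm d)} (hK : IsCompact K)
    (hKe : K ⊆ e.target) : ∃ B : ℝ≥0∞, B ≠ ⊤ ∧ ∀ k : ℕ, 1 ≤ k →
      ∫⁻ z in K, ENNReal.ofReal (Real.exp (-(p * (UU F h c k (e.symm z) + f (e.symm z))))) ≤ B := by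
  obtain ⟨A, C₀, C₁, C₂, hA, hk⟩ := exists_fam D hf
  obtain ⟨B, hB, h⟩ := exists_compact_bound (F := F) (C₀ := C₀) (C₁ := C₁) (C₂ := C₂)
    D.kahler hA hp he hK hKe
  exact ⟨B, hB, fun k h1 => h _ (hk k h1)⟩

/-- **Uniform exponential integrability of the approximating metrics**, global form. -/
theorem Dat_intX_bound (D : Dat F w L ρ c u h) {f : X → ℝ} (hf : Smooth (d := d) f) {p : ℝ}
    (hp : 0 ≤ p) {V : Chart d X → Cm d → ℝ} (hV : INT.IsDensity V)
    (hV0 : ∀ e x, At e x → 0 ≤ V e (e x)) : ∃ B : ℝ, ∀ k : ℕ, 1 ≤ k →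
      INT.intX (fun e z => Real.exp (-(p * (UU F h c k (e.symm z) + f (e.symm z)))) * V e z) ≤
        B := by
  obtain ⟨A, C₀, C₁, C₂, hA, hk⟩ := exists_fam D hf
  obtain ⟨B, h⟩ := exists_intX_bound (F := F) (C₀ := C₀) (C₁ := C₁) (C₂ := C₂)
    D.kahler hA hp hV hV0
  exact ⟨B, fun k h1 => h _ (hk k h1)⟩

end Vale.Agent.P301.H794
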