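import Vale.Agent.P301.H794.Alpha

/-! P301, H794: the alpha invariant in all charts, and mixtures. -/

open scoped Manifold ContDiff ComplexOrder Topology ENNReal
open Filter Metric Set MeasureTheory

set_option linter.all false

noncomputable section

namespace Vale.Agent.P301.H794

open Vale.Agent.P272.K Vale.Agent.P272.K.QN Vale.Agent.P301.H599

variable {d : ℕ} {X : Type} [TopologicalSpace X] [ChartedSpace (Cm d) X]
  [IsManifold 𝓘(ℂ, Cm d) ω X] [CompactSpace X] [T2Space X] [PreconnectedSpace X]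
  {F : Auto d X} {w : Fm d X} {A A' C₀ C₁ C₂ : ℝ}

/-- **Alpha invariant**, over compact subsets of charts; the exponent does not depend on the
chart. -/
theorem exists_alpha (hw : IsKahler w) (hA : 0 ≤ A) (C : ℝ) :
    ∃ a : ℝ, 0 < a ∧ ∀ e : Chart d X, e ∈ atlas (Cm d) X → ∀ K : Set (Cm d), IsCompact K →
      K ⊆ e.target → ∃ B : ℝ≥0∞, B ≠ ⊤ ∧ ∀ v : X → ℝ, QPsh w A v → (∃ q, -C ≤ v q) →
        ∀ b : ℝ, b ≤ a → ∫⁻ z in K, ENNReal.ofReal (Real.exp (-(b * v (e.symm z)))) ≤ B := by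
  have hform : IsForm w := hw.toIsHermitian.isForm
  have hV : INT.IsDensity fun (e : Chart d X) z => (w e z).det.re := INT.isDensity_det hform hw.smooth
  have hV0 : ∀ e x, At e x → 0 < (w e (e x)).det.re := fun e x hx =>
    (Complex.lt_def.1 (hw.posDef e x hx).det_pos).1
  obtain ⟨a, ha, B, hB⟩ := exists_alpha_intX hw hA C hV fun e x hx => (hV0 e x hx).le
  refine ⟨a, ha, fun e he K hK hKe => ?_⟩
  obtain ⟨C', hC', h⟩ := local_le_intX hV hV0 he hK hKe
  refine ⟨ENNReal.ofReal (C' * B), ENNReal.ofReal_ne_top, fun v hv hq b hb => ?_⟩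
  have hvc : Continuous v := INT.SmoothFn.continuous hv.smooth
  refine (h (fun x => Real.exp (-(b * v x))) (by fun_prop) fun x => (Real.exp_pos _).le).trans ?_
  exact ENNReal.ofReal_le_ofReal (mul_le_mul_of_nonneg_left (hB v hv hq b hb) hC'.le)

/-- **Mixtures.** For every `p` and all small `δ`, the functions `(1 - δ) u + δ v` are uniformly
exponentially integrable of order `p`. -/
theorem exists_mix (hw : IsKahler w) (hA : 0 ≤ A) (hA' : 0 ≤ A') (C : ℝ) {p : ℝ} (hp : 0 ≤ p) :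
    ∃ δ₀ : ℝ, 0 < δ₀ ∧ δ₀ ≤ 1 ∧ ∀ e : Chart d X, e ∈ atlas (Cm d) X → ∀ K : Set (Cm d),
      IsCompact K → K ⊆ e.target → ∃ B : ℝ≥0∞, B ≠ ⊤ ∧
        ∀ u : X → ℝ, Fam F w A C₀ C₁ C₂ u → ∀ v : X → ℝ, QPsh w A' v → (∃ q, -C ≤ v q) →
          ∀ δ : ℝ, 0 ≤ δ → δ ≤ δ₀ → ∫⁻ z in K, ENNReal.ofReal
            (Real.exp (-(p * ((1 - δ) * u (e.symm z) + δ * v (e.symm z))))) ≤ B := by
  obtain ⟨a, ha, h⟩ := exists_alpha hw hA' C
  refine ⟨min 1 (a / (2 * p + 1)), lt_min one_pos (by positivity), min_le_left _ _,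
    fun e he K hK hKe => ?_⟩
  obtain ⟨B, hB, hBv⟩ := h e he K hK hKe
  obtain ⟨B', hB', hBu⟩ := exists_compact_bound (F := F) (C₀ := C₀) (C₁ := C₁) (C₂ := C₂)
    hw hA (p := 2 * p) (by positivity) he hK hKe
  refine ⟨ENNReal.ofReal (Real.exp (2 * p * |C₀|)) * B' + B,
    ENNReal.add_ne_top.2 ⟨ENNReal.mul_ne_top ENNReal.ofReal_ne_top hB', hB⟩,
    fun u hu v hv hq δ hδ0 hδ => ?_⟩
  have hδ1 : δ ≤ 1 := hδ.trans (min_le_left _ _)
  have hδa : 2 * p * δ ≤ a := by
    have h1 : δ ≤ a / (2 * p + 1) := hδ.trans (min_le_right _ _)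
    rw [le_div_iff₀ (by positivity)] at h1
    nlinarith
  have hpt : ∀ z, ENNReal.ofReal
      (Real.exp (-(p * ((1 - δ) * u (e.symm z) + δ * v (e.symm z))))) ≤
      ENNReal.ofReal (Real.exp (2 * p * |C₀|)) *
        ENNReal.ofReal (Real.exp (-(2 * p * u (e.symm z)))) +
        ENNReal.ofReal (Real.exp (-(2 * p * δ * v (e.symm z)))) := by
    intro z
    rw [← ENNReal.ofReal_mul (Real.exp_pos _).le, ← ENNReal.ofReal_add (by positivity)
      (Real.exp_pos _).le, ← Real.exp_add]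
    apply ENNReal.ofReal_le_ofReal
    set s := u (e.symm z) with hs
    set t := v (e.symm z) with ht
    have hsC : s ≤ |C₀| := (hu.upper _).trans (le_abs_self _)
    have h1 : -(p * ((1 - δ) * s + δ * t)) = -(p * (1 - δ) * s) + -(p * δ * t) := by ring
    have h2 : Real.exp (-(2 * p * (1 - δ) * s)) = Real.exp (-(p * (1 - δ) * s)) ^ 2 := by
      rw [← Real.exp_nat_mul]; congr 1; push_cast; ring
    have h3 : Real.exp (-(2 * p * δ * t)) = Real.exp (-(p * δ * t)) ^ 2 := by
      rw [← Real.exp_nat_mul]; congr 1; push_cast; ring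
    have h4 : Real.exp (-(2 * p * (1 - δ) * s)) ≤ Real.exp (2 * p * |C₀| + -(2 * p * s)) := by
      apply Real.exp_le_exp.2
      have h5 : p * δ * s ≤ p * |C₀| := by
        have h6 : 0 ≤ p * δ := by positivity
        calc p * δ * s ≤ p * δ * |C₀| := mul_le_mul_of_nonneg_left hsC h6
          _ ≤ p * 1 * |C₀| := by gcongr
          _ = p * |C₀| := by ring
      linarith
    rw [h1, Real.exp_add]
    have h7 := two_mul_le_add_sq (Real.exp (-(p * (1 - δ) * s))) (Real.exp (-(p * δ * t)))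
    have h8 := Real.exp_pos (-(p * (1 - δ) * s))
    have h9 := Real.exp_pos (-(p * δ * t))
    have h10 := mul_pos h8 h9
    rw [h2] at h4
    rw [h3]
    nlinarith
  have hum : Continuous u := INT.SmoothFn.continuous hu.smooth
  have hvm : Continuous v := INT.SmoothFn.continuous hv.smooth
  have hme : AEMeasurable (fun z => ENNReal.ofReal (Real.exp (-(2 * p * δ * v (e.symm z)))))
      (volume.restrict K) := by
    have hc : ContinuousOn (fun z => Real.exp (-(2 * p * δ * v (e.symm z)))) K := by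
      refine Real.continuous_exp.comp_continuousOn (ContinuousOn.neg ?_)
      exact continuousOn_const.mul (hvm.comp_continuousOn (e.continuousOn_symm.mono hKe))
    exact (hc.aemeasurable hK.measurableSet).ennreal_ofReal
  calc ∫⁻ z in K, ENNReal.ofReal
        (Real.exp (-(p * ((1 - δ) * u (e.symm z) + δ * v (e.symm z)))))
      ≤ ∫⁻ z in K, (ENNReal.ofReal (Real.exp (2 * p * |C₀|)) *
        ENNReal.ofReal (Real.exp (-(2 * p * u (e.symm z)))) +
        ENNReal.ofReal (Real.exp (-(2 * p * δ * v (e.symm z))))) := lintegral_mono hpt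
    _ = (ENNReal.ofReal (Real.exp (2 * p * |C₀|)) *
        ∫⁻ z in K, ENNReal.ofReal (Real.exp (-(2 * p * u (e.symm z))))) +
        ∫⁻ z in K, ENNReal.ofReal (Real.exp (-(2 * p * δ * v (e.symm z)))) := by
        rw [lintegral_add_right' _ hme, lintegral_const_mul' _ _ ENNReal.ofReal_ne_top]
    _ ≤ _ := by
        gcongr
        · exact hBu u hu
        · exact hBv v hv hq _ hδa

end Vale.Agent.P301.H794
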