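import Vale.Agent.P301.H794.ZGlue
import Vale.Agent.P301.H951.PTEnd

/-! P301, H794 (PHI-B): the weak equation of the limits of approximate kernel elements. -/

open scoped Manifold ContDiff ComplexOrder Topology Matrix ENNReal
open Vale.Agent.P272.K Vale.Agent.P272.K.C2 Vale.Agent.P299.H954 Vale.Agent.P299.IX
open Vale.Agent.P299.IX.Fock Vale.Agent.P301.H599 Vale.Agent.P301.H862 MeasureTheory Set Filter

set_option linter.all false

noncomputable section

namespace Vale.Agent.P301.H794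

variable {d : ℕ} {X : Type} [TopologicalSpace X] [ChartedSpace (Cm d) X]
variable {ι : Type} {L : LineBundle d X ι} {α : Type*}

section loc

variable {n : ℕ} {w : Cm n → Matrix (Fin n) (Fin n) ℂ} {z : Cm n}

/-- the form dual to the test function `ξ` at the index `I` -/
def dualF (w : Cm n → Matrix (Fin n) (Fin n) ℂ) (ξ : Cm n → ℂ) (I : FI n) (z : Cm n) : FI n → ℂ :=
  fun K => (starRingEnd ℂ) (ξ z * (rho 0 w z)⁻¹ * lam (w z) I K)

lemma rho_ne (h : KAt w z) : rho 0 w z ≠ 0 := pow_ne_zero _ h.det0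

lemma eta_dualF (h : KAt w z) (ξ : Cm n → ℂ) (I J : FI n) {b : Cm n → FI n → ℂ}
    (hb : b z = dualF w ξ I z) : eta w b z J = if J = I then ξ z else 0 := by
  unfold eta
  rw [hb]
  simp only [dualF, Complex.conj_conj]
  have h1 : ∑ K, Ld w z K J * (ξ z * (rho 0 w z)⁻¹ * lam (w z) I K) =
      ξ z * (rho 0 w z)⁻¹ * (lam (w z) * Ld w z) I J := by
    rw [Matrix.mul_apply, Finset.mul_sum]
    exact Finset.sum_congr rfl fun K _ => by ring
  rw [h1]
  have h2 : lam (w z) * Ld w z = 1 := lam_mul_inv h.unit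
  rw [h2, Matrix.one_apply]
  by_cases hJ : J = I
  · rw [if_pos hJ.symm, if_pos hJ]
    have := rho_ne h
    field_simp
  · rw [if_neg (Ne.symm hJ), if_neg hJ, mul_zero, mul_zero]

lemma contDiffAt_dualF (h : KAt w z) {ξ : Cm n → ℂ} (hξ : ContDiffAt ℝ ∞ ξ z) (I : FI n) :
    VC ∞ (dualF w ξ I) z := by
  intro K
  refine Complex.conjCLE.contDiff.contDiffAt.comp z ?_
  exact (hξ.mul ((contDiffAt_rho h).inv (rho_ne h))).mul (MC_lam h.sm I K)

end loc

variable [IsManifold 𝓘(ℂ, Cm d) ω X] [T2Space X] [CompactSpace X]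
variable {w : Fm d X} {ρ : ι → X → ℝ} {l : Filter α} {v : α → X → ℝ} {φ : X → ℝ}
variable {g h : H862.Fam d X ι} {i : ι} {e : Chart d X}

lemma ip_cs (hk : IsKahler w) {ρ : ι → X → ℝ} (hρ : IsMetric L ρ) (hg : H862.IsSec L g)
    (hh : H862.IsSec L h) :
    ‖H862.ip L ρ w g h‖ ≤ √((H862.ip L ρ w g g).re) * √((H862.ip L ρ w h h).re) := by
  set B : HB d X ι := ⟨L, ρ, w, hρ, hk⟩ with hB
  have h1 := norm_inner_le_norm (𝕜 := ℂ) (HB.mkS h hh : B.S) (HB.mkS g hg : B.S)
  rw [norm_mkS B hh, norm_mkS B hg, HB.inner_eq] at h1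
  have h2 : B.ipB (HB.mkS g hg : B.S).f (HB.mkS h hh : B.S).f = H862.ip B.L B.ρ B.w g h :=
    HB.ipB_congr (fun i e x hx hi => HB.mkS_at hg hx hi) (fun i e x hx hi => HB.mkS_at hh hx hi)
  rw [h2, mul_comm] at h1
  exact h1

/-- Hermitian products converge -/
lemma ip_conv (hk : IsKahler w) (hρ : IsMetric L ρ) (hv : ∀ N, Smooth (d := d) (v N))
    (hW : WLim d l v φ) (hg : H862.IsSec L g) (hh : H862.IsSec L h) :
    ∃ c, Tendsto (fun N => H862.ip L (fun i x => ρ i x + v N x) w g h) l (𝓝 c) := by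
  obtain ⟨P⟩ := exists_triv L
  have hρN : ∀ N, IsMetric L (fun i x => ρ i x + v N x) := fun N => isMetric_add hρ (hv N)
  have hha : ∀ a, H862.IsSec L (mulR (P.χ a) h) := fun a => hh.mulR (P.smooth a)
  have h0 : ∀ a i e' x, At e' x → x ∈ L.U i → x ∉ tsupport (P.χ a) →
      mulR (P.χ a) h i e' (e' x) = 0 := by
    intro a i e' x hx hi hxK
    exact (mulR_zero_near hx hxK).self_of_nhds
  have t1 := fun a => ip_tendsto hk hρ hv hW hg (hha a) (P.mem a) (isClosed_tsupport _)
    (P.supp a) (P.suppU a) (h0 a)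
  refine ⟨_, (tendsto_finsetSum (Finset.univ : Finset (Fin P.N)) fun a _ => t1 a).congr
    fun N => ?_⟩
  show ∑ a, intC L _ = intC L _
  rw [← intC_sum _ fun a _ => hg.isDens_hX (hρN N) hk (hha a)]
  refine intC_congr fun i e x hx hi => ?_
  show ∑ a, hw _ _ _ _ _ = hw _ _ _ _ _
  rw [← hw_sum_right, P.sum_mulR]

lemma mul_sqrt_tendsto {a b : α → ℝ} {c : ℝ} (ha : Tendsto a l (𝓝 0)) (hb : Tendsto b l (𝓝 c)) :
    Tendsto (fun N => √(a N) * √(b N)) l (𝓝 0) := by
  have h1 := ((Real.continuous_sqrt.tendsto _).comp ha).mul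
    ((Real.continuous_sqrt.tendsto _).comp hb)
  rw [Real.sqrt_zero, zero_mul] at h1
  exact h1

/-- **The weak equation of the limits, globally.** -/
theorem global_of_approx (hk : IsKahler w) (hρ : IsMetric L ρ)
    (hv : ∀ N, Smooth (d := d) (v N)) (hW : WLim d l v φ) {g : α → H862.Fam d X ι}
    {u : H862.Fam d X ι} (hg : ∀ N, H862.IsSec L (g N)) (hu : H862.IsSec L u)
    (hD : Tendsto (fun N => (H862.ip L (fun i x => ρ i x + v N x) w
      (DX (fun i x => ρ i x + v N x) (g N)) (DX (fun i x => ρ i x + v N x) (g N))).re) l (𝓝 0))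
    (hs : Tendsto (fun N => (H862.ip L (fun i x => ρ i x + v N x) w
      (fun i e z => g N i e z - u i e z) (fun i e z => g N i e z - u i e z)).re) l (𝓝 0))
    {χ : H862.Fam d X ι} (hχ : H862.IsSec L χ) :
    Tendsto (fun N => H862.ip L (fun i x => ρ i x + v N x) w u (dX w χ)) l (𝓝 0) := by
  have hρN : ∀ N, IsMetric L (fun i x => ρ i x + v N x) := fun N => isMetric_add hρ (hv N)
  have hχ' : H862.IsSec L (dX w χ) := hχ.dX hk
  have hgu : ∀ N, H862.IsSec L (fun i e z => g N i e z - u i e z) := fun N =>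
    H897.IsSec.sub (hg N) hu
  obtain ⟨c1, hc1⟩ := ip_conv hk hρ hv hW hχ hχ
  obtain ⟨c2, hc2⟩ := ip_conv hk hρ hv hW hχ' hχ'
  have hc1' := (Complex.continuous_re.tendsto _).comp hc1
  have hc2' := (Complex.continuous_re.tendsto _).comp hc2
  have a1 : Tendsto (fun N => H862.ip L (fun i x => ρ i x + v N x) w (g N) (dX w χ)) l (𝓝 0) := by
    refine squeeze_zero_norm (fun N => ?_) (mul_sqrt_tendsto hD hc1')
    rw [← ip_adj (hρN N) hk (hg N) hχ]
    exact ip_cs hk (hρN N) ((hg N).DX (hρN N)) hχ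
  have a2 : Tendsto (fun N => H862.ip L (fun i x => ρ i x + v N x) w
      (fun i e z => g N i e z - u i e z) (dX w χ)) l (𝓝 0) := by
    refine squeeze_zero_norm (fun N => ?_) (mul_sqrt_tendsto hs hc2')
    exact ip_cs hk (hρN N) (hgu N) hχ'
  have a3 := a1.sub a2
  rw [sub_zero] at a3
  refine a3.congr fun N => ?_
  show intC L _ - intC L _ = intC L _
  rw [← intC_sub ((hg N).isDens_hX (hρN N) hk hχ') ((hgu N).isDens_hX (hρN N) hk hχ')]
  refine intC_congr fun i e x hx hi => ?_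
  show hw _ _ _ _ _ - hw _ _ _ _ _ = hw _ _ _ _ _
  rw [← hw_sub_left]
  congr 1
  exact sub_sub_cancel _ _

/-- **From the global to the local weak equation.** -/
theorem locEq_of_global [l.NeBot] (hk : IsKahler w) (hρ : IsMetric L ρ)
    (hv : ∀ N, Smooth (d := d) (v N)) (hW : WLim d l v φ) {u : H862.Fam d X ι}
    (hu : H862.IsSec L u)
    (hglob : ∀ χ : H862.Fam d X ι, H862.IsSec L χ →
      Tendsto (fun N => H862.ip L (fun i x => ρ i x + v N x) w u (dX w χ)) l (𝓝 0)) :
    LocEq L ρ φ u 0 := by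
  intro i e he I ξ h1 h2 h3
  have hkat : ∀ z ∈ dom L i e, KAt (w e) z := fun z hz => by
    have h1 := At.of_dom he hz
    have := kat hk h1.1
    rwa [h1.2.2] at this
  set V : FI d → Cm d → ℂ := fun J => (dom L i e).indicator fun z => dualF (w e) ξ I z J with hV
  have hext := fun J => ext_smooth (Ω := dom L i e) (C := tsupport ξ) h2 h3
    (H862.isOpen_dom L i e) (V := fun z => dualF (w e) ξ I z J)
    (fun z hz => contDiffAt_dualF (hkat z hz) h1.contDiffAt I J)
    (fun z hz hzK => by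
      simp only [dualF, image_eq_zero_of_notMem_tsupport hzK, zero_mul, map_zero])
  set V' : Cm d → FI d → ℂ := fun z J => V J z with hV'
  have hV's : ContDiff ℝ ∞ V' := contDiff_pi.2 fun J => (hext J).1
  have hV'0 : ∀ z, z ∉ tsupport ξ → V' z = 0 := by
    intro z hz
    funext J
    exact image_eq_zero_of_notMem_tsupport (f := V J) fun h => hz ((hext J).2.2.1 h)
  have hχ : H862.IsSec L (extF L i e V') := isSec_extF he hV's h2 h3 hV'0
  have hχz : ∀ z ∈ dom L i e, extF L i e V' i e z = dualF (w e) ξ I z := by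
    intro z hz
    have h4 := At.of_dom he hz
    have h5 := extF_at (L := L) (v := V') (i := i) (i₀ := i) (e := e) (e₀ := e)
      (x := e.symm z) h4.1 h4.1.2 h4.2.1
    rw [h4.2.2, trm_self h4.1 h4.2.1, Matrix.one_mulVec] at h5
    rw [h5]
    funext J
    exact indicator_of_mem hz _
  set K : Set X := e.symm '' tsupport ξ with hKdef
  have hK : IsClosed K := (h2.isCompact.image_of_continuousOn
    (e.continuousOn_symm.mono fun z hz => (h3 hz).1)).isClosed
  have hKe : K ⊆ e.source := by rintro _ ⟨z, hz, rfl⟩; exact e.map_target (h3 hz).1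
  have hKi : K ⊆ L.U i := by rintro _ ⟨z, hz, rfl⟩; exact (h3 hz).2
  have hz2 : ∀ i' e₁ x, At e₁ x → x ∈ L.U i' → x ∉ K → extF L i e V' i' e₁ (e₁ x) = 0 := by
    intro i' e₁ x hx hi hxK
    by_cases h : x ∈ e.source ∧ x ∈ L.U i
    · rw [extF_at hx h.1 h.2, hV'0 _ fun h' => hxK ⟨e x, h', e.left_inv h.1⟩, Matrix.mulVec_zero]
    · exact extF_at' hx h
  have hz3 : ∀ i' e₁ x, At e₁ x → x ∈ L.U i' → x ∉ K → dX w (extF L i e V') i' e₁ (e₁ x) = 0 := by
    intro i' e₁ x h hi' hxK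
    have h1 : extF L i e V' i' e₁ =ᶠ[𝓝 (e₁ x)] fun _ => 0 := by
      have h2 : ∀ᶠ y in 𝓝 (e₁ x), e₁.symm y ∉ K := by
        have h3 := e₁.continuousAt_symm h.mem_target
        refine h3.preimage_mem_nhds (hK.isOpen_compl.mem_nhds ?_)
        rw [h.left_inv]
        exact hxK
      filter_upwards [h2, (H862.isOpen_dom L i' e₁).mem_nhds (H862.mem_dom h hi')] with y hy hy'
      have h4 := At.of_dom h.1 hy'
      have h5 := hz2 i' e₁ _ h4.1 h4.2.1 hy
      rwa [h4.2.2] at h5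
    show De (w e₁) (extF L i e V' i' e₁) (e₁ x) = 0
    simp only [De, DVb_zero h1, Matrix.mulVec_zero, Finset.sum_const_zero, neg_zero]
  have c1 := ip_tendsto hk hρ hv hW hu (hχ.dX hk) he hK hKe hKi hz3
  have c2 := tendsto_nhds_unique c1 (hglob _ hχ)
  have c3 : ∫ z in dom L i e, -((Real.exp (-(ρ i (e.symm z) + φ (e.symm z))) : ℂ) *
      hp 0 (w e) z (u i e z) (dX w (extF L i e V') i e z)) = 0 := by
    rw [integral_neg, c2, neg_zero]
  rw [← c3]
  refine setIntegral_congr_fun (H862.isOpen_dom L i e).measurableSet fun z hz => ?_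
  have one : (1 : WithTop ℕ∞) ≤ ((⊤ : ℕ∞) : WithTop ℕ∞) := by exact_mod_cast le_top
  have h4 := At.of_dom he hz
  have hus : VC ∞ (u i e) z := by
    have := hu.smooth i e _ h4.1 h4.2.1
    rwa [h4.2.2] at this
  have hcs : VC ∞ (extF L i e V' i e) z := by
    have := hχ.smooth i e _ h4.1 h4.2.1
    rwa [h4.2.2] at this
  have h5 : hp 0 (w e) z (u i e z) (dX w (extF L i e V') i e z) =
      -∑ m, ∑ J, (eps m *ᵥ u i e z) J * DV m (eta (w e) (extF L i e V' i e)) z J :=
    hp_De (hkat z hz) (hus.mono one) (hcs.mono one)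
  have h6 : ∀ m J, DV m (eta (w e) (extF L i e V' i e)) z J = if J = I then dz m ξ z else 0 := by
    intro m J
    show dz m (fun y => eta (w e) (extF L i e V' i e) y J) z = _
    have h7 : (fun y => eta (w e) (extF L i e V' i e) y J) =ᶠ[𝓝 z]
        fun y => if J = I then ξ y else 0 := by
      filter_upwards [(H862.isOpen_dom L i e).mem_nhds hz] with y hy
      exact eta_dualF (hkat y hy) ξ I J (hχz y hy)
    rw [C2.dz_congr m h7]
    by_cases hJ : J = I
    · simp only [if_pos hJ]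
    · simp only [if_neg hJ, C2.dz_const]
  rw [h5]
  simp only [h6, mul_ite, mul_zero, Finset.sum_ite_eq', Finset.mem_univ, if_true, Pi.zero_apply,
    zero_mul, add_zero, mul_neg, neg_neg]

/-- **PHI-B.** -/
theorem locEq_of_approx [l.NeBot] (hk : IsKahler w) (hρ : IsMetric L ρ)
    (hv : ∀ N, Smooth (d := d) (v N)) (hW : WLim d l v φ) {g : α → H862.Fam d X ι}
    {u : H862.Fam d X ι} (hg : ∀ N, H862.IsSec L (g N)) (hu : H862.IsSec L u)
    (hD : Tendsto (fun N => (H862.ip L (fun i x => ρ i x + v N x) w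
      (DX (fun i x => ρ i x + v N x) (g N)) (DX (fun i x => ρ i x + v N x) (g N))).re) l (𝓝 0))
    (hs : Tendsto (fun N => (H862.ip L (fun i x => ρ i x + v N x) w
      (fun i e z => g N i e z - u i e z) (fun i e z => g N i e z - u i e z)).re) l (𝓝 0)) :
    LocEq L ρ φ u 0 :=
  locEq_of_global hk hρ hv hW hu fun _ hχ => global_of_approx hk hρ hv hW hg hu hD hs hχ

/-- **PHI-B** for the limits of `PTEnd`. -/
theorem IsLim.locEq {l : Filter ℕ} [l.NeBot] (hk : IsKahler w) (hρ : IsMetric L ρ)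
    {φN : ℕ → X → ℝ} (hφ : ∀ N, Smooth (d := d) (φN N)) {ε : ℕ → ℝ} (hε : Tendsto ε l (𝓝 0))
    {q p : ℕ} (hW : WLim d l (fun N x => (q : ℝ) * φN N x) fun x => (q : ℝ) * φ x)
    {g : ℕ → H862.Fam d X ι} {u : H862.Fam d X ι} (h : H951.IsLim l L w ρ φN ε q p g u) :
    LocEq (powL L q) (fun i x => (q : ℝ) * ρ i x) (fun x => (q : ℝ) * φ x) u 0 := by
  have hρN : ∀ N, IsMetric (powL L q) (fun i x => (q : ℝ) * ρ i x + (q : ℝ) * φN N x) :=
    fun N => isMetric_add (powL_metric hρ q) (Smooth.const_mul _ (hφ N))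
  refine locEq_of_approx (v := fun N x => (q : ℝ) * φN N x) hk (powL_metric hρ q)
    (fun N => Smooth.const_mul _ (hφ N)) hW h.sec h.hol.isSec ?_ h.strong
  refine squeeze_zero (fun N => ?_) (fun N => ?_) hε
  · exact intC_re_nonneg fun i e x hx hi => hw_nonneg (kat hk hx) _
  · have h1 := h.ker N
    have h2 : 0 ≤ (H862.ip (powL L q) (fun i x => (q : ℝ) * ρ i x + (q : ℝ) * φN N x) w
        (dX w (g N)) (dX w (g N))).re :=
      intC_re_nonneg fun i e x hx hi => hw_nonneg (kat hk hx) _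
    linarith

end Vale.Agent.P301.H794
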