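import Vale.Agent.P301.H794.ZGlob
import Vale.Agent.P301.H862.LocInst

/-! P301, H794: the local right-hand sides of a weak equation glue. -/

open scoped Manifold ContDiff ComplexOrder Topology Matrix ENNReal
open Vale.Agent.P272.K Vale.Agent.P272.K.C2 Vale.Agent.P299.H954 Vale.Agent.P299.IX
open Vale.Agent.P299.IX.Fock Vale.Agent.P301.H599 Vale.Agent.P301.H862 MeasureTheory Set Filter

set_option linter.all false

noncomputable section

namespace Vale.Agent.P301.H794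

variable {d : ℕ} {X : Type} [TopologicalSpace X] [ChartedSpace (Cm d) X]
variable {ι : Type} {L : LineBundle d X ι} {α : Type*}
variable [IsManifold 𝓘(ℂ, Cm d) ω X] [T2Space X] [CompactSpace X]
variable {w : Fm d X} {ρ : ι → X → ℝ} {l : Filter α} {v : α → X → ℝ} {φ : X → ℝ}
variable {g h Z : H862.Fam d X ι} {i j : ι} {e e' : Chart d X} {x : X}

/-- a local form times a cut-off function, extended by zero -/
def cx (L : LineBundle d X ι) (i : ι) (e : Chart d X) (b : Cm d → ℝ) (V : Cm d → FI d → ℂ) :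
    H862.Fam d X ι := extF L i e fun z => (b z : ℂ) • V z

variable {b : Cm d → ℝ} {V V' : Cm d → FI d → ℂ} {O : Set (Cm d)}

lemma isSec_cx (he : e ∈ atlas (Cm d) X) (hO : O ⊆ dom L i e) (hb : ContDiff ℝ ∞ b)
    (hbc : HasCompactSupport b) (hbO : tsupport b ⊆ O) (hV : ∀ z ∈ O, VC ∞ V z) :
    H862.IsSec L (cx L i e b V) := by
  refine isSec_extF he ?_ hbc (hbO.trans hO) fun z hz => ?_
  · rw [contDiff_pi]
    intro I
    rw [contDiff_iff_contDiffAt]
    intro z
    by_cases hz : z ∈ tsupport b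
    · have h1 : ContDiffAt ℝ ∞ (fun z => (b z : ℂ)) z :=
        Complex.ofRealCLM.contDiff.contDiffAt.comp z hb.contDiffAt
      exact h1.mul (hV z (hbO hz) I)
    · have h1 : (fun z => ((b z : ℂ) • V z) I) =ᶠ[𝓝 z] fun _ => 0 := by
        filter_upwards [(notMem_tsupport_iff_eventuallyEq.1 hz)] with y hy
        show ((b y : ℂ) • V y) I = 0
        rw [hy]; simp
      exact contDiffAt_const.congr_of_eventuallyEq h1
  · rw [image_eq_zero_of_notMem_tsupport hz]; simp

lemma cx_at (hx : At e x) (hi : x ∈ L.U i) {j : ι} {e' : Chart d X} (hx' : At e' x) :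
    cx L i e b V j e' (e' x) = trm L j i e' e x *ᵥ ((b (e x) : ℂ) • V (e x)) :=
  extF_at hx' hx.2 hi

lemma cx_self (hx : At e x) (hi : x ∈ L.U i) :
    cx L i e b V i e (e x) = (b (e x) : ℂ) • V (e x) := by
  rw [cx_at hx hi hx, trm_self hx hi, Matrix.one_mulVec]

lemma cx_zero {j : ι} {e' : Chart d X} (he : e ∈ atlas (Cm d) X) (hx' : At e' x)
    (hxK : x ∉ e.symm '' tsupport b) : cx L i e b V j e' (e' x) = 0 := by
  by_cases h : x ∈ e.source ∧ x ∈ L.U i
  · have hx : At e x := ⟨he, h.1⟩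
    rw [cx_at hx h.2 hx']
    have : e x ∉ tsupport b := fun h' => hxK ⟨e x, h', e.left_inv h.1⟩
    rw [image_eq_zero_of_notMem_tsupport this]
    simp
  · exact extF_at' hx' h

/-- **Gluing.** The right-hand sides of the local equations are a global holomorphic section. -/
theorem glue_Z [l.NeBot] (hk : IsKahler w) (hρ : IsMetric L ρ)
    (hv : ∀ N, Smooth (d := d) (v N)) (hW : WLim d l v φ) (hg : H862.IsSec L g)
    (hZ : ∀ i e x, At e x → x ∈ L.U i → ∀ I, AnalyticAt ℂ (fun y => Z i e y I) (e x))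
    (hloc : LocEq L ρ φ g Z) : H897.IsHol L Z := by
  refine ⟨hZ, fun i j e e' x₀ hx hx' hi hj => ?_⟩
  have hρN : ∀ N, IsMetric L (fun i x => ρ i x + v N x) := fun N => isMetric_add hρ (hv N)
  have he := hx.1
  have he' := hx'.1
  set O : Set (Cm d) := e.target ∩ e.symm ⁻¹' (L.U i ∩ (e'.source ∩ L.U j)) with hOdef
  have hOo : IsOpen O := e.isOpen_inter_preimage_symm
    ((L.isOpen i).inter (e'.open_source.inter (L.isOpen j)))
  have hOd : O ⊆ dom L i e := fun z hz => ⟨hz.1, hz.2.1⟩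
  have hxO : e x₀ ∈ O := by
    refine ⟨hx.mem_target, ?_⟩
    show e.symm (e x₀) ∈ L.U i ∩ (e'.source ∩ L.U j)
    rw [hx.left_inv]
    exact ⟨hi, hx'.2, hj⟩
  have hatO : ∀ z ∈ O, At e (e.symm z) ∧ At e' (e.symm z) ∧ e.symm z ∈ L.U i ∧
      e.symm z ∈ L.U j ∧ e (e.symm z) = z := fun z hz =>
    ⟨(At.of_dom he (hOd hz)).1, ⟨he', hz.2.2.1⟩, hz.2.1, hz.2.2.2, (At.of_dom he (hOd hz)).2.2⟩
  obtain ⟨r, hr, hrO⟩ := Metric.nhds_basis_closedBall.mem_iff.1 (hOo.mem_nhds hxO)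
  let b : ContDiffBump (e x₀) := ⟨r / 2, r, half_pos hr, half_lt_self hr⟩
  have hbs : ContDiff ℝ ∞ b := b.contDiff
  have hbc : HasCompactSupport b := b.hasCompactSupport
  have hbO : tsupport b ⊆ O := by rw [b.tsupport_eq]; exact hrO
  have hb1 : b (e x₀) = 1 := b.one_of_mem_closedBall (Metric.mem_closedBall_self b.rIn_pos.le)
  set T : Cm d → Matrix (FI d) (FI d) ℂ := fun z => trm L i j e e' (e.symm z) with hT
  set V2 : Cm d → FI d → ℂ := fun z => T z *ᵥ Z j e' (e' (e.symm z)) with hV2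
  set D : Cm d → FI d → ℂ := fun z => Z i e z - V2 z with hD
  have toR : ∀ {F : Cm d → ℂ} {z : Cm d}, AnalyticAt ℂ F z → ContDiffAt ℝ ∞ F z :=
    fun h => ((h.contDiffAt (n := ∞)).restrict_scalars ℝ)
  have hV1s : ∀ z ∈ O, VC ∞ (Z i e) z := fun z hz I => by
    have h1 := hatO z hz
    have h2 := toR (hZ i e _ h1.1 h1.2.2.1 I)
    rwa [h1.2.2.2.2] at h2
  have hV2s : ∀ z ∈ O, VC ∞ V2 z := fun z hz => by
    obtain ⟨h1, h2, h3, h4, h5⟩ := hatO z hz
    have t1 : MC ∞ T z := by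
      have := trm_smooth h1 h2 h3 h4
      rwa [h5] at this
    refine VC.mulVec t1 fun I => ?_
    have t2 : ContDiffAt ℝ ∞ (fun z => e' (e.symm z)) z := by
      have := ((INT.transition_contDiffAt h1 h2).of_le
        (by exact_mod_cast le_top : (∞ : WithTop ℕ∞) ≤ ω)).restrict_scalars ℝ
      rwa [h5] at this
    have t3 : ContDiffAt ℝ ∞ (fun y => Z j e' y I) (e' (e.symm z)) := toR (hZ j e' _ h2 h4 I)
    exact t3.comp z t2
  have hDs : ∀ z ∈ O, VC ∞ D z := fun z hz I => (hV1s z hz I).sub (hV2s z hz I)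
  set K : Set X := e.symm '' tsupport b with hKdef
  have hK : IsClosed K := (hbc.isCompact.image_of_continuousOn
    (e.continuousOn_symm.mono fun z hz => (hbO hz).1)).isClosed
  have hKe : K ⊆ e.source := by rintro _ ⟨z, hz, rfl⟩; exact e.map_target (hbO hz).1
  have hKi : K ⊆ L.U i := by rintro _ ⟨z, hz, rfl⟩; exact (hbO hz).2.1
  have hKe' : K ⊆ e'.source := by rintro _ ⟨z, hz, rfl⟩; exact (hbO hz).2.2.1
  have hKj : K ⊆ L.U j := by rintro _ ⟨z, hz, rfl⟩; exact (hbO hz).2.2.2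
  have hG1 : H862.IsSec L (cx L i e b (Z i e)) := isSec_cx he hOd hbs hbc hbO hV1s
  have hG2 : H862.IsSec L (cx L i e b V2) := isSec_cx he hOd hbs hbc hbO hV2s
  have hH1 : H862.IsSec L (cx L i e b D) := isSec_cx he hOd hbs hbc hbO hDs
  obtain ⟨bD, hbD⟩ : ∃ F : Cm d → FI d → ℂ, ∀ z, F z = (b z : ℂ) • D z := ⟨_, fun _ => rfl⟩
  have hH2 : H862.IsSec L (cx L i e b bD) := isSec_cx he hOd hbs hbc hbO fun z hz I => by
    have h1 : ContDiffAt ℝ ∞ (fun z => (b z : ℂ)) z :=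
      Complex.ofRealCLM.contDiff.contDiffAt.comp z hbs.contDiffAt
    have h2 := h1.mul (hDs z hz I)
    refine h2.congr_of_eventuallyEq (Eventually.of_forall fun y => ?_)
    show bD y I = _
    rw [hbD]; rfl
  have hz1 : ∀ i' e₁ x, At e₁ x → x ∈ L.U i' → x ∉ K → cx L i e b D i' e₁ (e₁ x) = 0 :=
    fun i' e₁ x h _ hxK => cx_zero he h hxK
  have hz2 : ∀ i' e₁ x, At e₁ x → x ∈ L.U i' → x ∉ K → cx L i e b bD i' e₁ (e₁ x) = 0 :=
    fun i' e₁ x h _ hxK => cx_zero he h hxK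
  have hz3 : ∀ i' e₁ x, At e₁ x → x ∈ L.U i' → x ∉ K → dX w (cx L i e b bD) i' e₁ (e₁ x) = 0 := by
    intro i' e₁ x h hi' hxK
    have h1 : cx L i e b bD i' e₁ =ᶠ[𝓝 (e₁ x)] fun _ => 0 := by
      have h2 : ∀ᶠ y in 𝓝 (e₁ x), e₁.symm y ∉ K := by
        have h3 := e₁.continuousAt_symm h.mem_target
        refine h3.preimage_mem_nhds (hK.isOpen_compl.mem_nhds ?_)
        rw [h.left_inv]
        exact hxK
      filter_upwards [h2, (isOpen_dom L i' e₁).mem_nhds (mem_dom h hi')] with y hy hy'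
      have h4 := At.of_dom h.1 hy'
      have h5 := hz2 i' e₁ _ h4.1 h4.2.1 hy
      rwa [h4.2.2] at h5
    show De (w e₁) (cx L i e b bD i' e₁) (e₁ x) = 0
    simp only [De, DVb_zero h1, Matrix.mulVec_zero, Finset.sum_const_zero, neg_zero]
  -- the two limits
  have a1 := ip_tendsto hk hρ hv hW hG1 hH1 he hK hKe hKi hz1
  have a2 := ip_tendsto hk hρ hv hW hG2 hH1 he' hK hKe' hKj hz1
  have c1 := ip_tendsto hk hρ hv hW hg (hH2.dX hk) he hK hKe hKi hz3
  have c2 := ip_tendsto hk hρ hv hW hg (hH2.dX hk) he' hK hKe' hKj hz3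
  have hcc := tendsto_nhds_unique c1 c2
  have d1 := loc_identity hk hρ hW hg (Z := Z) (fun z hz I => by
    have h1 := At.of_dom he hz
    have h2 := toR (hZ i e _ h1.1 h1.2.1 I)
    rwa [h1.2.2] at h2) hH2 he hK hKe hKi hz2 (hloc i e he)
  have d2 := loc_identity hk hρ hW hg (Z := Z) (fun z hz I => by
    have h1 := At.of_dom he' hz
    have h2 := toR (hZ j e' _ h1.1 h1.2.1 I)
    rwa [h1.2.2] at h2) hH2 he' hK hKe' hKj hz2 (hloc j e' he')
  have e1 : ∫ z in dom L i e, (Real.exp (-(ρ i (e.symm z) + φ (e.symm z))) : ℂ) *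
        hp 0 (w e) z (cx L i e b (Z i e) i e z) (cx L i e b D i e z) =
      ∫ z in dom L i e, (Real.exp (-(ρ i (e.symm z) + φ (e.symm z))) : ℂ) *
        hp 0 (w e) z (Z i e z) (cx L i e b bD i e z) := by
    refine setIntegral_congr_fun (isOpen_dom L i e).measurableSet fun z hz => ?_
    have h1 := At.of_dom he hz
    have s1 := cx_self (b := b) (V := Z i e) h1.1 h1.2.1
    have s2 := cx_self (b := b) (V := D) h1.1 h1.2.1
    have s3 := cx_self (b := b) (V := bD) h1.1 h1.2.1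
    rw [h1.2.2] at s1 s2 s3
    simp only [s1, s2, s3, hbD, hp_smul_left, hp_smul_right, Complex.conj_ofReal]
  have e2 : ∫ z in dom L j e', (Real.exp (-(ρ j (e'.symm z) + φ (e'.symm z))) : ℂ) *
        hp 0 (w e') z (cx L i e b V2 j e' z) (cx L i e b D j e' z) =
      ∫ z in dom L j e', (Real.exp (-(ρ j (e'.symm z) + φ (e'.symm z))) : ℂ) *
        hp 0 (w e') z (Z j e' z) (cx L i e b bD j e' z) := by
    refine setIntegral_congr_fun (isOpen_dom L j e').measurableSet fun y hy => ?_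
    have h1 := At.of_dom he' hy
    by_cases hxK : e'.symm y ∈ K
    · have h2 : At e (e'.symm y) := ⟨he, hKe hxK⟩
      have h3 : e'.symm y ∈ L.U i := hKi hxK
      have s1 := cx_at (b := b) (V := V2) h2 h3 h1.1 (j := j)
      have s2 := cx_at (b := b) (V := D) h2 h3 h1.1 (j := j)
      have s3 := cx_at (b := b) (V := bD) h2 h3 h1.1 (j := j)
      have s4 : trm L j i e' e (e'.symm y) *ᵥ V2 (e (e'.symm y)) = Z j e' y := by
        simp only [hV2, hT]
        rw [h2.left_inv, Matrix.mulVec_mulVec, trm_mul h1.1 h2 h1.1 h1.2.1 h3 h1.2.1,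
          trm_self h1.1 h1.2.1, Matrix.one_mulVec, h1.2.2]
      rw [Matrix.mulVec_smul, s4] at s1
      rw [Matrix.mulVec_smul] at s2
      rw [hbD, Matrix.mulVec_smul, Matrix.mulVec_smul] at s3
      rw [h1.2.2] at s1 s2 s3
      simp only [s1, s2, s3, hp_smul_left, hp_smul_right, Complex.conj_ofReal]
    · have s2 := hz1 j e' _ h1.1 h1.2.1 hxK
      have s3 := hz2 j e' _ h1.1 h1.2.1 hxK
      rw [h1.2.2] at s2 s3
      simp only [s2, s3, hp, pr_zero_right, mul_zero]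
  rw [e1, d1.symm.trans (hcc.trans d2)] at a1
  rw [e2] at a2
  have a3 := a1.sub a2
  rw [sub_self] at a3
  have a4 : Tendsto (fun N => ip L (fun i x => ρ i x + v N x) w (cx L i e b D) (cx L i e b D)) l
      (𝓝 0) := by
    refine a3.congr fun N => ?_
    show intC L _ - intC L _ = intC L _
    rw [← intC_sub (hG1.isDens_hX (hρN N) hk hH1) (hG2.isDens_hX (hρN N) hk hH1)]
    refine intC_congr fun i' e₁ x h hi' => ?_
    show hw _ _ _ _ _ - hw _ _ _ _ _ = hw _ _ _ _ _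
    rw [← hw_sub_left]
    congr 1
    by_cases hxK : x ∈ K
    · have h2 : At e x := ⟨he, hKe hxK⟩
      rw [cx_at h2 (hKi hxK) h, cx_at h2 (hKi hxK) h, cx_at h2 (hKi hxK) h, ← Matrix.mulVec_sub,
        ← smul_sub]
    · rw [cx_zero he h hxK, cx_zero he h hxK, cx_zero he h hxK, sub_zero]
  have a5 := (Complex.continuous_re.tendsto _).comp a4
  rw [Complex.zero_re] at a5
  have a6 := zero_of_ip hk hρ hv hW hH1 a5 hx hi
  rw [cx_self hx hi, hb1, Complex.ofReal_one, one_smul] at a6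
  simp only [hD, hV2, hT, hx.left_inv] at a6
  exact sub_eq_zero.1 a6

end Vale.Agent.P301.H794
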