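import Vale.Agent.P301.H794.ZLoc
import Vale.Agent.P301.H794.ZGlue
import Vale.Agent.P301.H450.SS

/-! P301, H794: the weak equation of `s β` from the weak equations of the `s u_j`. -/

open scoped Manifold ContDiff ComplexOrder Topology Matrix ENNReal
open Vale.Agent.P272.K Vale.Agent.P272.K.C2 Vale.Agent.P299.H954 Vale.Agent.P299.IX
open Vale.Agent.P299.IX.Fock Vale.Agent.P301.H599 Vale.Agent.P301.H862 MeasureTheory Set Filter

set_option linter.all false

noncomputable section

namespace Vale.Agent.P301.H794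

variable {d : ℕ} {X : Type} [TopologicalSpace X] [ChartedSpace (Cm d) X]
variable {ι : Type} {M : LineBundle d X ι} {α : Type*}
variable [IsManifold 𝓘(ℂ, Cm d) ω X] [T2Space X] [CompactSpace X]
variable {w : Fm d X} {ρ : ι → X → ℝ} {l : Filter α} {v : α → X → ℝ} {φ : X → ℝ}

lemma integrableOn_weight (hρ : IsMetric M ρ) (hW : WLim d l v φ) {i : ι} {e : Chart d X}
    (he : e ∈ atlas (Cm d) X) {C : Set (Cm d)} (hCd : C ⊆ dom M i e) (hC : IsCompact C) :
    IntegrableOn (fun z => Real.exp (-(ρ i (e.symm z) + φ (e.symm z)))) C := by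
  have h1 : ContinuousOn (fun z => Real.exp (-ρ i (e.symm z))) C := by
    intro z hz
    have h1 := At.of_dom he (hCd hz)
    have h2 := hρ.smooth i e _ h1.1 h1.2.1
    rw [h1.2.2] at h2
    exact (Real.continuous_exp.continuousAt.comp h2.continuousAt.neg).continuousWithinAt
  obtain ⟨B, hB⟩ := hC.exists_bound_of_continuousOn h1
  have h2 : IntegrableOn (fun z => Real.exp (-φ (e.symm z)) * Real.exp (-ρ i (e.symm z))) C :=
    (hW.int e he C hC (hCd.trans inter_subset_left)).mul_bdd
      (h1.aestronglyMeasurable hC.measurableSet)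
      ((ae_restrict_iff' hC.measurableSet).2 (Eventually.of_forall hB))
  refine h2.congr_fun (fun z _ => ?_) hC.measurableSet
  simp only []
  rw [← Real.exp_add]
  congr 1
  ring

lemma eps_insert {n : ℕ} {k : Fin n} {I : FI n} (hk : k ∉ I) (a : FI n → ℂ) :
    (eps k *ᵥ a) (insert k I) = sg k I * a I := by
  rw [eps_mulVec, if_pos (Finset.mem_insert_self k I), Finset.erase_insert hk, sg_insert hk,
    if_neg (lt_irrefl k)]

lemma rel_comp {n : ℕ} {A : Type*} [Fintype A] {k : Fin n} {I : FI n} (hk : k ∉ I) {s : ℂ}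
    {c : A → ℂ} {β : FI n → ℂ} {u : A → FI n → ℂ}
    (h : s • (eps k *ᵥ β) = ∑ j, c j • u j) (l : Fin n) :
    s * (eps l *ᵥ β) I = ∑ j, (-sg k I * c j) * (eps l *ᵥ u j) (insert k I) := by
  have h1 := congrFun (congrArg (fun a => eps l *ᵥ a) h) (insert k I)
  simp only [Matrix.mulVec_smul, Matrix.mulVec_sum, Pi.smul_apply, Finset.sum_apply,
    smul_eq_mul] at h1
  rw [Matrix.mulVec_mulVec, eps_eps, Matrix.neg_mulVec, Pi.neg_apply, ← Matrix.mulVec_mulVec,
    eps_insert hk] at h1
  have h2 : ∑ j, (-sg k I * c j) * (eps l *ᵥ u j) (insert k I) =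
      -sg k I * ∑ j, c j * (eps l *ᵥ u j) (insert k I) := by
    rw [Finset.mul_sum]
    exact Finset.sum_congr rfl fun j _ => by ring
  rw [h2, ← h1]
  have h3 := sg_mul_self k I
  linear_combination (-s * (eps l *ᵥ β) I) * h3

/-- the weak equation is linear -/
theorem LocEq.comb (hρ : IsMetric M ρ) (hW : WLim d l v φ) {r : ℕ} {g : Fin r → H862.Fam d X ι}
    (hg : ∀ k, H862.IsSec M (g k)) (h : ∀ k, LocEq M ρ φ (g k) 0) (t : Fin r → ℂ)
    {g' : H862.Fam d X ι} (hg' : ∀ i e x, At e x → x ∈ M.U i →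
      g' i e (e x) = ∑ k, t k • g k i e (e x)) : LocEq M ρ φ g' 0 := by
  intro i e he I ξ h1 h2 h3
  have hI : ∀ k, IntegrableOn (fun z => (Real.exp (-(ρ i (e.symm z) + φ (e.symm z))) : ℂ) *
      (∑ m, (eps m *ᵥ g k i e z) I * dz m ξ z + (0 : H862.Fam d X ι) i e z I * ξ z))
      (dom M i e) := by
    intro k
    have hgs : ∀ z ∈ dom M i e, VC ∞ (g k i e) z := fun z hz => by
      have h1 := At.of_dom he hz
      have := (hg k).smooth i e _ h1.1 h1.2.1
      rwa [h1.2.2] at this
    refine integrable_weight hρ hW he h2 h3 (fun z hz => ?_) fun z hz hzK => ?_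
    · have hz' := h3 hz
      have c1 : ∀ m, ContinuousAt (fun y => (eps m *ᵥ g k i e y) I) z := fun m =>
        ((VC_constMul (eps m) (hgs z hz')) I).continuousAt
      have c2 : ∀ m, ContinuousAt (fun y => dz m ξ y) z := fun m =>
        (contDiffAt_dz (m := 0) m (h1.contDiffAt.of_le (by norm_cast))
          (by norm_num)).continuousAt
      have c3 : ContinuousAt (fun y => ξ y) z := h1.continuous.continuousAt
      exact ((tendsto_finsetSum _ fun m _ => (c1 m).mul (c2 m)).add
        (continuousAt_const.mul c3)).mono_left nhdsWithin_le_nhds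
    · have h4 : ξ =ᶠ[𝓝 z] fun _ => 0 := notMem_tsupport_iff_eventuallyEq.1 hzK
      rw [h4.self_of_nhds]
      simp only [C2.dz_congr _ h4, C2.dz_const, mul_zero, Finset.sum_const_zero, add_zero]
  have h5 : ∫ z in dom M i e, (Real.exp (-(ρ i (e.symm z) + φ (e.symm z))) : ℂ) *
      (∑ m, (eps m *ᵥ g' i e z) I * dz m ξ z + (0 : H862.Fam d X ι) i e z I * ξ z) =
      ∫ z in dom M i e, ∑ k, t k * ((Real.exp (-(ρ i (e.symm z) + φ (e.symm z))) : ℂ) *
      (∑ m, (eps m *ᵥ g k i e z) I * dz m ξ z + (0 : H862.Fam d X ι) i e z I * ξ z)) := by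
    refine setIntegral_congr_fun (H862.isOpen_dom M i e).measurableSet fun z hz => ?_
    have h6 := At.of_dom he hz
    have h7 := hg' i e _ h6.1 h6.2.1
    rw [h6.2.2] at h7
    simp only [h7, Matrix.mulVec_sum, Matrix.mulVec_smul, Finset.sum_apply, Pi.smul_apply,
      smul_eq_mul, Pi.zero_apply, zero_mul, add_zero, Finset.sum_mul]
    rw [Finset.sum_comm, Finset.mul_sum]
    refine Finset.sum_congr rfl fun k _ => ?_
    rw [Finset.mul_sum, Finset.mul_sum, Finset.mul_sum]
    exact Finset.sum_congr rfl fun m _ => by ring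
  rw [h5, integral_finsetSum _ fun k _ => (hI k).const_mul (t k)]
  refine Finset.sum_eq_zero fun k _ => ?_
  rw [integral_const_mul, h k i e he I ξ h1 h2 h3, mul_zero]

/-- **N3-Z.** The weak equation of `s β`. -/
theorem z_weak [l.NeBot] (hk : IsKahler w) (hρ : IsMetric M ρ)
    (hv : ∀ N, Smooth (d := d) (v N)) (hW : WLim d l v φ)
    {s : ι → Chart d X → Cm d → ℂ} {β : H862.Fam d X ι} {A : Type*} [Fintype A]
    {u : A → H862.Fam d X ι}
    (hg : H897.IsHol M fun i e z => s i e z • β i e z)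
    (hs : ∀ i e x, At e x → x ∈ M.U i → AnalyticAt ℂ (s i e) (e x))
    (hβ : ∀ i e x, At e x → x ∈ M.U i → ∀ I, AnalyticAt ℂ (fun z => β i e z I) (e x))
    (hu : ∀ j i e x, At e x → x ∈ M.U i → ∀ I, AnalyticAt ℂ (fun z => u j i e z I) (e x))
    (hs0 : ∀ i, ∀ e ∈ atlas (Cm d) X, ∀ᵐ z ∂(volume.restrict (dom M i e)), s i e z ≠ 0)
    (hrel : ∀ i, ∀ e ∈ atlas (Cm d) X, ∀ k, ∃ c : A → Cm d → ℂ,
      (∀ j, ∀ z ∈ dom M i e, AnalyticAt ℂ (c j) z) ∧
      ∀ z ∈ dom M i e, s i e z • (eps k *ᵥ β i e z) = ∑ j, c j z • u j i e z)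
    (hdeg : ∀ i e x, At e x → x ∈ M.U i → ∀ k, (eps k *ᵥ β i e (e x)) Finset.univ = 0)
    (hweak : ∀ j, LocEq M ρ φ (fun i e z => s i e z • u j i e z) 0)
    {χ : H862.Fam d X ι} (hχ : H862.IsSec M χ) :
    Tendsto (fun N => ip M (fun i x => ρ i x + v N x) w (fun i e z => s i e z • β i e z)
      (dX w χ)) l (𝓝 0) := by
  classical
  choose! c hcA hcR using hrel
  have hKey : ∀ i, ∀ e ∈ atlas (Cm d) X, ∀ I : FI d, I ≠ Finset.univ → ∃ H : Cm d → ℂ,
      (∀ z ∈ dom M i e, AnalyticAt ℂ H z) ∧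
      ∀ ξ : Cm d → ℂ, ContDiff ℝ ∞ ξ → HasCompactSupport ξ → tsupport ξ ⊆ dom M i e →
      ∫ z in dom M i e, (Real.exp (-(ρ i (e.symm z) + φ (e.symm z))) : ℂ) *
        (∑ k, (eps k *ᵥ (s i e z • β i e z)) I * dz k ξ z + H z * ξ z) = 0 := by
    intro i e he I hI
    obtain ⟨k, hkI⟩ : ∃ k, k ∉ I := by
      by_contra hcon
      push Not at hcon
      exact hI (Finset.eq_univ_of_forall hcon)
    have at' : ∀ z ∈ dom M i e, At e (e.symm z) ∧ e.symm z ∈ M.U i ∧ e (e.symm z) = z :=
      fun z hz => At.of_dom he hz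
    have hsz : ∀ z ∈ dom M i e, AnalyticAt ℂ (s i e) z := fun z hz => by
      have h1 := at' z hz
      have := hs i e _ h1.1 h1.2.1
      rwa [h1.2.2] at this
    have hβz : ∀ z ∈ dom M i e, ∀ I, AnalyticAt ℂ (fun z => β i e z I) z := fun z hz I => by
      have h1 := at' z hz
      have := hβ i e _ h1.1 h1.2.1 I
      rwa [h1.2.2] at this
    have huz : ∀ j, ∀ z ∈ dom M i e, ∀ I, AnalyticAt ℂ (fun z => u j i e z I) z :=
      fun j z hz I => by
        have h1 := at' z hz
        have := hu j i e _ h1.1 h1.2.1 I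
        rwa [h1.2.2] at this
    have hmul : ∀ {V : Cm d → FI d → ℂ} {z : Cm d} (m : Fin d) (J : FI d),
        (∀ I, AnalyticAt ℂ (fun z => V z I) z) → AnalyticAt ℂ (fun z => (eps m *ᵥ V z) J) z := by
      intro V z m J h
      simp only [Matrix.mulVec, dotProduct]
      exact Finset.analyticAt_fun_sum _ fun K _ => analyticAt_const.mul (h K)
    set U : A → Fin d → Cm d → ℂ := fun j m z => (eps m *ᵥ u j i e z) (insert k I) with hU
    set γ : A → Cm d → ℂ := fun j z => -sg k I * c i e k j z with hγ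
    set B : Fin d → Cm d → ℂ := fun m z => (eps m *ᵥ β i e z) I with hB
    have hUz : ∀ j m, ∀ z ∈ dom M i e, AnalyticAt ℂ (U j m) z := fun j m z hz =>
      hmul m _ (huz j z hz)
    have hγz : ∀ j, ∀ z ∈ dom M i e, AnalyticAt ℂ (γ j) z := fun j z hz =>
      analyticAt_const.mul (hcA i e he k j z hz)
    have hBz : ∀ m, ∀ z ∈ dom M i e, AnalyticAt ℂ (B m) z := fun m z hz => hmul m _ (hβz z hz)
    have hdz : ∀ {F : Cm d → ℂ} {z : Cm d} (m : Fin d), AnalyticAt ℂ F z →
        AnalyticAt ℂ (dz m F) z := by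
      intro F z m hF
      have h1 : dz m F =ᶠ[𝓝 z] fun y => fderiv ℂ F y (Pi.single m 1) := by
        filter_upwards [hF.eventually_analyticAt] with y hy
        exact dz_of_holo hy.differentiableAt
      refine AnalyticAt.congr ?_ h1.symm
      exact (ContinuousLinearMap.apply ℂ ℂ (Pi.single m (1 : ℂ) : Cm d)).analyticAt _ |>.comp
        hF.fderiv
    refine ⟨zH (s i e) U γ B, fun z hz => ?_, fun ξ h1 h2 h3 => ?_⟩
    · refine AnalyticAt.sub ?_ ?_
      · exact Finset.analyticAt_fun_sum _ fun j _ => Finset.analyticAt_fun_sum _ fun m _ =>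
          (hUz j m z hz).mul (hdz m (hγz j z hz))
      · exact Finset.analyticAt_fun_sum _ fun m _ => (hBz m z hz).mul (hdz m (hsz z hz))
    · have hmain := z_local (s := s i e) (U := U) (γ := γ) (B := B) (H862.isOpen_dom M i e)
        (fun K hK hKc => integrableOn_weight hρ hW he hK hKc)
        (fun z hz => (hsz z hz).contDiffAt) (hs0 i e he)
        (fun j m z hz => (hUz j m z hz).contDiffAt) (fun j z hz => (hγz j z hz).contDiffAt)
        (fun m z hz => (hBz m z hz).contDiffAt)
        (fun z hz m => rel_comp hkI (hcR i e he k z hz) m)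
        (fun j ξ' g1 g2 g3 => by
          have := hweak j i e he (insert k I) ξ' g1 g2 g3
          simpa only [Matrix.mulVec_smul, Pi.smul_apply, smul_eq_mul, Pi.zero_apply, zero_mul,
            add_zero] using this) h1 h2 h3
      simpa only [Matrix.mulVec_smul, Pi.smul_apply, smul_eq_mul] using hmain
  choose! H hHA hHL using hKey
  set Z : H862.Fam d X ι := fun i e z I => if I = Finset.univ then 0 else H i e I z with hZdef
  have hZA : ∀ i e x, At e x → x ∈ M.U i → ∀ I, AnalyticAt ℂ (fun y => Z i e y I) (e x) := by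
    intro i e x hx hi I
    by_cases hI : I = Finset.univ
    · simp only [hZdef, if_pos hI]; exact analyticAt_const
    · simp only [hZdef, if_neg hI]; exact hHA i e hx.1 I hI _ (mem_dom hx hi)
  have hloc : LocEq M ρ φ (fun i e z => s i e z • β i e z) Z := by
    intro i e he I ξ h1 h2 h3
    by_cases hI : I = Finset.univ
    · subst hI
      rw [← integral_zero (Cm d) ℂ (μ := volume.restrict (dom M i e))]
      refine setIntegral_congr_fun (H862.isOpen_dom M i e).measurableSet fun z hz => ?_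
      have h4 := At.of_dom he hz
      have h5 : ∀ k, (eps k *ᵥ β i e z) Finset.univ = 0 := fun k => by
        have := hdeg i e _ h4.1 h4.2.1 k
        rwa [h4.2.2] at this
      simp only [hZdef, if_true, Matrix.mulVec_smul, Pi.smul_apply, h5, smul_zero, zero_mul,
        Finset.sum_const_zero, add_zero, mul_zero]
    · have := hHL i e he I hI ξ h1 h2 h3
      simpa only [hZdef, if_neg hI] using this
  exact weak_of_locEq hk hρ hv hW hg.isSec (glue_Z hk hρ hv hW hg.isSec hZA hloc) hloc hχ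

/-- a function which is nonzero where a section is nonzero is nonzero almost everywhere -/
theorem ae_ne_zero [PreconnectedSpace X] {L : LineBundle d X ι} {Λ : Chart d X → Chart d X → X →
      Matrix (FI d) (FI d) ℂ} {m : ℕ} {S : H862.Fam d X ι} (hS : H724.IsSec L Λ m S)
    (hne : ∃ x, H724.Nz L S x) {s : ι → Chart d X → Cm d → ℂ}
    (hs : ∀ i e x, At e x → x ∈ L.U i → S i e (e x) ≠ 0 → s i e (e x) ≠ 0) {i : ι}
    {e : Chart d X} (he : e ∈ atlas (Cm d) X) :
    ∀ᵐ z ∂(volume.restrict (dom L i e)), s i e z ≠ 0 := by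
  rw [ae_restrict_iff' (H862.isOpen_dom L i e).measurableSet]
  have h1 := measure_eq_zero_iff_ae_notMem.1 (H450.null_nz hS hne he)
  filter_upwards [h1] with z hz hzd
  have h2 := At.of_dom he hzd
  have h3 : H724.Nz L S (e.symm z) := by
    by_contra hcon
    exact hz ⟨hzd.1, hcon⟩
  have h4 := hs i e _ h2.1 h2.2.1 (h3 i e h2.1 h2.2.1)
  rwa [h2.2.2] at h4

end Vale.Agent.P301.H794
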