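import Vale.Agent.P301.H794.ZEnd
import Vale.Agent.P301.H949.Fin
import Vale.Agent.P301.H724.Indep

/-! P301, H794: the contradiction at the end of the case of dimension six. -/

open scoped Manifold ContDiff ComplexOrder Topology Matrix ENNReal
open Vale.Agent.P272.K Vale.Agent.P272.K.C2 Vale.Agent.P299.H954 Vale.Agent.P299.IX
open Vale.Agent.P299.IX.Fock Vale.Agent.P301.H599 Vale.Agent.P301.H862 MeasureTheory Set Filter
open Vale.Agent.P301.H103 Vale.Agent.P301.H949

set_option linter.all false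

noncomputable section

namespace Vale.Agent.P301.H794

section coeff

variable {d : ℕ} {A B : Type*} [Fintype A]

/-- coefficients with respect to generically independent forms are unique as germs -/
lemma global_coeff {Ω : Set (Cm d)} (hΩ : IsOpen Ω) {u : A → Cm d → B → ℂ} {F : Cm d → B → ℂ}
    (hind : ∀ z ∈ Ω, ∃ᶠ y in 𝓝 z, ∀ t : A → ℂ, ∑ j, t j • u j y = 0 → t = 0)
    (hloc : ∀ z ∈ Ω, ∃ η : A → Cm d → ℂ, (∀ j, AnalyticAt ℂ (η j) z) ∧
      ∀ᶠ y in 𝓝 z, F y = ∑ j, η j y • u j y) :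
    ∃ c : A → Cm d → ℂ, (∀ j, ∀ z ∈ Ω, AnalyticAt ℂ (c j) z) ∧
      ∀ z ∈ Ω, F z = ∑ j, c j z • u j z := by
  choose! η hη hrel using hloc
  refine ⟨fun j z => η z j z, fun j z hz => ?_, fun z hz => (hrel z hz).self_of_nhds⟩
  have h1 : (fun y => η y j y) =ᶠ[𝓝 z] η z j := by
    filter_upwards [(hη z hz j).eventually_analyticAt, (hrel z hz).eventually_nhds,
      hΩ.mem_nhds hz] with y hy1 hy2 hy3
    by_contra hne
    have hc : ContinuousAt (fun y' => η y j y' - η z j y') y :=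
      (hη y hy3 j).continuousAt.sub hy1.continuousAt
    have hn : ∀ᶠ y' in 𝓝 y, η y j y' - η z j y' ≠ 0 :=
      hc.eventually_ne (sub_ne_zero.2 hne)
    obtain ⟨y', h3, h4, h5, h6⟩ :=
      ((hind y hy3).and_eventually (hn.and (hy2.and (hrel y hy3)))).exists
    apply h4
    have h7 : ∑ k, (η y k y' - η z k y') • u k y' = 0 := by
      simp only [sub_smul, Finset.sum_sub_distrib]
      rw [← h6, ← h5, sub_self]
    exact congrFun (h3 _ h7) j
  exact (hη z hz j).congr h1.symm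

lemma mnr_inj {r : ℕ} {B : Type} {w : Fin r → B → ℂ} {c : Fin r → B}
    (h : H724.mnr w c ≠ 0) {t : Fin r → ℂ} (ht : ∑ j, t j • w j = 0) : t = 0 := by
  refine Matrix.eq_zero_of_mulVec_eq_zero h ?_
  funext a
  have := congrFun ht (c a)
  simp only [Finset.sum_apply, Pi.smul_apply, smul_eq_mul, Pi.zero_apply] at this
  simp only [Matrix.mulVec, dotProduct, Matrix.of_apply, Pi.zero_apply]
  rw [← this]
  exact Finset.sum_congr rfl fun j _ => mul_comm _ _

end coeff

variable {d : ℕ} {X : Type} [TopologicalSpace X] [ChartedSpace (Cm d) X]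
variable {ι : Type} {L : LineBundle d X ι} {α : Type*}

lemma frequently_nz [PreconnectedSpace X] {B : Type} [Fintype B]
    {Λ : Chart d X → Chart d X → X → Matrix B B ℂ} {m : ℕ} {S : ι → Chart d X → Cm d → B → ℂ}
    (hS : H724.IsSec L Λ m S) (hne : ∃ x, H724.Nz L S x) {i : ι} {e : Chart d X}
    (he : e ∈ atlas (Cm d) X) {z : Cm d} (hz : z ∈ dom L i e) :
    ∃ᶠ y in 𝓝 z, y ∈ dom L i e ∧ H724.Nz L S (e.symm y) := by
  rw [frequently_iff]
  intro U hU
  have h1 := At.of_dom he hz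
  have h2 : e.source ∩ e ⁻¹' (interior U ∩ dom L i e) ∈ 𝓝 (e.symm z) := by
    refine inter_mem (e.open_source.mem_nhds h1.1.2) ((e.continuousAt h1.1.2).preimage_mem_nhds ?_)
    rw [h1.2.2]
    exact inter_mem (interior_mem_nhds.2 hU) ((H862.isOpen_dom L i e).mem_nhds hz)
  obtain ⟨x, hx1, hx2⟩ := mem_closure_iff_nhds.1 (hS.dense hne (e.symm z)) _ h2
  refine ⟨e x, interior_subset hx1.2.1, hx1.2.2, ?_⟩
  rw [e.left_inv hx1.1]
  exact hx2

/-- a section of `L^k` as a section with values in a one-dimensional bundle -/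
lemma isSec_unit {k : ℕ} {G : ι → X → ℂ} (hG : H450.IsSecPow L k G) :
    H724.IsSec L (fun _ _ _ => (1 : Matrix Unit Unit ℂ)) k fun i e z _ => G i (e.symm z) where
  holo i e x hx hi _ := hG.holo i e x hx hi
  chL i j e x hx hi hj := by
    funext a
    simp only [Pi.smul_apply, smul_eq_mul, e.left_inv hx.2]
    exact hG.change i j x hi hj
  chV i e e' x hx hx' hi := by
    rw [Matrix.one_mulVec]
    funext a
    simp only [e.left_inv hx.2, e'.left_inv hx'.2]

lemma nz_unit {k : ℕ} {G : ι → X → ℂ} (hG : H450.IsSecPow L k G)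
    (hG0 : ∃ i x, x ∈ L.U i ∧ G i x ≠ 0) :
    ∃ x, H724.Nz L (fun i (e : Chart d X) z (_ : Unit) => G i (e.symm z)) x := by
  obtain ⟨i, x, hi, h⟩ := hG0
  refine ⟨x, (isSec_unit hG).nz (H724.at_chartAt x) hi fun h0 => h ?_⟩
  have := congrFun h0 ()
  simpa only [(chartAt (Cm d) x).left_inv (mem_chart_source _ _), Pi.zero_apply] using this

lemma isHol_smul {a b m : ℕ} (hm : a + b = m) {G : ι → X → ℂ} (hG : H450.IsSecPow L a G)
    {β : H862.Fam d X ι} (hβ : H724.IsSec L H897.LamF b β) :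
    H897.IsHol (powL L m) fun i e z => G i (e.symm z) • β i e z where
  holo i e x hx hi I := (hG.holo i e x hx hi).mul (hβ.holo i e x hx hi I)
  change i j e e' x hx hx' hi hj := by
    have h1 := hG.change i j x hi hj
    have h2 := hβ.chV i e e' x hx hx' hi
    have h3 := hβ.chL i j e' x hx' hi hj
    simp only [e.left_inv hx.2, e'.left_inv hx'.2]
    rw [h2, h3, h1, Matrix.mulVec_smul, Matrix.smul_mulVec, Matrix.mulVec_smul, smul_smul, smul_smul]
    show _ = (L.g i j x ^ m * G j x) • _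
    rw [← hm, pow_add]
    congr 1
    ring

/-- **N3-KILL.** -/
theorem kill [IsManifold 𝓘(ℂ, Cm d) ω X] [T2Space X] [CompactSpace X] [ConnectedSpace X]
    {w : Fm d X} {ρ : ι → X → ℝ} {l : Filter α} [l.NeBot] {v : α → X → ℝ} {φ φ₁ : X → ℝ}
    (hk : IsKahler w) (hρ : IsMetric L ρ) (hm : IsMetric L fun i x => ρ i x + φ₁ x)
    (hφ₁ : Smooth (d := d) φ₁) {a b m p : ℕ} (hab : a + b = m) (hpd : p + 1 ≠ d) {σ : ℤˣ}
    (hσ : (-1) ^ p = σ) (hsk : ((cyB L ρ w φ₁ hm hk).pow m).ell.sk σ = ⊥)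
    (hv : ∀ N, Smooth (d := d) (v N)) {C₁ : ℝ} (hC : ∀ N x, v N x ≤ C₁)
    (hexp : ∀ e ∈ atlas (Cm d) X, ∀ S : Set (Cm d), IsCompact S → S ⊆ e.target →
      ∃ b : ℝ≥0∞, b ≠ ⊤ ∧ ∀ N,
        ∫⁻ z in S, ENNReal.ofReal (Real.exp (-(2 * m * v N (e.symm z)))) ≤ b)
    (hW : WLim d l (fun N x => (m : ℝ) * v N x) fun x => (m : ℝ) * φ x)
    {G : ι → X → ℂ} (hG : H450.IsSecPow L a G) (hG0 : ∃ i x, x ∈ L.U i ∧ G i x ≠ 0)
    {β : H862.Fam d X ι} (hβ : H724.IsSec L H897.LamF b β)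
    (hβp : ∀ i e x, At e x → x ∈ L.U i → ∀ I : FI d, I.card ≠ p → β i e (e x) I = 0)
    (hβ0 : ∃ x, H724.Nz L β x) {r : ℕ} {u : Fin r → H862.Fam d X ι}
    (hu : ∀ j, H724.IsSec L H897.LamF b (u j)) (hu0 : ∃ x, H724.Nz L (H724.wedge u) x)
    (hrel : ∀ i e x, At e x → x ∈ L.U i → ∃ η : Fin d → Fin r → Cm d → ℂ,
      (∀ k j, AnalyticAt ℂ (η k j) (e x)) ∧ ∀ᶠ z in 𝓝 (e x), ∀ k,
        G i (e.symm z) • (eps k *ᵥ β i e z) = ∑ j, η k j z • u j i e z)
    (hweak : ∀ j, LocEq (powL L m) (fun i x => (m : ℝ) * ρ i x) (fun x => (m : ℝ) * φ x)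
      (fun i e z => G i (e.symm z) • u j i e z) 0) : False := by
  have hg := isHol_smul hab hG hβ
  have hund : ∀ i, ∀ e ∈ atlas (Cm d) X, ∀ z ∈ dom L i e,
      ∃ᶠ y in 𝓝 z, ∀ t : Fin r → ℂ, ∑ j, t j • u j i e y = 0 → t = 0 := by
    intro i e he z hz
    refine (frequently_nz (H724.isSec_wedge hu) hu0 he hz).mono fun y hy t ht => ?_
    have h1 := At.of_dom he hy.1
    have h2 := hy.2 i e h1.1 h1.2.1
    rw [h1.2.2] at h2
    obtain ⟨c, hc⟩ := Function.ne_iff.1 h2
    exact mnr_inj hc ht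
  have hweakβ : ∀ χ : H862.Fam d X ι, H862.IsSec (powL L m) χ →
      Tendsto (fun N => H862.ip (powL L m) (fun i x => (m : ℝ) * ρ i x + (m : ℝ) * v N x) w
        (fun i e z => G i (e.symm z) • β i e z) (dX w χ)) l (𝓝 0) := by
    intro χ hχ
    refine z_weak (M := powL L m) (s := fun i e z => G i (e.symm z)) (u := u) hk
      (powL_metric hρ m) (fun N => Smooth.const_mul _ (hv N)) hW hg
      (fun i e x hx hi => hG.holo i e x hx hi) (fun i e x hx hi I => hβ.holo i e x hx hi I)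
      (fun j i e x hx hi I => (hu j).holo i e x hx hi I) (fun i e he => ?_)
      (fun i e he k => ?_) (fun i e x hx hi k => ?_) hweak hχ
    · have h1 := measure_eq_zero_iff_ae_notMem.1
        (H450.null_nz (isSec_unit hG) (nz_unit hG hG0) he)
      rw [ae_restrict_iff' (H862.isOpen_dom (powL L m) i e).measurableSet]
      filter_upwards [h1] with z hz hzd hcon
      refine hz ⟨hzd.1, fun hnz => ?_⟩
      have h2 := At.of_dom (L := L) he hzd
      have h3 := hnz i e h2.1 h2.2.1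
      apply h3
      funext t
      simp only [h2.2.2, Pi.zero_apply]
      exact hcon
    · refine global_coeff (H862.isOpen_dom L i e) (hund i e he) fun z hz => ?_
      have h2 := At.of_dom he hz
      obtain ⟨η, h3, h4⟩ := hrel i e _ h2.1 h2.2.1
      rw [h2.2.2] at h3 h4
      exact ⟨η k, fun j => h3 k j, h4.mono fun y hy => hy k⟩
    · rw [eps_mulVec, if_pos (Finset.mem_univ k)]
      rw [hβp i e x hx hi _ fun h => hpd ?_, mul_zero]
      rw [Finset.card_erase_of_mem (Finset.mem_univ k), Finset.card_univ, Fintype.card_fin] at h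
      have := k.pos
      omega
  have hzero := H949.fin_zero_cy hm hk m hσ hsk hφ₁ hv hC hexp hg
    (fun i e x hx hi I hI => by
      show G i _ • β i e (e x) I = 0
      rw [hβp i e x hx hi I hI, smul_zero]) hweakβ
  obtain ⟨x, h1, h2⟩ := ((isSec_unit hG).dense (nz_unit hG hG0)).inter_of_isOpen_left
    (hβ.dense hβ0) (isSec_unit hG).isOpen_nz |>.nonempty
  obtain ⟨i, hi⟩ := L.cover x
  have hx : At (chartAt (Cm d) x) x := H724.at_chartAt x
  have h3 := hzero i _ x hx hi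
  rcases smul_eq_zero.1 h3 with h4 | h4
  · apply h1 i _ hx hi
    funext t
    exact h4
  · exact h2 i _ hx hi h4

end Vale.Agent.P301.H794
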