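import Vale.Agent.P301.H794.Nq

/-! P301, H794: upper limits of quasi-plurisubharmonic functions which are almost invariant under an
automorphism and have a point of bounded value on every orbit have no logarithmic poles. -/

open scoped Manifold ContDiff ComplexOrder Topology
open Filter Metric Set

set_option linter.all false

noncomputable section

namespace Vale.Agent.P301.H794

open Vale.Agent.P272.K Vale.Agent.P272.K.QN Vale.Agent.P301.H599

variable {d : ℕ} {X : Type} [TopologicalSpace X] [ChartedSpace (Cm d) X]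
  [IsManifold 𝓘(ℂ, Cm d) ω X]

/-- Smooth functions on `X` with a lower bound `-A w` for the complex Hessian, an upper bound,
a bound for the variation under `F` and a lower bound at a point of every orbit. -/
structure Fam (F : Auto d X) (w : Fm d X) (A C₀ C₁ C₂ : ℝ) (v : X → ℝ) : Prop where
  smooth : Smooth (d := d) v
  psd : ∀ e x, At e x → (cHess (fun z => v (e.symm z)) (e x) + (A : ℂ) • w e (e x)).PosSemidef
  upper : ∀ x, v x ≤ C₀
  inv : ∀ x, |v (F x) - v x| ≤ C₁
  orbit : ∀ x, ∃ i : ℕ, -C₂ ≤ v (F^[i] x)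

variable {F : Auto d X} {w : Fm d X} {A C₀ C₁ C₂ : ℝ}

/-- local lower bound for the Hessians -/
lemma exists_psd [CompactSpace X] (hw : IsKahler w) (hA : 0 ≤ A) {e : Chart d X}
    (he : e ∈ atlas (Cm d) X) {K : Set (Cm d)} (hK : IsCompact K) (hKe : K ⊆ e.target) :
    ∃ T : ℝ, 0 ≤ T ∧ ∀ v : X → ℝ, Fam F w A C₀ C₁ C₂ v → ∀ z ∈ K,
      (cHess (fun z => v (e.symm z)) z + (T : ℂ) • (1 : Matrix (Fin d) (Fin d) ℂ)).PosSemidef := by
  obtain ⟨T, hT⟩ := exists_upper_one hw he hK hKe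
  refine ⟨|A * T|, abs_nonneg _, fun v hv z hz => ?_⟩
  have h1 := hv.psd e _ (At.of_target he (hKe hz))
  rw [e.right_inv (hKe hz)] at h1
  have h2 := (hT z hz).smul hA
  have h3 := Matrix.PosSemidef.one (n := Fin d) (R := ℂ) |>.smul
    (show 0 ≤ |A * T| - A * T by linarith [le_abs_self (A * T)])
  have h4 : cHess (fun z => v (e.symm z)) z + ((|A * T| : ℝ) : ℂ) •
      (1 : Matrix (Fin d) (Fin d) ℂ) = (cHess (fun z => v (e.symm z)) z + (A : ℂ) • w e z) +
      A • (((T : ℝ) : ℂ) • (1 : Matrix (Fin d) (Fin d) ℂ) - w e z) +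
      (|A * T| - A * T) • (1 : Matrix (Fin d) (Fin d) ℂ) := by
    ext p q
    simp only [Matrix.add_apply, Matrix.sub_apply, Matrix.smul_apply, smul_eq_mul,
      Complex.real_smul]
    push_cast
    ring
  rw [h4]
  exact (h1.add h2).add h3

lemma Fam.cd {v : X → ℝ} (hv : Fam F w A C₀ C₁ C₂ v) {e : Chart d X}
    (he : e ∈ atlas (Cm d) X) {z : Cm d} (hz : z ∈ e.target) :
    ContDiffAt ℝ ∞ (fun z => v (e.symm z)) z := by
  have := hv.smooth e _ (At.of_target he hz)
  rwa [e.right_inv hz] at this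

/-- adding a multiple of `nq` makes the functions plurisubharmonic -/
lemma psd_nq {f : Cm d → ℝ} {z : Cm d} {T : ℝ} (hf : ContDiffAt ℝ 2 f z)
    (h : (cHess f z + (T : ℂ) • (1 : Matrix (Fin d) (Fin d) ℂ)).PosSemidef) :
    (cHess (fun z => f z + T * nq z) z).PosSemidef := by
  have hn : ContDiffAt ℝ 2 (nq (d := d)) z := contDiff_nq.contDiffAt
  rw [cHess_add hf (contDiffAt_const.mul hn), cHess_const_mul T hn, cHess_nq]
  exact h

/-- the upper limit is plurisubharmonic after adding a multiple of `nq` -/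
lemma isPSH_fam {g : ℕ → X → ℝ} (hg : ∀ j, Fam F w A C₀ C₁ C₂ (g j)) {e : Chart d X}
    (he : e ∈ atlas (Cm d) X) {Ω : Set (Cm d)} (hΩ : IsOpen Ω) (hΩe : Ω ⊆ e.target) {T : ℝ}
    (hT : ∀ v : X → ℝ, Fam F w A C₀ C₁ C₂ v → ∀ z ∈ Ω,
      (cHess (fun z => v (e.symm z)) z + (T : ℂ) • (1 : Matrix (Fin d) (Fin d) ℂ)).PosSemidef) :
    IsPSH Ω (LS fun j z => g j (e.symm z) + T * nq z) := by
  have hc : ∀ z : Cm d, ContDiffAt ℝ ∞ (fun z : Cm d => T * nq z) z := fun z =>
    contDiffAt_const.mul contDiff_nq.contDiffAt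
  refine isPSH_LS hΩ (fun k _ z hz => ((hg k).cd he (hΩe hz)).add (hc z)) ?_ ?_
  · intro z hz
    refine ⟨C₀ + (T * nq z + 1), ?_⟩
    have h1 : ∀ᶠ y in 𝓝 z, T * nq y < T * nq z + 1 :=
      (hc z).continuousAt.tendsto.eventually_lt_const (by linarith)
    filter_upwards [tendsto_snd.eventually h1] with p hp
    exact add_le_add ((hg p.1).upper _) hp.le
  · intro K hKΩ hK
    refine ⟨0, fun k hk z hz => ?_⟩
    rw [zero_div, Complex.ofReal_zero, zero_smul, add_zero]
    exact psd_nq (((hg k).cd he (hΩe (hKΩ hz))).of_le (by norm_cast)) (hT _ (hg k) z (hKΩ hz))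

/-- the points with a pole of weight `κ` -/
def PoleSet (g : ℕ → X → ℝ) (κ : ℝ) : Set X :=
  {x | ∃ e : Chart d X, At e x ∧ PoleAt κ (fun z => LS g (e.symm z)) (e x)}

lemma poleSet_chart {g : ℕ → X → ℝ} {κ : ℝ} (hκ : 0 < κ) {x : X}
    (hx : x ∈ PoleSet (d := d) g κ)
    {e' : Chart d X} (h' : At e' x) : PoleAt κ (fun z => LS g (e'.symm z)) (e' x) := by
  obtain ⟨e, he, hp⟩ := hx
  refine pole_transport (V := LS g) (G := fun y => y) (B := 0) hκ contMDiff_id ?_ he h' hp
  exact Eventually.of_forall fun y => by simp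

lemma LS_comp_le {g : ℕ → X → ℝ} (hg : ∀ j, Fam F w A C₀ C₁ C₂ (g j)) (x : X) :
    LS g (F x) ≤ LS g x + ((C₁ : ℝ) : EReal) := by
  have hm : map F (𝓝 x) = 𝓝 (F x) := F.toHomeomorph.map_nhds_eq x
  rw [LS_map hm]
  refine LS_le_add _ fun s s' hs H => ?_
  filter_upwards [H] with p hp
  have h1 := (abs_le.1 ((hg p.1).inv p.2)).2
  show g p.1 (F p.2) < s' + C₁
  linarith

lemma poleSet_inv {g : ℕ → X → ℝ} (hg : ∀ j, Fam F w A C₀ C₁ C₂ (g j)) {κ : ℝ} (hκ : 0 < κ)
    {x : X} (hx : x ∈ PoleSet (d := d) g κ) : F x ∈ PoleSet (d := d) g κ := by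
  obtain ⟨e, he, hp⟩ := hx
  have hc' := atChart (d := d) (F x)
  refine ⟨_, hc', ?_⟩
  have h1 : F.symm (F x) = x := F.symm_apply_apply x
  refine pole_transport (V := LS g) (G := F.symm) (B := C₁)
    hκ F.symm.contMDiff ?_ (by rw [h1]; exact he) hc' (by rw [h1]; exact hp)
  refine Eventually.of_forall fun y => ?_
  have h4 := LS_comp_le hg (F.symm y)
  have h5 : F (F.symm y) = y := F.apply_symm_apply y
  rwa [h5] at h4

variable [CompactSpace X]

theorem bot_of_closure (hw : IsKahler w) (hA : 0 ≤ A) {g : ℕ → X → ℝ}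
    (hg : ∀ j, Fam F w A C₀ C₁ C₂ (g j)) {κ : ℝ} (hκ : 0 < κ) {x : X}
    (hx : x ∈ closure (PoleSet (d := d) g κ)) : LS g x = ⊥ := by
  set e : Chart d X := chartAt (Cm d) x with he
  have hat : At e x := atChart x
  obtain ⟨R, hR, hRe⟩ := Metric.nhds_basis_closedBall.mem_iff.1 hat.nhds_target
  obtain ⟨T, hT0, hT⟩ := exists_psd (F := F) (C₀ := C₀) (C₁ := C₁) (C₂ := C₂) hw hA hat.1
    (isCompact_closedBall (e x) R) hRe
  have hbe : ball (e x) R ⊆ e.target := ball_subset_closedBall.trans hRe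
  have hpsh := isPSH_fam hg hat.1 isOpen_ball hbe (T := T)
    fun v hv z hz => hT v hv z (ball_subset_closedBall hz)
  have hTc : Continuous (fun z : Cm d => T * nq z) :=
    continuous_const.mul (contDiff_nq (m := 0)).continuous
  have hLS : ∀ z, LS (fun j z => g j (e.symm z) + T * nq z) z =
      LS (fun j z => g j (e.symm z)) z + ((T * nq z : ℝ) : EReal) := fun z =>
    LS_add hTc.continuousAt
  have hC : ∀ z ∈ ball (e x) R, LS (fun j z => g j (e.symm z) + T * nq z) z ≤
      ((C₀ + T * (d * (‖e x‖ + R) ^ 2) : ℝ) : EReal) := by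
    intro z hz
    refine LS_le' ?_
    have h1 : ∀ᶠ y in 𝓝 z, y ∈ ball (e x) R := isOpen_ball.mem_nhds hz
    filter_upwards [tendsto_snd.eventually h1] with p hp
    refine add_le_add ((hg p.1).upper _) (mul_le_mul_of_nonneg_left (nq_le _ ?_) hT0)
    have h2 : ‖p.2 - e x‖ < R := by rwa [mem_ball, dist_eq_norm] at hp
    have h3 := norm_sub_norm_le p.2 (e x)
    linarith
  have hfr : ∃ᶠ b in 𝓝 (e x), PoleAt κ (LS fun j z => g j (e.symm z) + T * nq z) b := by
    rw [frequently_iff]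
    intro N hN
    have hN' : N ∩ e.target ∈ 𝓝 (e x) := inter_mem hN hat.nhds_target
    have h1 : ∀ᶠ y in 𝓝 x, y ∈ e.source ∧ e y ∈ N ∩ e.target :=
      Filter.Eventually.and (e.open_source.mem_nhds hat.2) ((e.continuousAt hat.2).eventually hN')
    obtain ⟨y, hy1, hy2⟩ := (mem_closure_iff_frequently.1 hx).and_eventually h1 |>.exists
    have hay : At e y := ⟨hat.1, hy2.1⟩
    refine ⟨e y, hy2.2.1, ?_⟩
    have hp := poleSet_chart (d := d) hκ hy1 hay
    refine PoleAt.comp (T := fun z => z) (M := 1) (B := T * nq (e y) + 1) hκ one_pos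
      (Eventually.of_forall fun z => by rw [one_mul]) ?_ hp
    have h3 : ∀ᶠ z in 𝓝 (e y), T * nq z < T * nq (e y) + 1 :=
      hTc.continuousAt.tendsto.eventually_lt_const (by linarith)
    filter_upwards [h3, e.open_target.mem_nhds hay.mem_target] with z hz hzt
    rw [hLS, LS_chart g hzt]
    gcongr
  have key := eq_bot_of_frequently_pole hR hpsh hκ hC hfr
  rw [hLS, EReal.add_eq_bot_iff] at key
  rcases key with key | key
  · rw [← LS_chart g hat.mem_target, hat.left_inv] at key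
    exact key
  · exact absurd key (EReal.coe_ne_bot _)

omit [IsManifold 𝓘(ℂ, Cm d) ω X] in
/-- a point of `K` where the upper limit is finite -/
theorem exists_finite' {g : ℕ → X → ℝ} {K : Set X} (hK : IsCompact K)
    (hne : K.Nonempty) (hFK : ∀ x ∈ K, F x ∈ K)
    (ho : ∀ (k : ℕ) (x : X), ∃ i : ℕ, -C₂ ≤ g k (F^[i] x)) :
    ∃ x ∈ K, ((-C₂ : ℝ) : EReal) ≤ LS g x := by
  obtain ⟨x₀, hx₀⟩ := hne
  have hit : ∀ i, F^[i] x₀ ∈ K := by
    intro i
    induction i with
    | zero => exact hx₀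
    | succ i ih => rw [Function.iterate_succ_apply']; exact hFK _ ih
  choose i hi using fun k => ho k x₀
  obtain ⟨x, hxK, hx⟩ := hK.exists_mapClusterPt (f := (atTop : Filter ℕ))
    (u := fun k => F^[i k] x₀) (by
      rw [le_principal_iff]
      exact Filter.mem_map.2 (univ_mem' fun k => hit (i k)))
  refine ⟨x, hxK, le_LS' ?_⟩
  rw [mapClusterPt_iff_frequently] at hx
  intro hcon
  rw [eventually_prod_iff] at hcon
  obtain ⟨P, hP, Q, hQ, hPQ⟩ := hcon
  obtain ⟨k, hk1, hk2⟩ := ((hx {y | Q y} hQ).and_eventually hP).exists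
  exact hPQ hk2 hk1 (hi k)

/-- **There are no poles.** -/
theorem poleSet_empty (hw : IsKahler w) (hA : 0 ≤ A) {g : ℕ → X → ℝ}
    (hg : ∀ j, Fam F w A C₀ C₁ C₂ (g j)) {κ : ℝ} (hκ : 0 < κ) : PoleSet (d := d) g κ = ∅ := by
  by_contra hne
  have hne' : (PoleSet (d := d) g κ).Nonempty := nonempty_iff_ne_empty.2 hne
  set K := closure (PoleSet (d := d) g κ) with hK
  have hFK : ∀ x ∈ K, F x ∈ K := by
    intro x hx
    have : MapsTo F (PoleSet (d := d) g κ) (PoleSet (d := d) g κ) :=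
      fun y hy => poleSet_inv hg hκ hy
    exact this.closure F.continuous hx
  obtain ⟨x, hx, hx'⟩ := exists_finite' (F := F) (C₂ := C₂) (g := g) isClosed_closure.isCompact
    hne'.closure hFK fun k x => (hg k).orbit x
  rw [bot_of_closure hw hA hg hκ hx] at hx'
  exact absurd hx' (not_le.2 (EReal.bot_lt_coe _))

end Vale.Agent.P301.H794
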