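import Vale.Agent.P301.H794.CYLim
import Vale.Agent.P301.H862.Space
import Vale.Agent.P301.H897.Main
import Vale.Agent.P301.H724.Indep

/-! P301, H794 (CY-LIM): limits of almost orthonormal approximate kernel elements are linearly
independent holomorphic sections all of whose maximal minors vanish. -/

open Filter Metric Set MeasureTheory Topology
open scoped ENNReal ComplexOrder Matrix ComplexConjugate Manifold ContDiff

set_option linter.all false

noncomputable section

namespace Vale.Agent.P301.H794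

open Vale.Agent.P272.K Vale.Agent.P299.IX Vale.Agent.P299.IX.Fock Vale.Agent.P301.H85
open Vale.Agent.P301.H599 Vale.Agent.P301.H862 Vale.Agent.P299.H954

variable {d : ℕ} {X : Type} [TopologicalSpace X] [ChartedSpace (Cm d) X]
variable {ι : Type} {L : LineBundle d X ι} {α : Type*}
variable [IsManifold 𝓘(ℂ, Cm d) ω X] [CompactSpace X] [T2Space X]

/-- the integral of the gradient term -/
lemma intC_grad_le {w : Fm d X} (hw : IsKahler w) {ρ : ι → X → ℝ} (hρ : IsMetric L ρ) {κ : ℝ}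
    (hκ : 0 ≤ κ) (hcurv : ∀ i (e : Chart d X) x, At e x → x ∈ L.U i →
      (cHess (fun z => ρ i (e.symm z)) (e x) + (κ : ℂ) • w e (e x)).PosSemidef)
    {g : H862.Fam d X ι} (hg : H862.IsSec L g) :
    (intC L (gradX ρ w g g)).re ≤ (H862.ip L ρ w (DX ρ g) (DX ρ g)).re +
      (H862.ip L ρ w (dX w g) (dX w g)).re + κ * d * (H862.ip L ρ w g g).re := by
  have h1 := congrArg Complex.re (bkn hρ hw hg)
  rw [Complex.add_re, Complex.add_re] at h1
  have hD1 := (hg.QX hρ hw).isDens_hX hρ hw hg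
  have hD2 := (hg.isDens_hX hρ hw hg).const_mul ((κ * d : ℝ) : ℂ)
  have h2 : 0 ≤ (intC L (fun i e z => hX ρ w (QX ρ w g) g i e z +
      ((κ * d : ℝ) : ℂ) * hX ρ w g g i e z)).re := by
    refine intC_re_nonneg fun i e x hx hi => ?_
    have h3 := Qw_lower (f := wt ρ i e) (kat hw hx) hκ (hcurv i e x hx hi) (g i e (e x))
    rw [Complex.add_re, Complex.re_ofReal_mul]
    have h4 : (hX ρ w (QX ρ w g) g i e (e x)).re =
        (H862.hw (wt ρ i e) (w e) (e x) (Qw (wt ρ i e) (w e) (e x) (g i e (e x)))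
          (g i e (e x))).re := rfl
    have h5 : (hX ρ w g g i e (e x)).re =
        (H862.hw (wt ρ i e) (w e) (e x) (g i e (e x)) (g i e (e x))).re := rfl
    rw [h4, h5]
    linarith
  rw [intC_add hD1 hD2, intC_const_mul (hg.isDens_hX hρ hw hg), Complex.add_re,
    Complex.re_ofReal_mul] at h2
  have h6 : (intC L (hX ρ w (QX ρ w g) g)).re = (H862.ip L ρ w (QX ρ w g) g).re := rfl
  have h7 : (intC L (hX ρ w g g)).re = (H862.ip L ρ w g g).re := rfl
  rw [h6, h7] at h2
  linarith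

/-- the norm of a linear combination -/
lemma norm_comb (B : HB d X ι) {r : ℕ} {g : Fin r → H862.Fam d X ι}
    (hg : ∀ c, H862.IsSec B.L (g c)) (t : Fin r → ℂ) :
    ‖∑ c, t c • (HB.mkS (g c) (hg c) : B.S)‖ ^ 2 =
      (∑ a, ∑ b, t b * conj (t a) * H862.ip B.L B.ρ B.w (g b) (g a)).re := by
  rw [← inner_self_eq_norm_sq (𝕜 := ℂ), sum_inner]
  have h1 : ∀ a, inner ℂ (t a • (HB.mkS (g a) (hg a) : B.S))
      (∑ c, t c • (HB.mkS (g c) (hg c) : B.S)) =
      ∑ b, t b * conj (t a) * H862.ip B.L B.ρ B.w (g b) (g a) := by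
    intro a
    rw [inner_sum]
    refine Finset.sum_congr rfl fun b _ => ?_
    rw [inner_smul_left, inner_smul_right, HB.inner_eq]
    have h2 : B.ipB (HB.mkS (g b) (hg b) : B.S).f (HB.mkS (g a) (hg a) : B.S).f =
        H862.ip B.L B.ρ B.w (g b) (g a) :=
      HB.ipB_congr (fun i e x hx hi => HB.mkS_at (hg b) hx hi)
        (fun i e x hx hi => HB.mkS_at (hg a) hx hi)
    rw [h2]
    ring
  simp only [h1]
  rfl

lemma norm_mkS (B : HB d X ι) {g : H862.Fam d X ι} (hg : H862.IsSec B.L g) :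
    ‖(HB.mkS g hg : B.S)‖ = √((H862.ip B.L B.ρ B.w g g).re) := by
  rw [← Real.sqrt_sq (norm_nonneg (HB.mkS g hg : B.S)), HB.norm_sq_eq]
  congr 2
  exact HB.ipB_congr (fun i e x hx hi => HB.mkS_at hg hx hi)
    (fun i e x hx hi => HB.mkS_at hg hx hi)

lemma comb_eq (B : HB d X ι) {r : ℕ} {g u : Fin r → H862.Fam d X ι}
    (hg : ∀ c, H862.IsSec B.L (g c))
    (hD : ∀ c, H862.IsSec B.L (fun i e z => g c i e z - u c i e z)) (t : Fin r → ℂ)
    (ht : ∀ i e x, At e x → x ∈ B.L.U i → ∑ b, t b • u b i e (e x) = 0) :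
    ∑ c, t c • (HB.mkS (g c) (hg c) : B.S) = ∑ c, t c • (HB.mkS _ (hD c) : B.S) := by
  refine HB.S.ext_f fun i e x hx hi => ?_
  rw [HB.S.sum_f, HB.S.sum_f, Finset.sum_apply, Finset.sum_apply, Finset.sum_apply,
    Finset.sum_apply, Finset.sum_apply, Finset.sum_apply]
  have h4 : ∀ c, (t c • (HB.mkS _ (hD c) : B.S)).f i e (e x) =
      (t c • (HB.mkS (g c) (hg c) : B.S)).f i e (e x) - t c • u c i e (e x) := by
    intro c
    show t c • (HB.mkS _ (hD c) : B.S).f i e (e x) =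
      t c • (HB.mkS (g c) (hg c) : B.S).f i e (e x) - t c • u c i e (e x)
    rw [HB.mkS_at (hD c) hx hi, HB.mkS_at (hg c) hx hi, smul_sub]
  rw [Finset.sum_congr rfl fun c _ => h4 c, Finset.sum_sub_distrib, ht i e x hx hi, sub_zero]

lemma norm_comb_le (B : HB d X ι) {r : ℕ} {g u : Fin r → H862.Fam d X ι}
    (hg : ∀ c, H862.IsSec B.L (g c))
    (hD : ∀ c, H862.IsSec B.L (fun i e z => g c i e z - u c i e z)) (t : Fin r → ℂ)
    (ht : ∀ i e x, At e x → x ∈ B.L.U i → ∑ b, t b • u b i e (e x) = 0) :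
    (∑ a, ∑ b, t b * conj (t a) * H862.ip B.L B.ρ B.w (g b) (g a)).re ≤
      (∑ c, ‖t c‖ * √((H862.ip B.L B.ρ B.w (fun i e z => g c i e z - u c i e z)
        (fun i e z => g c i e z - u c i e z)).re)) ^ 2 := by
  rw [← norm_comb B hg t, comb_eq B hg hD t ht]
  refine pow_le_pow_left₀ (norm_nonneg _) ((norm_sum_le _ _).trans
    (Finset.sum_le_sum fun c _ => ?_)) 2
  rw [norm_smul, norm_mkS]

/-- **independence of the limits** -/
theorem linInd_of_lim {l : Filter α} [l.NeBot] {r : ℕ} {w : Fm d X} (hw : IsKahler w)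
    {ρ : α → ι → X → ℝ} (hρ : ∀ᶠ N in l, IsMetric L (ρ N)) {g : α → Fin r → H862.Fam d X ι}
    (hg : ∀ᶠ N in l, ∀ c, H862.IsSec L (g N c)) {u : Fin r → H862.Fam d X ι}
    (hu : ∀ c, H862.IsSec L (u c))
    (hgu : ∀ c, Tendsto (fun N => (H862.ip L (ρ N) w (fun i e z => g N c i e z - u c i e z)
      (fun i e z => g N c i e z - u c i e z)).re) l (𝓝 0))
    (horth : ∀ a b, Tendsto (fun N => H862.ip L (ρ N) w (g N a) (g N b)) l
      (𝓝 (if a = b then 1 else 0))) : H724.LinInd L u := by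
  intro t ht
  have h1 : ∀ᶠ N in l, (∑ a, ∑ b, t b * conj (t a) * H862.ip L (ρ N) w (g N b) (g N a)).re ≤
      (∑ c, ‖t c‖ * √((H862.ip L (ρ N) w (fun i e z => g N c i e z - u c i e z)
        (fun i e z => g N c i e z - u c i e z)).re)) ^ 2 := by
    filter_upwards [hρ, hg] with N hρ hg
    exact norm_comb_le ⟨L, ρ N, w, hρ, hw⟩ hg (fun c => H897.IsSec.sub (hg c) (hu c)) t ht
  have h2 : Tendsto (fun N => (∑ a, ∑ b, t b * conj (t a) *
      H862.ip L (ρ N) w (g N b) (g N a)).re) l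
      (𝓝 (∑ a, ∑ b, t b * conj (t a) * (if b = a then 1 else 0)).re) :=
    (Complex.continuous_re.tendsto _).comp
      (tendsto_finsetSum _ fun a _ => tendsto_finsetSum _ fun b _ => (horth b a).const_mul _)
  have h3 : Tendsto (fun N => (∑ c, ‖t c‖ *
      √((H862.ip L (ρ N) w (fun i e z => g N c i e z - u c i e z)
        (fun i e z => g N c i e z - u c i e z)).re)) ^ 2) l (𝓝 0) := by
    have h4 : Tendsto (fun N => ∑ c, ‖t c‖ *
      √((H862.ip L (ρ N) w (fun i e z => g N c i e z - u c i e z)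
        (fun i e z => g N c i e z - u c i e z)).re)) l (𝓝 (∑ c, ‖t c‖ * √0)) :=
      tendsto_finsetSum _ fun c _ => ((Real.continuous_sqrt.tendsto 0).comp (hgu c)).const_mul _
    have h5 := h4.pow 2
    simpa using h5
  have h4 := le_of_tendsto_of_tendsto h2 h3 h1
  have h5 : (∑ a, ∑ b, t b * conj (t a) * (if b = a then 1 else 0)).re = ∑ a, ‖t a‖ ^ 2 := by
    simp only [mul_ite, mul_one, mul_zero, Finset.sum_ite_eq', Finset.mem_univ, if_true,
      Complex.mul_conj, Complex.normSq_eq_norm_sq, Complex.re_sum, Complex.ofReal_re]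
  rw [h5] at h4
  funext c
  have h6 : ‖t c‖ ^ 2 ≤ 0 :=
    (Finset.single_le_sum (f := fun c => ‖t c‖ ^ 2) (fun _ _ => by positivity)
      (Finset.mem_univ c)).trans h4
  have h7 : ‖t c‖ = 0 := by
    have := norm_nonneg (t c)
    nlinarith
  exact norm_eq_zero.1 h7

end Vale.Agent.P301.H794
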