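import Vale.Agent.P301.H794.ZAdj
import Vale.Agent.P301.H897.Main
import Vale.Agent.P301.H794.LimGeo

/-! P301, H794: from local weak equations with a singular weight to global ones. -/

open scoped Manifold ContDiff ComplexOrder Topology Matrix ENNReal
open Vale.Agent.P272.K Vale.Agent.P272.K.C2 Vale.Agent.P299.H954 Vale.Agent.P299.IX
open Vale.Agent.P299.IX.Fock Vale.Agent.P301.H599 Vale.Agent.P301.H862 MeasureTheory Set Filter

set_option linter.all false

noncomputable section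

namespace Vale.Agent.P301.H794

variable {d : ℕ} {X : Type} [TopologicalSpace X] [ChartedSpace (Cm d) X]
variable {ι : Type} {L : LineBundle d X ι} {α : Type*}

/-- convergence of the weights `exp (-v N)` to `exp (-φ)` in `L¹_loc` -/
structure WLim (d : ℕ) {X : Type} [TopologicalSpace X] [ChartedSpace (Cm d) X] {α : Type*}
    (l : Filter α) (v : α → X → ℝ) (φ : X → ℝ) : Prop where
  int : ∀ e ∈ atlas (Cm d) X, ∀ K : Set (Cm d), IsCompact K → K ⊆ e.target →
    IntegrableOn (fun z => Real.exp (-φ (e.symm z))) K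
  lim : ∀ e ∈ atlas (Cm d) X, ∀ K : Set (Cm d), IsCompact K → K ⊆ e.target →
    Tendsto (fun N => ∫⁻ z in K, ‖Real.exp (-v N (e.symm z)) - Real.exp (-φ (e.symm z))‖ₑ) l (𝓝 0)

lemma tendsto_weight {l : Filter α} {v : α → X → ℝ} {φ : X → ℝ} (hW : WLim d l v φ)
    (hv : ∀ N, Smooth (d := d) (v N)) {e : Chart d X} (he : e ∈ atlas (Cm d) X) {K : Set (Cm d)}
    (hK : IsCompact K) (hKe : K ⊆ e.target) {G : Cm d → ℂ} (hG : ContinuousOn G K) :
    Tendsto (fun N => ∫ z in K, (Real.exp (-v N (e.symm z)) : ℂ) * G z) l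
      (𝓝 (∫ z in K, (Real.exp (-φ (e.symm z)) : ℂ) * G z)) := by
  obtain ⟨C, hC⟩ := hK.exists_bound_of_continuousOn hG
  have hGm : AEStronglyMeasurable G (volume.restrict K) :=
    hG.aestronglyMeasurable hK.measurableSet
  have hvc : ∀ N, ContinuousOn (fun z => Real.exp (-v N (e.symm z))) K := by
    intro N z hz
    have h1 : At e (e.symm z) := P272.K.At.of_target he (hKe hz)
    have h2 := (hv N e _ h1).continuousAt
    rw [e.right_inv (hKe hz)] at h2
    exact (Real.continuous_exp.continuousAt.comp h2.neg).continuousWithinAt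
  have hb : ∀ᵐ z ∂(volume.restrict K), ‖G z‖ ≤ C :=
    (ae_restrict_iff' hK.measurableSet).2 (Eventually.of_forall hC)
  refine tendsto_integral_of_L1 _ ?_ (Eventually.of_forall fun N => ?_) ?_
  · exact (((hW.int e he K hK hKe).ofReal).mul_bdd hGm hb).aestronglyMeasurable
  · exact (((hvc N).integrableOn_compact hK).ofReal).mul_bdd hGm hb
  · have h1 : Tendsto (fun N => (∫⁻ z in K, ‖Real.exp (-v N (e.symm z)) -
        Real.exp (-φ (e.symm z))‖ₑ) * ENNReal.ofReal C) l (𝓝 (0 * ENNReal.ofReal C)) :=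
      ENNReal.Tendsto.mul_const (hW.lim e he K hK hKe) (Or.inr ENNReal.ofReal_ne_top)
    rw [zero_mul] at h1
    refine tendsto_of_tendsto_of_tendsto_of_le_of_le tendsto_const_nhds h1
      (fun _ => zero_le) fun N => ?_
    rw [← lintegral_mul_const' _ _ ENNReal.ofReal_ne_top]
    refine lintegral_mono_ae ?_
    filter_upwards [hb] with z hz
    rw [← sub_mul, enorm_mul, ← Complex.ofReal_sub]
    refine mul_le_mul' (le_of_eq ?_) ?_
    · rw [enorm_eq_iff_norm_eq]
      exact Complex.norm_real _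
    · rw [← ofReal_norm]
      exact ENNReal.ofReal_le_ofReal hz

section ext

/-- extension of smooth functions by zero -/
lemma ext_smooth {Ω C : Set (Cm d)} (hC : IsCompact C) (hCΩ : C ⊆ Ω) (hΩ : IsOpen Ω)
    {V : Cm d → ℂ} (hV : ∀ z ∈ Ω, ContDiffAt ℝ ∞ V z) (hV0 : ∀ z ∈ Ω, z ∉ C → V z = 0) :
    ContDiff ℝ ∞ (Ω.indicator V) ∧ HasCompactSupport (Ω.indicator V) ∧
      tsupport (Ω.indicator V) ⊆ C ∧ ∀ z ∈ Ω, Ω.indicator V =ᶠ[𝓝 z] V := by
  have hsupp : Function.support (Ω.indicator V) ⊆ C := by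
    intro z hz
    rw [Function.mem_support] at hz
    have hzd : z ∈ Ω := by
      by_contra h; exact hz (indicator_of_notMem h _)
    rw [indicator_of_mem hzd] at hz
    by_contra hne
    exact hz (hV0 z hzd hne)
  have hts : tsupport (Ω.indicator V) ⊆ C := closure_minimal hsupp hC.isClosed
  have hev : ∀ z ∈ Ω, Ω.indicator V =ᶠ[𝓝 z] V := by
    intro z hz
    filter_upwards [hΩ.mem_nhds hz] with y hy
    exact indicator_of_mem hy _
  refine ⟨?_, hC.of_isClosed_subset (isClosed_tsupport _) hts, hts, hev⟩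
  rw [contDiff_iff_contDiffAt]
  intro z
  by_cases hz : z ∈ Ω
  · exact (hV z hz).congr_of_eventuallyEq (hev z hz)
  · exact contDiffAt_const.congr_of_eventuallyEq
      (notMem_tsupport_iff_eventuallyEq.1 fun h => hz (hCΩ (hts h)))

end ext

variable [IsManifold 𝓘(ℂ, Cm d) ω X] [T2Space X] [CompactSpace X]
variable {w : Fm d X} {ρ : ι → X → ℝ} {l : Filter α} {v : α → X → ℝ} {φ : X → ℝ}
variable {g h Z : H862.Fam d X ι} {i : ι} {e : Chart d X}

/-- the limit of the Hermitian products with a section supported in a trivialisation -/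
lemma ip_tendsto (hk : IsKahler w) (hρ : IsMetric L ρ) (hv : ∀ N, Smooth (d := d) (v N))
    (hW : WLim d l v φ) (hg : H862.IsSec L g) (hh : H862.IsSec L h) (he : e ∈ atlas (Cm d) X)
    {K : Set X} (hK : IsClosed K) (hKe : K ⊆ e.source) (hKi : K ⊆ L.U i)
    (h0 : ∀ i e' x, At e' x → x ∈ L.U i → x ∉ K → h i e' (e' x) = 0) :
    Tendsto (fun N => ip L (fun i x => ρ i x + v N x) w g h) l
      (𝓝 (∫ z in dom L i e, (Real.exp (-(ρ i (e.symm z) + φ (e.symm z))) : ℂ) *
        hp 0 (w e) z (g i e z) (h i e z))) := by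
  have hc : IsCompact (e '' K) := hK.isCompact.image_of_continuousOn (e.continuousOn.mono hKe)
  have hsub : e '' K ⊆ dom L i e := by
    rintro _ ⟨x, hx, rfl⟩; exact mem_dom ⟨he, hKe hx⟩ (hKi hx)
  have hρN : ∀ N, IsMetric L (fun i x => ρ i x + v N x) := fun N => isMetric_add hρ (hv N)
  have hz0 : ∀ z ∈ dom L i e, z ∉ e '' K → h i e z = 0 := by
    intro z hz hzK
    have h1 := At.of_dom he hz
    have h2 := h0 i e _ h1.1 h1.2.1 fun h => hzK ⟨_, h, h1.2.2⟩
    rwa [h1.2.2] at h2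
  set G : Cm d → ℂ := fun z => (Real.exp (-ρ i (e.symm z)) : ℂ) *
    hp 0 (w e) z (g i e z) (h i e z) with hG
  have hGc : ContinuousOn G (e '' K) := by
    intro z hz
    have h1 := At.of_dom he (hsub hz)
    have h2 : ContDiffAt ℝ ∞ (fun z => ρ i (e.symm z)) z := by
      have := hρ.smooth i e _ h1.1 h1.2.1
      rwa [h1.2.2] at this
    have h3 := kat hk h1.1
    have h4 := hg.smooth i e _ h1.1 h1.2.1
    have h5 := hh.smooth i e _ h1.1 h1.2.1
    rw [h1.2.2] at h3 h4 h5
    exact (contDiffAt_hw le_rfl h3 h2 h4 h5).continuousAt.continuousWithinAt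
  have key : ∀ ψ : X → ℝ, ∫ z in dom L i e, (Real.exp (-(ρ i (e.symm z) + ψ (e.symm z))) : ℂ) *
      hp 0 (w e) z (g i e z) (h i e z) =
      ∫ z in e '' K, (Real.exp (-ψ (e.symm z)) : ℂ) * G z := by
    intro ψ
    rw [setIntegral_eq_of_subset_of_forall_sdiff_eq_zero (isOpen_dom L i e).measurableSet hsub]
    · refine setIntegral_congr_fun hc.measurableSet fun z _ => ?_
      simp only [hG]
      rw [neg_add, Real.exp_add]
      push_cast
      ring
    · intro z hz
      rw [hz0 z hz.1 hz.2]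
      simp [hp, pr_zero_right]
  rw [key φ]
  have h1 := tendsto_weight hW hv he hc (hsub.trans inter_subset_left) hGc
  refine h1.congr fun N => ?_
  rw [← key (v N)]
  have hD := hg.isDens_hX (hρN N) hk hh
  show _ = intC L (hX (fun i x => ρ i x + v N x) w g h)
  rw [intC_of_support hD he hK hKe hKi fun i' e' x hx hi hxK => by
    show hw _ _ _ _ _ = 0
    rw [h0 i' e' x hx hi hxK, hw_zero_right]]
  rfl

/-- the test functions of a section supported in a trivialisation -/
lemma test_eta (hk : IsKahler w) (hh : H862.IsSec L h) (he : e ∈ atlas (Cm d) X)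
    {K : Set X} (hK : IsClosed K) (hKe : K ⊆ e.source) (hKi : K ⊆ L.U i)
    (h0 : ∀ i e' x, At e' x → x ∈ L.U i → x ∉ K → h i e' (e' x) = 0) (I : FI d) :
    ContDiff ℝ ∞ ((dom L i e).indicator fun z => eta (w e) (h i e) z I) ∧
      HasCompactSupport ((dom L i e).indicator fun z => eta (w e) (h i e) z I) ∧
      tsupport ((dom L i e).indicator fun z => eta (w e) (h i e) z I) ⊆ e '' K ∧
      ∀ z ∈ dom L i e, ((dom L i e).indicator fun z => eta (w e) (h i e) z I) =ᶠ[𝓝 z]
        fun z => eta (w e) (h i e) z I := by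
  have hc : IsCompact (e '' K) := hK.isCompact.image_of_continuousOn (e.continuousOn.mono hKe)
  have hsub : e '' K ⊆ dom L i e := by
    rintro _ ⟨x, hx, rfl⟩; exact mem_dom ⟨he, hKe hx⟩ (hKi hx)
  refine ext_smooth hc hsub (isOpen_dom L i e) (fun z hz => ?_) fun z hz hzK => ?_
  · have h1 := At.of_dom he hz
    have h3 := kat hk h1.1
    have h5 := hh.smooth i e _ h1.1 h1.2.1
    rw [h1.2.2] at h3 h5
    exact VC_eta le_rfl h3 h5 I
  · have h1 := At.of_dom he hz
    have h2 := h0 i e _ h1.1 h1.2.1 fun h => hzK ⟨_, h, h1.2.2⟩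
    rw [h1.2.2] at h2
    simp [eta, h2]

/-- the limit weight times a continuous function with compact support -/
lemma integrable_weight (hρ : IsMetric L ρ) (hW : WLim d l v φ) (he : e ∈ atlas (Cm d) X)
    {C : Set (Cm d)} (hC : IsCompact C) (hCd : C ⊆ dom L i e) {G : Cm d → ℂ}
    (hG : ContinuousOn G C) (hG0 : ∀ z ∈ dom L i e, z ∉ C → G z = 0) :
    IntegrableOn (fun z => (Real.exp (-(ρ i (e.symm z) + φ (e.symm z))) : ℂ) * G z)
      (dom L i e) := by
  have h1 : ContinuousOn (fun z => (Real.exp (-ρ i (e.symm z)) : ℂ) * G z) C := by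
    refine ContinuousOn.mul (fun z hz => ?_) hG
    have h1 := At.of_dom he (hCd hz)
    have h2 := hρ.smooth i e _ h1.1 h1.2.1
    rw [h1.2.2] at h2
    exact (Complex.continuous_ofReal.continuousAt.comp
      (Real.continuous_exp.continuousAt.comp h2.continuousAt.neg)).continuousWithinAt
  obtain ⟨B, hB⟩ := hC.exists_bound_of_continuousOn h1
  have h2 : IntegrableOn (fun z => (Real.exp (-φ (e.symm z)) : ℂ) *
      ((Real.exp (-ρ i (e.symm z)) : ℂ) * G z)) C :=
    ((hW.int e he C hC (hCd.trans inter_subset_left)).ofReal).mul_bdd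
      (h1.aestronglyMeasurable hC.measurableSet)
      ((ae_restrict_iff' hC.measurableSet).2 (Eventually.of_forall hB))
  have h3 : IntegrableOn (fun z => (Real.exp (-(ρ i (e.symm z) + φ (e.symm z))) : ℂ) * G z) C := by
    refine h2.congr_fun (fun z _ => ?_) hC.measurableSet
    simp only []
    rw [neg_add, Real.exp_add]
    push_cast
    ring
  refine h3.of_forall_sdiff_eq_zero (isOpen_dom L i e).measurableSet fun z hz => ?_
  rw [hG0 z hz.1 hz.2, mul_zero]

/-- the local identity for sections supported in a trivialisation -/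
lemma loc_identity (hk : IsKahler w) (hρ : IsMetric L ρ) (hW : WLim d l v φ)
    (hg : H862.IsSec L g) (hZs : ∀ z ∈ dom L i e, VC ∞ (Z i e) z) (hh : H862.IsSec L h)
    (he : e ∈ atlas (Cm d) X) {K : Set X} (hK : IsClosed K) (hKe : K ⊆ e.source)
    (hKi : K ⊆ L.U i) (h0 : ∀ i e' x, At e' x → x ∈ L.U i → x ∉ K → h i e' (e' x) = 0)
    (hloc : ∀ I, ∀ ξ : Cm d → ℂ, ContDiff ℝ ∞ ξ → HasCompactSupport ξ → tsupport ξ ⊆ dom L i e →
      ∫ z in dom L i e, (Real.exp (-(ρ i (e.symm z) + φ (e.symm z))) : ℂ) *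
        (∑ k, (eps k *ᵥ g i e z) I * dz k ξ z + Z i e z I * ξ z) = 0) :
    ∫ z in dom L i e, (Real.exp (-(ρ i (e.symm z) + φ (e.symm z))) : ℂ) *
        hp 0 (w e) z (g i e z) (De (w e) (h i e) z) =
      ∫ z in dom L i e, (Real.exp (-(ρ i (e.symm z) + φ (e.symm z))) : ℂ) *
        hp 0 (w e) z (Z i e z) (h i e z) := by
  have hc : IsCompact (e '' K) := hK.isCompact.image_of_continuousOn (e.continuousOn.mono hKe)
  have hsub : e '' K ⊆ dom L i e := by
    rintro _ ⟨x, hx, rfl⟩; exact mem_dom ⟨he, hKe hx⟩ (hKi hx)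
  have hev0 : ∀ z ∈ dom L i e, z ∉ e '' K → h i e =ᶠ[𝓝 z] fun _ => 0 := by
    intro z hz hzK
    filter_upwards [(isOpen_dom L i e).mem_nhds hz, hc.isClosed.isOpen_compl.mem_nhds hzK]
      with y hy hyK
    have h1 := At.of_dom he hy
    have h2 := h0 i e _ h1.1 h1.2.1 fun h => hyK ⟨_, h, h1.2.2⟩
    rwa [h1.2.2] at h2
  have hkat : ∀ z ∈ dom L i e, KAt (w e) z := fun z hz => by
    have h1 := At.of_dom he hz
    have := kat hk h1.1
    rwa [h1.2.2] at this
  have hgs : ∀ z ∈ dom L i e, VC ∞ (g i e) z := fun z hz => by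
    have h1 := At.of_dom he hz
    have := hg.smooth i e _ h1.1 h1.2.1
    rwa [h1.2.2] at this
  have hhs : ∀ z ∈ dom L i e, VC ∞ (h i e) z := fun z hz => by
    have h1 := At.of_dom he hz
    have := hh.smooth i e _ h1.1 h1.2.1
    rwa [h1.2.2] at this
  -- integrability
  have hI1 : IntegrableOn (fun z => (Real.exp (-(ρ i (e.symm z) + φ (e.symm z))) : ℂ) *
      hp 0 (w e) z (g i e z) (De (w e) (h i e) z)) (dom L i e) := by
    refine integrable_weight hρ hW he hc hsub (fun z hz => ?_) fun z hz hzK => ?_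
    · have hz' := hsub hz
      have h1 : ContDiffAt ℝ ∞ (fun y => hp 0 (w e) y (g i e y) (De (w e) (h i e) y)) z :=
        (contDiffAt_rho (hkat z hz')).mul
          (contDiffAt_pr (VC.mulVec (MC_Ld (hkat z hz')) (hgs z hz')) (VC_De_inf (hkat z hz')
            (hhs z hz')))
      exact h1.continuousAt.continuousWithinAt
    · have h1 : De (w e) (h i e) z = 0 := by
        simp only [De, DVb_zero (hev0 z hz hzK), Matrix.mulVec_zero, Finset.sum_const_zero,
          neg_zero]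
      rw [h1]
      simp [hp, pr_zero_right]
  have hI2 : IntegrableOn (fun z => (Real.exp (-(ρ i (e.symm z) + φ (e.symm z))) : ℂ) *
      hp 0 (w e) z (Z i e z) (h i e z)) (dom L i e) := by
    refine integrable_weight hρ hW he hc hsub (fun z hz => ?_) fun z hz hzK => ?_
    · have hz' := hsub hz
      have h1 : ContDiffAt ℝ ∞ (fun y => hp 0 (w e) y (Z i e y) (h i e y)) z :=
        (contDiffAt_rho (hkat z hz')).mul
          (contDiffAt_pr (VC.mulVec (MC_Ld (hkat z hz')) (hZs z hz')) (hhs z hz'))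
      exact h1.continuousAt.continuousWithinAt
    · rw [(hev0 z hz hzK).self_of_nhds]
      simp [hp, pr_zero_right]
  set ξ : FI d → Cm d → ℂ := fun I => (dom L i e).indicator fun z => eta (w e) (h i e) z I with hξ
  have hte := fun I => test_eta hk hh he hK hKe hKi h0 I
  have hI3 : ∀ I, IntegrableOn (fun z => (Real.exp (-(ρ i (e.symm z) + φ (e.symm z))) : ℂ) *
      (∑ k, (eps k *ᵥ g i e z) I * dz k (ξ I) z + Z i e z I * ξ I z)) (dom L i e) := by
    intro I
    obtain ⟨t1, t2, t3, t4⟩ := hte I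
    refine integrable_weight hρ hW he hc hsub (fun z hz => ?_) fun z hz hzK => ?_
    · have hz' := hsub hz
      have c1 : ∀ k, ContinuousAt (fun y => (eps k *ᵥ g i e y) I) z := fun k =>
        ((VC_constMul (eps k) (hgs z hz')) I).continuousAt
      have c2 : ∀ k, ContinuousAt (fun y => dz k (ξ I) y) z := fun k =>
        (contDiffAt_dz (m := 0) k (t1.contDiffAt.of_le (by norm_cast))
          (by norm_num)).continuousAt
      have c3 : ContinuousAt (fun y => ξ I y) z := t1.continuous.continuousAt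
      exact ((tendsto_finsetSum _ fun k _ => (c1 k).mul (c2 k)).add
        (((hZs z hz') I).continuousAt.mul c3)).mono_left nhdsWithin_le_nhds
    · have h1 : ξ I =ᶠ[𝓝 z] fun _ => 0 :=
        notMem_tsupport_iff_eventuallyEq.1 fun h => hzK (t3 h)
      rw [h1.self_of_nhds]
      simp only [C2.dz_congr _ h1, C2.dz_const, mul_zero, Finset.sum_const_zero, add_zero]
  have key : ∀ z ∈ dom L i e, (Real.exp (-(ρ i (e.symm z) + φ (e.symm z))) : ℂ) *
      hp 0 (w e) z (Z i e z) (h i e z) - (Real.exp (-(ρ i (e.symm z) + φ (e.symm z))) : ℂ) *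
      hp 0 (w e) z (g i e z) (De (w e) (h i e) z) =
      ∑ I, (Real.exp (-(ρ i (e.symm z) + φ (e.symm z))) : ℂ) *
        (∑ k, (eps k *ᵥ g i e z) I * dz k (ξ I) z + Z i e z I * ξ I z) := by
    intro z hz
    have one : (1 : WithTop ℕ∞) ≤ ((⊤ : ℕ∞) : WithTop ℕ∞) := by exact_mod_cast le_top
    rw [hp_De (hkat z hz) ((hgs z hz).mono one) ((hhs z hz).mono one), hp_eq_eta,
      ← Finset.mul_sum, ← mul_sub, sub_neg_eq_add]
    congr 1
    rw [Finset.sum_add_distrib, Finset.sum_comm, add_comm]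
    refine congrArg₂ _ ?_ ?_
    · refine Finset.sum_congr rfl fun I _ => Finset.sum_congr rfl fun k _ => ?_
      rw [C2.dz_congr k ((hte I).2.2.2 z hz)]
      rfl
    · refine Finset.sum_congr rfl fun I _ => ?_
      have h2 : ξ I z = eta (w e) (h i e) z I := ((hte I).2.2.2 z hz).self_of_nhds
      rw [h2]
  have h1 : ∫ z in dom L i e, ((Real.exp (-(ρ i (e.symm z) + φ (e.symm z))) : ℂ) *
      hp 0 (w e) z (Z i e z) (h i e z) - (Real.exp (-(ρ i (e.symm z) + φ (e.symm z))) : ℂ) *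
      hp 0 (w e) z (g i e z) (De (w e) (h i e) z)) = 0 := by
    rw [setIntegral_congr_fun (isOpen_dom L i e).measurableSet key,
      integral_finsetSum _ fun I _ => hI3 I]
    exact Finset.sum_eq_zero fun I _ =>
      hloc I _ (hte I).1 (hte I).2.1 ((hte I).2.2.1.trans hsub)
  rw [integral_sub hI2 hI1, sub_eq_zero] at h1
  exact h1.symm

/-- the local equation `d'(e^{-ρ-φ} g) = e^{-ρ-φ} Z` in all trivialisations, in the weak sense -/
def LocEq (L : LineBundle d X ι) (ρ : ι → X → ℝ) (φ : X → ℝ) (g Z : H862.Fam d X ι) : Prop :=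
  ∀ i, ∀ e ∈ atlas (Cm d) X, ∀ I, ∀ ξ : Cm d → ℂ, ContDiff ℝ ∞ ξ → HasCompactSupport ξ →
    tsupport ξ ⊆ dom L i e →
      ∫ z in dom L i e, (Real.exp (-(ρ i (e.symm z) + φ (e.symm z))) : ℂ) *
        (∑ k, (eps k *ᵥ g i e z) I * dz k ξ z + Z i e z I * ξ z) = 0

/-- **The global weak equation.** -/
theorem glob_weak (hk : IsKahler w) (hρ : IsMetric L ρ) (hv : ∀ N, Smooth (d := d) (v N))
    (hW : WLim d l v φ) (hg : H862.IsSec L g) (hZ : H862.IsSec L Z) (hloc : LocEq L ρ φ g Z)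
    {χ : H862.Fam d X ι} (hχ : H862.IsSec L χ) :
    Tendsto (fun N => ip L (fun i x => ρ i x + v N x) w g (dX w χ) -
      ip L (fun i x => ρ i x + v N x) w Z χ) l (𝓝 0) := by
  obtain ⟨P⟩ := exists_triv L
  have hρN : ∀ N, IsMetric L (fun i x => ρ i x + v N x) := fun N => isMetric_add hρ (hv N)
  have hχa : ∀ a, H862.IsSec L (mulR (P.χ a) χ) := fun a => hχ.mulR (P.smooth a)
  have h0 : ∀ a i e' x, At e' x → x ∈ L.U i → x ∉ tsupport (P.χ a) →
      mulR (P.χ a) χ i e' (e' x) = 0 := by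
    intro a i e' x hx hi hxK
    exact (mulR_zero_near hx hxK).self_of_nhds
  have h0' : ∀ a i e' x, At e' x → x ∈ L.U i → x ∉ tsupport (P.χ a) →
      dX w (mulR (P.χ a) χ) i e' (e' x) = 0 := by
    intro a i e' x hx hi hxK
    show De (w e') (mulR (P.χ a) χ i e') (e' x) = 0
    simp only [De, DVb_zero (mulR_zero_near hx hxK), Matrix.mulVec_zero, Finset.sum_const_zero,
      neg_zero]
  have s1 : ∀ N, ip L (fun i x => ρ i x + v N x) w g (dX w χ) =
      ∑ a, ip L (fun i x => ρ i x + v N x) w g (dX w (mulR (P.χ a) χ)) := by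
    intro N
    show intC L _ = ∑ a, intC L _
    rw [← intC_sum _ fun a _ => hg.isDens_hX (hρN N) hk ((hχa a).dX hk)]
    refine intC_congr fun i e x hx hi => ?_
    show hw _ _ _ _ _ = ∑ a, hw _ _ _ _ _
    rw [← hw_sum_right]
    congr 1
    have hsum : χ i e = fun y => ∑ a, mulR (P.χ a) χ i e y := by
      funext y; exact (P.sum_mulR χ i e y).symm
    show De (w e) (χ i e) (e x) = ∑ a, De (w e) (mulR (P.χ a) χ i e) (e x)
    conv_lhs => rw [hsum]
    exact De_sum _ fun a _ => ((hχa a).smooth i e x hx hi).mono (by exact_mod_cast le_top)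
  have s2 : ∀ N, ip L (fun i x => ρ i x + v N x) w Z χ =
      ∑ a, ip L (fun i x => ρ i x + v N x) w Z (mulR (P.χ a) χ) := by
    intro N
    show intC L _ = ∑ a, intC L _
    rw [← intC_sum _ fun a _ => hZ.isDens_hX (hρN N) hk (hχa a)]
    refine intC_congr fun i e x hx hi => ?_
    show hw _ _ _ _ _ = ∑ a, hw _ _ _ _ _
    rw [← hw_sum_right, P.sum_mulR]
  have hZs : ∀ a, ∀ z ∈ dom L (P.i a) (P.e a), VC ∞ (Z (P.i a) (P.e a)) z := fun a z hz => by
    have h1 := At.of_dom (P.mem a) hz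
    have := hZ.smooth (P.i a) (P.e a) _ h1.1 h1.2.1
    rwa [h1.2.2] at this
  have t1 : ∀ a, Tendsto (fun N => ip L (fun i x => ρ i x + v N x) w g
      (dX w (mulR (P.χ a) χ)) - ip L (fun i x => ρ i x + v N x) w Z (mulR (P.χ a) χ)) l
      (𝓝 0) := by
    intro a
    have r1 := ip_tendsto hk hρ hv hW hg ((hχa a).dX hk) (P.mem a) (isClosed_tsupport _)
      (P.supp a) (P.suppU a) (h0' a)
    have r2 := ip_tendsto hk hρ hv hW hZ (hχa a) (P.mem a) (isClosed_tsupport _)
      (P.supp a) (P.suppU a) (h0 a)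
    have r3 := r1.sub r2
    have r4 := loc_identity hk hρ hW hg (hZs a) (hχa a) (P.mem a) (isClosed_tsupport _)
      (P.supp a) (P.suppU a) (h0 a) (fun I ξ h1 h2 h3 => hloc _ _ (P.mem a) I ξ h1 h2 h3)
    have r5 : (∫ z in dom L (P.i a) (P.e a), (Real.exp (-(ρ (P.i a) ((P.e a).symm z) +
        φ ((P.e a).symm z))) : ℂ) * hp 0 (w (P.e a)) z (g (P.i a) (P.e a) z)
          (dX w (mulR (P.χ a) χ) (P.i a) (P.e a) z)) -
        ∫ z in dom L (P.i a) (P.e a), (Real.exp (-(ρ (P.i a) ((P.e a).symm z) +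
          φ ((P.e a).symm z))) : ℂ) * hp 0 (w (P.e a)) z (Z (P.i a) (P.e a) z)
          (mulR (P.χ a) χ (P.i a) (P.e a) z) = 0 := sub_eq_zero.2 r4
    rwa [r5] at r3
  have t2 := tendsto_finsetSum (Finset.univ : Finset (Fin P.N)) fun a _ => t1 a
  rw [Finset.sum_const_zero] at t2
  refine t2.congr fun N => ?_
  rw [Finset.sum_sub_distrib, s1, s2]

/-- `δ` kills holomorphic sections -/
lemma dX_isHol (hZ : H897.IsHol L Z) {x : X} (hx : At e x) (hi : x ∈ L.U i) :
    dX w Z i e (e x) = 0 := by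
  have h1 : ∀ b, DVb b (Z i e) (e x) = 0 := fun b => by
    funext I
    exact dzb_of_holo (hZ.holo i e x hx hi I).differentiableAt
  show De (w e) (Z i e) (e x) = 0
  simp only [De, h1, Matrix.mulVec_zero, Finset.sum_const_zero, neg_zero]

lemma ip_mulR_re_nonneg (hk : IsKahler w) {ρ : ι → X → ℝ} {χ : X → ℝ} (hχ : ∀ x, 0 ≤ χ x) :
    0 ≤ (ip L ρ w Z (mulR χ Z)).re := by
  refine intC_re_nonneg fun i e x hx hi => ?_
  show 0 ≤ (hw _ _ _ (Z i e (e x)) (((χ (e.symm (e x)) : ℝ) : ℂ) • Z i e (e x))).re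
  rw [hw_smul_right, Complex.conj_ofReal, Complex.re_ofReal_mul]
  exact mul_nonneg (hχ _) (hw_nonneg (kat hk hx) _)

/-- a smooth section whose norms tend to zero is zero -/
theorem zero_of_ip [l.NeBot] (hk : IsKahler w) (hρ : IsMetric L ρ)
    (hv : ∀ N, Smooth (d := d) (v N)) (hW : WLim d l v φ) (hZ : H862.IsSec L Z)
    (h3 : Tendsto (fun N => (ip L (fun i x => ρ i x + v N x) w Z Z).re) l (𝓝 0)) {i : ι}
    {e : Chart d X} {x : X} (hx : At e x) (hi : x ∈ L.U i) : Z i e (e x) = 0 := by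
  have hρN : ∀ N, IsMetric L (fun i x => ρ i x + v N x) := fun N => isMetric_add hρ (hv N)
  obtain ⟨P⟩ := exists_triv L
  have hZa : ∀ a, H862.IsSec L (mulR (P.χ a) Z) := fun a => hZ.mulR (P.smooth a)
  have h0 : ∀ a i e' x, At e' x → x ∈ L.U i → x ∉ tsupport (P.χ a) →
      mulR (P.χ a) Z i e' (e' x) = 0 := by
    intro a i e' x hx hi hxK
    exact (mulR_zero_near hx hxK).self_of_nhds
  have s2 : ∀ N, ip L (fun i x => ρ i x + v N x) w Z Z =
      ∑ a, ip L (fun i x => ρ i x + v N x) w Z (mulR (P.χ a) Z) := by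
    intro N
    show intC L _ = ∑ a, intC L _
    rw [← intC_sum _ fun a _ => hZ.isDens_hX (hρN N) hk (hZa a)]
    refine intC_congr fun i e x hx hi => ?_
    show hw _ _ _ _ _ = ∑ a, hw _ _ _ _ _
    rw [← hw_sum_right, P.sum_mulR]
  obtain ⟨a, -, ha⟩ : ∃ a ∈ (Finset.univ : Finset (Fin P.N)), P.χ a x ≠ 0 := by
    by_contra hcon
    push Not at hcon
    have := P.sum x
    rw [Finset.sum_eq_zero hcon] at this
    exact zero_ne_one this
  have hxs : x ∈ tsupport (P.χ a) := subset_tsupport _ ha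
  have hxe : At (P.e a) x := ⟨P.mem a, P.supp a hxs⟩
  have hxi : x ∈ L.U (P.i a) := P.suppU a hxs
  have r1 := ip_tendsto hk hρ hv hW hZ (hZa a) (P.mem a) (isClosed_tsupport _)
    (P.supp a) (P.suppU a) (h0 a)
  have r2 : Tendsto (fun N => (ip L (fun i x => ρ i x + v N x) w Z (mulR (P.χ a) Z)).re) l
      (𝓝 0) := by
    refine squeeze_zero (fun N => ip_mulR_re_nonneg hk (P.nonneg a)) (fun N => ?_) h3
    rw [s2 N, Complex.re_sum]
    exact Finset.single_le_sum (f := fun b => (ip L (fun i x => ρ i x + v N x) w Z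
      (mulR (P.χ b) Z)).re) (fun b _ => ip_mulR_re_nonneg hk (P.nonneg b)) (Finset.mem_univ a)
  set Ω := dom L (P.i a) (P.e a) with hΩ
  have hΩm : MeasurableSet Ω := (isOpen_dom L (P.i a) (P.e a)).measurableSet
  have hc : IsCompact (P.e a '' tsupport (P.χ a)) :=
    (isClosed_tsupport _).isCompact.image_of_continuousOn ((P.e a).continuousOn.mono (P.supp a))
  have hsub : P.e a '' tsupport (P.χ a) ⊆ Ω := by
    rintro _ ⟨y, hy, rfl⟩; exact mem_dom ⟨P.mem a, P.supp a hy⟩ (P.suppU a hy)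
  have hGc : ContinuousOn (fun z => hp 0 (w (P.e a)) z (Z (P.i a) (P.e a) z)
      (mulR (P.χ a) Z (P.i a) (P.e a) z)) Ω := by
    intro z hz
    have e1 := At.of_dom (P.mem a) hz
    have e3 := kat hk e1.1
    have e4 := hZ.smooth (P.i a) (P.e a) _ e1.1 e1.2.1
    have e5 := (hZa a).smooth (P.i a) (P.e a) _ e1.1 e1.2.1
    rw [e1.2.2] at e3 e4 e5
    exact ((contDiffAt_rho e3).mul (contDiffAt_pr (VC.mulVec (MC_Ld e3) e4)
      e5)).continuousAt.continuousWithinAt
  have hint : IntegrableOn (fun z => (Real.exp (-(ρ (P.i a) ((P.e a).symm z) +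
      φ ((P.e a).symm z))) : ℂ) * hp 0 (w (P.e a)) z (Z (P.i a) (P.e a) z)
        (mulR (P.χ a) Z (P.i a) (P.e a) z)) Ω := by
    refine integrable_weight hρ hW (P.mem a) hc hsub (hGc.mono hsub) fun z hz hzK => ?_
    have e1 := At.of_dom (P.mem a) hz
    have e2 := h0 a (P.i a) (P.e a) _ e1.1 e1.2.1 fun h => hzK ⟨_, h, e1.2.2⟩
    rw [e1.2.2] at e2
    rw [e2]
    simp [hp, pr_zero_right]
  have r3 : ∫ z in Ω, ((Real.exp (-(ρ (P.i a) ((P.e a).symm z) +
      φ ((P.e a).symm z))) : ℂ) * hp 0 (w (P.e a)) z (Z (P.i a) (P.e a) z)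
        (mulR (P.χ a) Z (P.i a) (P.e a) z)).re = 0 := by
    have e1 := tendsto_nhds_unique ((Complex.continuous_re.tendsto _).comp r1) r2
    rw [← e1]
    exact integral_re hint
  have hre : ∀ z ∈ Ω, ((Real.exp (-(ρ (P.i a) ((P.e a).symm z) +
      φ ((P.e a).symm z))) : ℂ) * hp 0 (w (P.e a)) z (Z (P.i a) (P.e a) z)
        (mulR (P.χ a) Z (P.i a) (P.e a) z)).re = Real.exp (-(ρ (P.i a) ((P.e a).symm z) +
      φ ((P.e a).symm z))) * (P.χ a ((P.e a).symm z) * (hp 0 (w (P.e a)) z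
        (Z (P.i a) (P.e a) z) (Z (P.i a) (P.e a) z)).re) := by
    intro z hz
    rw [Complex.re_ofReal_mul]
    congr 1
    show (hp 0 _ _ _ (((P.χ a ((P.e a).symm z) : ℝ) : ℂ) • _)).re = _
    rw [hp_smul_right, Complex.conj_ofReal, Complex.re_ofReal_mul]
  have hnn : ∀ z ∈ Ω, 0 ≤ (hp 0 (w (P.e a)) z (Z (P.i a) (P.e a) z)
      (Z (P.i a) (P.e a) z)).re := by
    intro z hz
    have e1 := At.of_dom (P.mem a) hz
    have e3 := kat hk e1.1
    rw [e1.2.2] at e3
    have := hw_nonneg (f := fun _ => 0) e3 (Z (P.i a) (P.e a) z)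
    simpa [hw] using this
  have r4 : (fun z => ((Real.exp (-(ρ (P.i a) ((P.e a).symm z) +
      φ ((P.e a).symm z))) : ℂ) * hp 0 (w (P.e a)) z (Z (P.i a) (P.e a) z)
        (mulR (P.χ a) Z (P.i a) (P.e a) z)).re) =ᵐ[volume.restrict Ω] 0 := by
    refine (setIntegral_eq_zero_iff_of_nonneg_ae ?_ hint.re).1 r3
    refine (ae_restrict_iff' hΩm).2 (Eventually.of_forall fun z hz => ?_)
    refine le_of_le_of_eq ?_ (hre z hz).symm
    exact mul_nonneg (Real.exp_pos _).le (mul_nonneg (P.nonneg a _) (hnn z hz))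
  have r5 : (fun z => (hp 0 (w (P.e a)) z (Z (P.i a) (P.e a) z)
      (mulR (P.χ a) Z (P.i a) (P.e a) z)).re) =ᵐ[volume.restrict Ω] fun _ => 0 := by
    filter_upwards [r4] with z hz
    have hz' : Real.exp (-(ρ (P.i a) ((P.e a).symm z) + φ ((P.e a).symm z))) *
        (hp 0 (w (P.e a)) z (Z (P.i a) (P.e a) z)
          (mulR (P.χ a) Z (P.i a) (P.e a) z)).re = 0 := by
      rw [← Complex.re_ofReal_mul]; exact hz
    exact (mul_eq_zero.1 hz').resolve_left (Real.exp_pos _).ne'
  have r6 := Measure.eqOn_open_of_ae_eq r5 (isOpen_dom L (P.i a) (P.e a))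
    (Complex.continuous_re.comp_continuousOn hGc) continuousOn_const
  have r7 := r6 (mem_dom hxe hxi)
  have r8 : P.χ a x * (hp 0 (w (P.e a)) (P.e a x) (Z (P.i a) (P.e a) (P.e a x))
      (Z (P.i a) (P.e a) (P.e a x))).re = 0 := by
    have e1 : (hp 0 (w (P.e a)) (P.e a x) (Z (P.i a) (P.e a) (P.e a x))
      (mulR (P.χ a) Z (P.i a) (P.e a) (P.e a x))).re = 0 := r7
    have e2 : mulR (P.χ a) Z (P.i a) (P.e a) (P.e a x) =
        ((P.χ a x : ℝ) : ℂ) • Z (P.i a) (P.e a) (P.e a x) := by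
      show ((P.χ a ((P.e a).symm (P.e a x)) : ℝ) : ℂ) • _ = _
      rw [hxe.left_inv]
    rw [e2, hp_smul_right, Complex.conj_ofReal, Complex.re_ofReal_mul] at e1
    exact e1
  have r9 : Z (P.i a) (P.e a) (P.e a x) = 0 := by
    by_contra hne
    have e1 := hw_pos (f := fun _ => 0) (kat hk hxe) hne
    have e2 : (hp 0 (w (P.e a)) (P.e a x) (Z (P.i a) (P.e a) (P.e a x))
      (Z (P.i a) (P.e a) (P.e a x))).re ≠ 0 := by
      have : 0 < (hp 0 (w (P.e a)) (P.e a x) (Z (P.i a) (P.e a) (P.e a x))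
        (Z (P.i a) (P.e a) (P.e a x))).re := by simpa [hw] using e1
      exact this.ne'
    exact e2 ((mul_eq_zero.1 r8).resolve_left ha)
  rw [hZ.change i (P.i a) e (P.e a) x hx hxe hi hxi, r9, Matrix.mulVec_zero]

/-- **Vanishing.** If `d'(f g) = f Z` with `Z` holomorphic and a limit weight `f`, then `Z = 0`. -/
theorem Z_zero [l.NeBot] (hk : IsKahler w) (hρ : IsMetric L ρ)
    (hv : ∀ N, Smooth (d := d) (v N)) (hW : WLim d l v φ) (hg : H862.IsSec L g)
    (hZ : H897.IsHol L Z) (hloc : LocEq L ρ φ g Z) {i : ι} {e : Chart d X} {x : X}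
    (hx : At e x) (hi : x ∈ L.U i) : Z i e (e x) = 0 := by
  have hρN : ∀ N, IsMetric L (fun i x => ρ i x + v N x) := fun N => isMetric_add hρ (hv N)
  have h1 := glob_weak hk hρ hv hW hg hZ.isSec hloc hZ.isSec
  have h2 : ∀ N, ip L (fun i x => ρ i x + v N x) w g (dX w Z) = 0 := by
    intro N
    have : intC L (hX (fun i x => ρ i x + v N x) w g (dX w Z)) = intC L (fun _ _ _ => 0) :=
      intC_congr fun i e x hx hi => by
        show hw _ _ _ _ _ = 0
        rw [dX_isHol hZ hx hi, hw_zero_right]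
    show intC L _ = 0
    rw [this, intC_zero]
  simp only [h2, zero_sub] at h1
  have h3 : Tendsto (fun N => (ip L (fun i x => ρ i x + v N x) w Z Z).re) l (𝓝 0) := by
    have := (Complex.continuous_re.tendsto _).comp h1.neg
    rw [neg_zero, Complex.zero_re] at this
    refine this.congr fun N => ?_
    show (-(-ip L (fun i x => ρ i x + v N x) w Z Z)).re = _
    rw [neg_neg]
  exact zero_of_ip hk hρ hv hW hZ.isSec h3 hx hi

/-- **The weak equation of a form with holomorphic `D'`.** -/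
theorem weak_of_locEq [l.NeBot] (hk : IsKahler w) (hρ : IsMetric L ρ)
    (hv : ∀ N, Smooth (d := d) (v N)) (hW : WLim d l v φ) (hg : H862.IsSec L g)
    (hZ : H897.IsHol L Z) (hloc : LocEq L ρ φ g Z) {χ : H862.Fam d X ι} (hχ : H862.IsSec L χ) :
    Tendsto (fun N => ip L (fun i x => ρ i x + v N x) w g (dX w χ)) l (𝓝 0) := by
  refine (glob_weak hk hρ hv hW hg hZ.isSec hloc hχ).congr fun N => ?_
  have h1 : ip L (fun i x => ρ i x + v N x) w Z χ = 0 := by
    have : intC L (hX (fun i x => ρ i x + v N x) w Z χ) = intC L (fun _ _ _ => 0) :=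
      intC_congr fun i e x hx hi => by
        show hw _ _ _ _ _ = 0
        rw [Z_zero hk hρ hv hW hg hZ hloc hx hi, hw_zero_left]
    show intC L _ = 0
    rw [this, intC_zero]
  rw [h1, sub_zero]

end Vale.Agent.P301.H794
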