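import Vale.Agent.P301.H794.Fam

/-! P301, H794: the alpha invariant: uniform exponential integrability of small order of
quasi-plurisubharmonic functions, and of mixtures with the functions of a family `Fam`. -/

open scoped Manifold ContDiff ComplexOrder Topology ENNReal
open Filter Metric Set MeasureTheory

set_option linter.all false

noncomputable section

namespace Vale.Agent.P301.H794

open Vale.Agent.P272.K Vale.Agent.P272.K.QN Vale.Agent.P301.H599

variable {d : ℕ} {X : Type} [TopologicalSpace X] [ChartedSpace (Cm d) X]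
  [IsManifold 𝓘(ℂ, Cm d) ω X] [CompactSpace X]

/-- integrals over compact subsets of a chart are bounded by integrals over `X` -/
theorem local_le_intX [T2Space X] {V : Chart d X → Cm d → ℝ} (hV : INT.IsDensity V)
    (hV0 : ∀ e x, At e x → 0 < V e (e x)) {e : Chart d X} (he : e ∈ atlas (Cm d) X)
    {K : Set (Cm d)} (hK : IsCompact K) (hKe : K ⊆ e.target) :
    ∃ C : ℝ, 0 < C ∧ ∀ f : X → ℝ, Continuous f → (∀ x, 0 ≤ f x) →
      ∫⁻ z in K, ENNReal.ofReal (f (e.symm z)) ≤
        ENNReal.ofReal (C * INT.intX (fun e z => f (e.symm z) * V e z)) := by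
  rcases K.eq_empty_or_nonempty with rfl | hne
  · exact ⟨1, one_pos, fun f _ _ => by simp⟩
  have hVp : ∀ z ∈ e.target, 0 < V e z := by
    intro z hz
    have := hV0 e (e.symm z) (At.of_target he hz)
    rwa [e.right_inv hz] at this
  obtain ⟨z₀, hz₀, hmin⟩ := hK.exists_isMinOn hne ((hV.continuousOn he).mono hKe)
  set m := V e z₀ with hm
  have hm0 : 0 < m := hVp z₀ (hKe hz₀)
  -- the cutoff function
  have hK' : IsClosed (e.symm '' K) :=
    (hK.image_of_continuousOn (e.continuousOn_symm.mono hKe)).isClosed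
  have hK's : e.symm '' K ⊆ e.source := by
    rintro _ ⟨z, hz, rfl⟩; exact e.map_target (hKe hz)
  obtain ⟨χ, hχs, hχ1, hχ⟩ := exists_tsupport_one_of_isOpen_isClosed e.open_source
    isClosed_closure.isCompact hK' hK's
  refine ⟨m⁻¹, by positivity, fun f hf hf0 => ?_⟩
  set g : X → ℝ := fun x => χ x * f x with hg
  have hgc : Continuous g := χ.continuous.mul hf
  have hg0 : ∀ x, 0 ≤ g x := fun x => mul_nonneg (hχ x).1 (hf0 x)
  have hgs : tsupport g ⊆ e.source := INT.tsupport_mul_subset_left'.trans hχs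
  have hgD : INT.IsDensity (fun e z => g (e.symm z) * V e z) := hV.smul hgc
  have e1 : INT.intX (fun e z => g (e.symm z) * V e z) =
      ∫ z in e.target, g (e.symm z) * V e z := by
    refine INT.intX_of_support hgD he (isClosed_tsupport g) hgs fun e' x hx hxs => ?_
    show g (e'.symm (e' x)) * _ = 0
    rw [hx.left_inv, image_eq_zero_of_notMem_tsupport hxs, zero_mul]
  have e2 : INT.intX (fun e z => g (e.symm z) * V e z) ≤
      INT.intX (fun e z => f (e.symm z) * V e z) := by
    refine INT.intX_mono hgD (hV.smul hf) fun e' x hx => ?_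
    refine mul_le_mul_of_nonneg_right ?_ (hV0 e' x hx).le
    have h1 := (hχ (e'.symm (e' x))).2
    have h2 := hf0 (e'.symm (e' x))
    show χ _ * f _ ≤ f _
    nlinarith
  have hint : IntegrableOn (fun z => m⁻¹ * (g (e.symm z) * V e z)) e.target :=
    (INT.integrableOn_dens hV he hgc hgs).const_mul _
  calc ∫⁻ z in K, ENNReal.ofReal (f (e.symm z))
      ≤ ∫⁻ z in K, ENNReal.ofReal (m⁻¹ * (g (e.symm z) * V e z)) := by
        refine setLIntegral_mono' hK.measurableSet fun z hz => ENNReal.ofReal_le_ofReal ?_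
        have h1 : χ (e.symm z) = 1 := hχ1 ⟨z, hz, rfl⟩
        have h2 : m ≤ V e z := hmin hz
        simp only [hg, h1, one_mul]
        have h3 := hf0 (e.symm z)
        rw [inv_mul_eq_div, le_div_iff₀ hm0]
        exact mul_le_mul_of_nonneg_left h2 h3
    _ ≤ ∫⁻ z in e.target, ENNReal.ofReal (m⁻¹ * (g (e.symm z) * V e z)) := lintegral_mono_set hKe
    _ = ENNReal.ofReal (∫ z in e.target, m⁻¹ * (g (e.symm z) * V e z)) := by
        rw [ofReal_integral_eq_lintegral_ofReal hint]
        filter_upwards [self_mem_ae_restrict e.open_target.measurableSet] with z hz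
        exact mul_nonneg (by positivity) (mul_nonneg (hg0 _) (hVp z hz).le)
    _ ≤ _ := by
        rw [integral_const_mul, ← e1]
        exact ENNReal.ofReal_le_ofReal (mul_le_mul_of_nonneg_left e2 (by positivity))

variable {w : Fm d X} {A : ℝ}

/-- local lower bound for the Hessians -/
lemma qpsh_psd (hw : IsKahler w) (hA : 0 ≤ A) {e : Chart d X}
    (he : e ∈ atlas (Cm d) X) {K : Set (Cm d)} (hK : IsCompact K) (hKe : K ⊆ e.target) :
    ∃ T : ℝ, 0 ≤ T ∧ ∀ v : X → ℝ, QPsh w A v → ∀ z ∈ K,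
      (cHess (fun z => v (e.symm z)) z + (T : ℂ) • (1 : Matrix (Fin d) (Fin d) ℂ)).PosSemidef := by
  obtain ⟨T, hT⟩ := exists_upper_one hw he hK hKe
  refine ⟨|A * T|, abs_nonneg _, fun v hv z hz => ?_⟩
  have h1 := hv.psd e _ (At.of_target he (hKe hz))
  rw [e.right_inv (hKe hz)] at h1
  have h2 := (hT z hz).smul hA
  have h3 := Matrix.PosSemidef.one (n := Fin d) (R := ℂ) |>.smul
    (show 0 ≤ |A * T| - A * T by linarith [le_abs_self (A * T)])
  have h4 : cHess (fun z => v (e.symm z)) z + ((|A * T| : ℝ) : ℂ) •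
      (1 : Matrix (Fin d) (Fin d) ℂ) = (cHess (fun z => v (e.symm z)) z + (A : ℂ) • w e z) +
      A • (((T : ℝ) : ℂ) • (1 : Matrix (Fin d) (Fin d) ℂ) - w e z) +
      (|A * T| - A * T) • (1 : Matrix (Fin d) (Fin d) ℂ) := by
    ext p q
    simp only [Matrix.add_apply, Matrix.sub_apply, Matrix.smul_apply, smul_eq_mul,
      Complex.real_smul]
    push_cast
    ring
  rw [h4]
  exact (h1.add h2).add h3

/-- local uniform exponential integrability of small order -/
lemma alpha_local [PreconnectedSpace X] (hw : IsKahler w) (hA : 0 ≤ A) (C : ℝ) {e : Chart d X}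
    {x : X} (hx : At e x) :
    ∃ r : ℝ, 0 < r ∧ closedBall (e x) r ⊆ e.target ∧ ∃ a : ℝ, 0 < a ∧ ∃ K : ℝ≥0∞, K ≠ ⊤ ∧
      ∀ v : X → ℝ, QPsh w A v → (∃ q, -C ≤ v q) → ∀ b : ℝ, b ≤ a →
        ∫⁻ z in ball (e x) r, ENNReal.ofReal (Real.exp (-(b * v (e.symm z)))) ≤ K := by
  set c := e x with hcdef
  obtain ⟨R', hR', hRe⟩ := Metric.nhds_basis_closedBall.mem_iff.1 hx.nhds_target
  obtain ⟨R, hR, hR2⟩ : ∃ R : ℝ, 0 < R ∧ 2 * R ≤ R' := ⟨R' / 2, by positivity, by linarith⟩
  have hc2 : closedBall c (2 * R) ⊆ e.target := (closedBall_subset_closedBall hR2).trans hRe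
  obtain ⟨T, hT0, hT⟩ := qpsh_psd hw hA hx.1 (isCompact_closedBall c (2 * R)) hc2
  have hRb : ball c (R / 16) ⊆ e.target := (ball_subset_closedBall.trans
    (closedBall_subset_closedBall (by linarith))).trans hc2
  have hUo : IsOpen (e.source ∩ e ⁻¹' ball c (R / 16)) := e.isOpen_inter_preimage isOpen_ball
  have hUn : (e.source ∩ e ⁻¹' ball c (R / 16)).Nonempty := by
    refine ⟨e.symm c, e.map_target (hRb (mem_ball_self (by positivity))), ?_⟩
    show e (e.symm c) ∈ ball c (R / 16)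
    rw [e.right_inv (hRb (mem_ball_self (by positivity)))]
    exact mem_ball_self (by positivity)
  obtain ⟨M, hM⟩ := exists_lower_point (w := w) (subMean d) hw.toIsHermitian hA hUo hUn C
  set Q : ℝ := |M| + T * d * R ^ 2 + 1 with hQ
  have hQ0 : 0 < Q := by positivity
  have hl2 : 0 < Real.log 2 := Real.log_pos (by norm_num)
  set a : ℝ := Real.log 2 / Q with ha
  have ha0 : 0 < a := by positivity
  obtain ⟨K, hK, hKf⟩ := polydisc_exp d (R := R) (A := T) (B := |M|) (p := a) (r := 1 / 4) hR hT0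
    (abs_nonneg _) ha0.le (by norm_num) (by norm_num) (by
      have h1 : -Real.log (2 * (1 / 4 : ℝ)) = Real.log 2 := by
        rw [← Real.log_inv]; norm_num
      rw [h1, ha, div_mul_eq_mul_div, div_le_iff₀ hQ0]
      refine mul_le_mul_of_nonneg_left ?_ hl2.le
      rw [hQ]; linarith)
  refine ⟨R / 16, by positivity, (closedBall_subset_closedBall (by linarith)).trans hc2, a, ha0,
    K, hK, fun v hv hq b hb => ?_⟩
  obtain ⟨q, hqU, hqM⟩ := hM v hv hq
  have hqc : e q ∈ ball c (R / 16) := hqU.2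
  have hqd : dist (e q) c < R / 16 := hqc
  have hsub : closedBall (e q) R ⊆ closedBall c (2 * R) := by
    refine closedBall_subset_closedBall' ?_
    linarith
  have hcd : ∀ y ∈ closedBall (e q) R, ContDiffAt ℝ ∞ (fun y => v (e.symm y)) y := by
    intro y hy
    have := hv.smooth e _ (At.of_target hx.1 (hc2 (hsub hy)))
    rwa [e.right_inv (hc2 (hsub hy))] at this
  have key := hKf (e q) (fun y => v (e.symm y)) (fun y hy => (hcd y hy).of_le (by norm_cast))
    (fun y hy => hT v hv y (hsub hy)) (fun y hy => hv.nonpos _) (by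
      rw [e.left_inv hqU.1]
      have := le_abs_self M
      linarith)
  have hbb : ball c (R / 16) ⊆ ball (e q) (1 / 4 / 2 * R) := by
    refine ball_subset_ball' ?_
    rw [dist_comm]
    linarith
  calc ∫⁻ y in ball c (R / 16), ENNReal.ofReal (Real.exp (-(b * v (e.symm y))))
      ≤ ∫⁻ y in ball c (R / 16), ENNReal.ofReal (Real.exp (-(a * v (e.symm y)))) := by
        refine lintegral_mono fun y => ENNReal.ofReal_le_ofReal (Real.exp_le_exp.2 ?_)
        have := hv.nonpos (e.symm y)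
        nlinarith
    _ ≤ ∫⁻ y in ball (e q) (1 / 4 / 2 * R), ENNReal.ofReal (Real.exp (-(a * v (e.symm y)))) :=
        lintegral_mono_set hbb
    _ ≤ K := key

/-- for compact subsets of a chart -/
lemma alpha_compact [PreconnectedSpace X] (hw : IsKahler w) (hA : 0 ≤ A) (C : ℝ) {e : Chart d X}
    (he : e ∈ atlas (Cm d) X) {K : Set (Cm d)} (hK : IsCompact K) (hKe : K ⊆ e.target) :
    ∃ a : ℝ, 0 < a ∧ ∃ B : ℝ≥0∞, B ≠ ⊤ ∧
      ∀ v : X → ℝ, QPsh w A v → (∃ q, -C ≤ v q) → ∀ b : ℝ, b ≤ a →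
        ∫⁻ z in K, ENNReal.ofReal (Real.exp (-(b * v (e.symm z)))) ≤ B := by
  refine hK.induction_on (p := fun S => ∃ a : ℝ, 0 < a ∧ ∃ B : ℝ≥0∞, B ≠ ⊤ ∧
      ∀ v : X → ℝ, QPsh w A v → (∃ q, -C ≤ v q) → ∀ b : ℝ, b ≤ a →
        ∫⁻ z in S, ENNReal.ofReal (Real.exp (-(b * v (e.symm z)))) ≤ B) ?_ ?_ ?_ ?_
  · exact ⟨1, one_pos, 0, by simp, fun v _ _ b _ => by simp⟩
  · rintro S S' hSS ⟨a, ha, B, hB, h⟩
    exact ⟨a, ha, B, hB, fun v hv hq b hb => (lintegral_mono_set hSS).trans (h v hv hq b hb)⟩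
  · rintro S S' ⟨a, ha, B, hB, h⟩ ⟨a', ha', B', hB', h'⟩
    refine ⟨min a a', lt_min ha ha', B + B', ENNReal.add_ne_top.2 ⟨hB, hB'⟩,
      fun v hv hq b hb => ?_⟩
    exact (lintegral_union_le _ _ _).trans (add_le_add (h v hv hq b (hb.trans (min_le_left _ _)))
      (h' v hv hq b (hb.trans (min_le_right _ _))))
  · intro z hz
    have hat := At.of_target he (hKe hz)
    obtain ⟨r, hr, hre, a, ha, B, hB, h⟩ := alpha_local hw hA C hat
    rw [e.right_inv (hKe hz)] at h
    exact ⟨ball z r, mem_nhdsWithin_of_mem_nhds (ball_mem_nhds z hr), a, ha, B, hB, h⟩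

/-- **Alpha invariant.** -/
theorem exists_alpha_intX [T2Space X] [PreconnectedSpace X] (hw : IsKahler w) (hA : 0 ≤ A) (C : ℝ)
    {D : Chart d X → Cm d → ℝ} (hD : INT.IsDensity D) (hD0 : ∀ e x, At e x → 0 ≤ D e (e x)) :
    ∃ a : ℝ, 0 < a ∧ ∃ B : ℝ, ∀ v : X → ℝ, QPsh w A v → (∃ q, -C ≤ v q) → ∀ b : ℝ, b ≤ a →
      INT.intX (fun e z => Real.exp (-(b * v (e.symm z))) * D e z) ≤ B := by
  classical
  set P := INT.part d X with hP
  have hle : ∀ i x, P.ρ i x ≤ 1 := by
    intro i x
    rw [← P.sum x]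
    exact Finset.single_le_sum (f := fun i => P.ρ i x) (fun j _ => P.nonneg j x)
      (Finset.mem_univ i)
  have hi : ∀ i, ∃ a : ℝ, 0 < a ∧ ∃ B : ℝ, ∀ v : X → ℝ, QPsh w A v → (∃ q, -C ≤ v q) →
      ∀ b : ℝ, b ≤ a → ∫ z in (P.e i).target, P.ρ i ((P.e i).symm z) *
        (Real.exp (-(b * v ((P.e i).symm z))) * D (P.e i) z) ≤ B := by
    intro i
    set e := P.e i with he
    have hmem : e ∈ atlas (Cm d) X := P.mem i
    set K : Set (Cm d) := e '' tsupport (P.ρ i) with hK
    have hKc : IsCompact K := (isClosed_tsupport (P.ρ i)).isCompact.image_of_continuousOn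
      (e.continuousOn.mono (P.supp i))
    have hKt : K ⊆ e.target := by
      rintro _ ⟨x, hx, rfl⟩; exact e.map_source (P.supp i hx)
    obtain ⟨a, ha, B, hB, hBv⟩ := alpha_compact hw hA C hmem hKc hKt
    obtain ⟨β, hβ⟩ := hKc.exists_bound_of_continuousOn ((hD.continuousOn hmem).mono hKt)
    refine ⟨a, ha, |β| * B.toReal, fun v hv hq b hb => ?_⟩
    have hvc : Continuous v := INT.SmoothFn.continuous hv.smooth
    have hec : ContinuousOn (fun z => Real.exp (-(b * v (e.symm z)))) K := by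
      refine Real.continuous_exp.comp_continuousOn (ContinuousOn.neg ?_)
      exact continuousOn_const.mul (hvc.comp_continuousOn (e.continuousOn_symm.mono hKt))
    have hρc : ContinuousOn (fun z => P.ρ i (e.symm z)) K :=
      (P.cont i).comp_continuousOn (e.continuousOn_symm.mono hKt)
    have hDc : ContinuousOn (D e) K := (hD.continuousOn hmem).mono hKt
    have hDn : ∀ z ∈ e.target, 0 ≤ D e z := by
      intro z hz
      have := hD0 e (e.symm z) (At.of_target hmem hz)
      rwa [e.right_inv hz] at this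
    have e1 : ∫ z in e.target, P.ρ i (e.symm z) * (Real.exp (-(b * v (e.symm z))) * D e z) =
        ∫ z in K, P.ρ i (e.symm z) * (Real.exp (-(b * v (e.symm z))) * D e z) := by
      refine setIntegral_eq_of_subset_of_forall_sdiff_eq_zero e.open_target.measurableSet hKt ?_
      rintro z ⟨hz1, hz2⟩
      have h1 : e.symm z ∉ tsupport (P.ρ i) := fun h => hz2 ⟨_, h, e.right_inv hz1⟩
      rw [image_eq_zero_of_notMem_tsupport h1, zero_mul]
    have hint : IntegrableOn (fun z => Real.exp (-(b * v (e.symm z)))) K :=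
      hec.integrableOn_compact hKc
    have e2 : ∫ z in K, P.ρ i (e.symm z) * (Real.exp (-(b * v (e.symm z))) * D e z) ≤
        ∫ z in K, |β| * Real.exp (-(b * v (e.symm z))) := by
      refine setIntegral_mono_on ((hρc.mul (hec.mul hDc)).integrableOn_compact hKc)
        (hint.const_mul _) hKc.measurableSet fun z hz => ?_
      have h1 : D e z ≤ |β| := (le_abs_self _).trans ((hβ z hz).trans (le_abs_self β))
      have h2 := Real.exp_pos (-(b * v (e.symm z)))
      have h3 := hDn z (hKt hz)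
      calc P.ρ i (e.symm z) * (Real.exp (-(b * v (e.symm z))) * D e z)
          ≤ 1 * (Real.exp (-(b * v (e.symm z))) * D e z) :=
            mul_le_mul_of_nonneg_right (hle i _) (by positivity)
        _ = Real.exp (-(b * v (e.symm z))) * D e z := one_mul _
        _ ≤ Real.exp (-(b * v (e.symm z))) * |β| := mul_le_mul_of_nonneg_left h1 h2.le
        _ = _ := mul_comm _ _
    rw [e1]
    refine e2.trans ?_
    rw [integral_const_mul]
    refine mul_le_mul_of_nonneg_left ?_ (abs_nonneg _)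
    rw [← ENNReal.ofReal_le_iff_le_toReal hB, ofReal_integral_eq_lintegral_ofReal hint
      (Filter.Eventually.of_forall fun z => (Real.exp_pos _).le)]
    exact hBv v hv hq b hb
  choose a ha B hB using hi
  obtain ⟨a₀, ha₀, hle₀⟩ : ∃ a₀ : ℝ, 0 < a₀ ∧ ∀ i, a₀ ≤ a i := by
    by_cases hN : Nonempty (Fin P.N)
    · refine ⟨Finset.univ.inf' Finset.univ_nonempty a, ?_, fun i =>
        Finset.inf'_le _ (Finset.mem_univ i)⟩
      rw [Finset.lt_inf'_iff]
      exact fun i _ => ha i
    · exact ⟨1, one_pos, fun i => absurd ⟨i⟩ hN⟩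
  refine ⟨a₀, ha₀, ∑ i, B i, fun v hv hq b hb => ?_⟩
  unfold INT.intX
  rw [← hP]
  exact Finset.sum_le_sum fun i _ => hB i v hv hq b (hb.trans (hle₀ i))

end Vale.Agent.P301.H794
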