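import Vale.Agent.P301.H794.MinLoc
import Vale.Agent.P301.H862.Glob
import Vale.Agent.P301.H599.Pull
import Vale.Agent.P272.K.INT.Global

/-! P301, H794 (CY-LIM): limits of approximate kernel elements have vanishing minors. -/

open Filter Metric Set MeasureTheory Topology
open scoped ENNReal ComplexOrder Matrix ComplexConjugate Manifold ContDiff

set_option linter.all false

noncomputable section

namespace Vale.Agent.P301.H794

open Vale.Agent.P272.K Vale.Agent.P299.IX Vale.Agent.P299.IX.Fock Vale.Agent.P301.H85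
open Vale.Agent.P301.H599 Vale.Agent.P301.H862 Vale.Agent.P299.H954

section loc

variable {d : ℕ} {w : Cm d → Matrix (Fin d) (Fin d) ℂ} {f : Cm d → ℝ} {z : Cm d}

lemma hw_eq (u v : FI d → ℂ) : H862.hw f w z u v =
    ((Real.exp (-f z) : ℝ) : ℂ) * ((w z).det * ipw (w z) u v) := by
  unfold H862.hw hp rho ipw pr Ld
  rw [zero_add, pow_one]

lemma det_re_eq (hw : (w z).PosDef) : (w z).det = (((w z).det.re : ℝ) : ℂ) := by
  apply Complex.ext
  · simp
  · have := (Complex.lt_def.1 hw.det_pos).2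
    simpa using this.symm

lemma hw_re (hw : (w z).PosDef) (u v : FI d → ℂ) : (H862.hw f w z u v).re =
    Real.exp (-f z) * (w z).det.re * (ipw (w z) u v).re := by
  rw [hw_eq, det_re_eq hw, ← mul_assoc, ← Complex.ofReal_mul, Complex.re_ofReal_mul,
    Complex.ofReal_re]

lemma sum_hw_eq (hw : (w z).PosDef) (τ : Matrix (Fin d) (Fin d) ℂ) (u : FI d → ℂ) :
    (∑ l, ∑ b, τ l b * H862.hw f w z (eps l *ᵥ u) (eps b *ᵥ u)).re =
      Real.exp (-f z) * (w z).det.re * (qfw (w z) τ u u).re := by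
  have h1 : ∑ l, ∑ b, τ l b * H862.hw f w z (eps l *ᵥ u) (eps b *ᵥ u) =
      ((Real.exp (-f z) * (w z).det.re : ℝ) : ℂ) * qfw (w z) τ u u := by
    unfold qfw
    rw [Finset.mul_sum]
    refine Finset.sum_congr rfl fun l _ => ?_
    rw [Finset.mul_sum]
    refine Finset.sum_congr rfl fun b _ => ?_
    rw [hw_eq, Complex.ofReal_mul, ← det_re_eq hw]
    ring
  rw [h1, Complex.re_ofReal_mul]

/-- lower bound of the zeroth order term -/
theorem Qw_lower2 (h : KAt w z) {a b : ℝ} (ha : 0 ≤ a) {τ : Matrix (Fin d) (Fin d) ℂ}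
    (hf : (cHess f z + (a : ℂ) • w z - (b : ℂ) • τ).PosSemidef) (u : FI d → ℂ) :
    b * (Real.exp (-f z) * (w z).det.re * (qfw (w z) τ u u).re) -
      a * d * (H862.hw f w z u u).re ≤ (H862.hw f w z (Qw f w z u) u).re := by
  have h1 : H862.hw f w z (Qw f w z u) u =
      ∑ l, ∑ b', (cHess f z + (a : ℂ) • w z - (b : ℂ) • τ) l b' *
          H862.hw f w z (eps l *ᵥ u) (eps b' *ᵥ u) +
        (b : ℂ) * ∑ l, ∑ b', τ l b' * H862.hw f w z (eps l *ᵥ u) (eps b' *ᵥ u) -
        (a : ℂ) * ∑ l, ∑ b', w z l b' * H862.hw f w z (eps l *ᵥ u) (eps b' *ᵥ u) := by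
    rw [Qw, hw_sum_left, Finset.mul_sum, Finset.mul_sum, ← Finset.sum_add_distrib,
      ← Finset.sum_sub_distrib]
    refine Finset.sum_congr rfl fun l _ => ?_
    rw [hw_sum_left, Finset.mul_sum, Finset.mul_sum, ← Finset.sum_add_distrib,
      ← Finset.sum_sub_distrib]
    refine Finset.sum_congr rfl fun b' _ => ?_
    rw [hw_smul_left, ← hw_eps_right h, Matrix.sub_apply, Matrix.add_apply, Matrix.smul_apply,
      Matrix.smul_apply, smul_eq_mul, smul_eq_mul]
    ring
  have h2 := sum_gram_nonneg (f := f) h hf (fun l => eps l *ᵥ u)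
  have h3 := sum_w_gram_le (f := f) h u
  have h4 := sum_hw_eq (f := f) h.posz τ u
  rw [h1, Complex.sub_re, Complex.add_re, Complex.re_ofReal_mul, Complex.re_ofReal_mul, h4]
  nlinarith

end loc

variable {d : ℕ} {X : Type} [TopologicalSpace X] [ChartedSpace (Cm d) X]
  [IsManifold 𝓘(ℂ, Cm d) ω X] [CompactSpace X] [T2Space X]

/-- integrals of nonnegative densities over compact subsets of a chart -/
theorem local_le_intX0 {D : Chart d X → Cm d → ℝ} (hD : INT.IsDensity D)
    (hD0 : ∀ e x, At e x → 0 ≤ D e (e x)) {e : Chart d X} (he : e ∈ atlas (Cm d) X)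
    {K : Set (Cm d)} (hK : IsCompact K) (hKe : K ⊆ e.target) :
    ∫⁻ z in K, ENNReal.ofReal (D e z) ≤ ENNReal.ofReal (INT.intX D) := by
  have hDp : ∀ z ∈ e.target, 0 ≤ D e z := by
    intro z hz
    have := hD0 e (e.symm z) (At.of_target he hz)
    rwa [e.right_inv hz] at this
  have hK' : IsClosed (e.symm '' K) :=
    (hK.image_of_continuousOn (e.continuousOn_symm.mono hKe)).isClosed
  have hK's : e.symm '' K ⊆ e.source := by
    rintro _ ⟨z, hz, rfl⟩; exact e.map_target (hKe hz)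
  obtain ⟨χ, hχs, hχ1, hχ⟩ := exists_tsupport_one_of_isOpen_isClosed e.open_source
    isClosed_closure.isCompact hK' hK's
  have hgD : INT.IsDensity (fun e z => χ (e.symm z) * D e z) := hD.smul χ.continuous
  have e1 : INT.intX (fun e z => χ (e.symm z) * D e z) =
      ∫ z in e.target, χ (e.symm z) * D e z := by
    refine INT.intX_of_support hgD he (isClosed_tsupport χ) hχs fun e' x hx hxs => ?_
    show χ (e'.symm (e' x)) * _ = 0
    rw [hx.left_inv, image_eq_zero_of_notMem_tsupport hxs, zero_mul]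
  have e2 : INT.intX (fun e z => χ (e.symm z) * D e z) ≤ INT.intX D := by
    refine INT.intX_mono hgD hD fun e' x hx => ?_
    have h1 := (hχ (e'.symm (e' x))).2
    have h2 := hD0 e' x hx
    show χ _ * D e' (e' x) ≤ D e' (e' x)
    nlinarith
  have hint : IntegrableOn (fun z => χ (e.symm z) * D e z) e.target :=
    INT.integrableOn_dens hD he χ.continuous hχs
  calc ∫⁻ z in K, ENNReal.ofReal (D e z)
      ≤ ∫⁻ z in K, ENNReal.ofReal (χ (e.symm z) * D e z) := by
        refine setLIntegral_mono' hK.measurableSet fun z hz => ENNReal.ofReal_le_ofReal ?_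
        have h1 : χ (e.symm z) = 1 := hχ1 ⟨z, hz, rfl⟩
        rw [h1, one_mul]
    _ ≤ ∫⁻ z in e.target, ENNReal.ofReal (χ (e.symm z) * D e z) := lintegral_mono_set hKe
    _ = ENNReal.ofReal (∫ z in e.target, χ (e.symm z) * D e z) := by
        rw [ofReal_integral_eq_lintegral_ofReal hint]
        filter_upwards [self_mem_ae_restrict e.open_target.measurableSet] with z hz
        exact mul_nonneg (hχ _).1 (hDp z hz)
    _ ≤ _ := by
        rw [← e1]
        exact ENNReal.ofReal_le_ofReal e2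

variable {ι : Type} {L : LineBundle d X ι}

/-- the same for complex densities of the bundle -/
lemma local_le_intC {D : ι → Chart d X → Cm d → ℂ} (hD : IsDens L D)
    (hD0 : ∀ i e x, At e x → x ∈ L.U i → 0 ≤ (D i e (e x)).re) {i : ι} {e : Chart d X}
    (he : e ∈ atlas (Cm d) X) {K : Set (Cm d)} (hK : IsCompact K) (hKe : K ⊆ dom L i e) :
    ∫⁻ z in K, ENNReal.ofReal ((D i e z).re) ≤ ENNReal.ofReal ((intC L D).re) := by
  have h1 := local_le_intX0 hD.isDensity_re (fun e x hx => by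
    rw [reD_eq hD hx (mem_ix L x)]
    exact hD0 _ e x hx (mem_ix L x)) he hK (hKe.trans inter_subset_left)
  rw [intC_re]
  refine le_trans (le_of_eq ?_) h1
  refine setLIntegral_congr_fun hK.measurableSet fun z hz => ?_
  have hz' := hKe hz
  have hat := H862.At.of_dom he hz'
  have := reD_eq hD hat.1 hat.2.1
  rw [e.right_inv hz'.1] at this
  rw [this]

omit [IsManifold 𝓘(ℂ, Cm d) ω X] [CompactSpace X] [T2Space X] in
lemma isMetric_add {ρ₀ : ι → X → ℝ} (hρ₀ : IsMetric L ρ₀) {v : X → ℝ} (hv : Smooth (d := d) v) :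
    IsMetric L (fun i x => ρ₀ i x + v x) where
  smooth i e x hx hi := (hρ₀.smooth i e x hx hi).add (hv e x hx)
  change i j x hi hj := by
    show ρ₀ i x + v x = ρ₀ j x + v x + _
    rw [hρ₀.change i j x hi hj]; ring

omit [CompactSpace X] [T2Space X] in
lemma gradX_nonneg {w : Fm d X} (hw : IsKahler w) (ρ : ι → X → ℝ) (g : H862.Fam d X ι) (i : ι)
    {e : Chart d X} {x : X} (hx : At e x) : 0 ≤ (gradX ρ w g g i e (e x)).re := by
  have hk := kat hw hx
  have h1 := sum_gram_nonneg (f := wt ρ i e) hk (hk.posz.inv.posSemidef)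
    (fun b => DVb b (g i e) (e x))
  unfold gradX
  rw [Finset.sum_comm]
  exact h1

/-- the integral of the zeroth order term is bounded by the integral of `|D'g|² + |δg|²` -/
lemma ip_QX_le {w : Fm d X} (hw : IsKahler w) {ρ : ι → X → ℝ} (hρ : IsMetric L ρ)
    {g : H862.Fam d X ι} (hg : IsSec L g) : (ip L ρ w (QX ρ w g) g).re ≤
      (ip L ρ w (DX ρ g) (DX ρ g)).re + (ip L ρ w (dX w g) (dX w g)).re := by
  have h1 := congrArg Complex.re (bkn hρ hw hg)
  rw [Complex.add_re, Complex.add_re] at h1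
  have h2 : 0 ≤ (intC L (gradX ρ w g g)).re :=
    intC_re_nonneg fun i e x hx _ => gradX_nonneg hw ρ g i hx
  linarith

/-- **CY-LIM**: the minors of the limits vanish. -/
theorem minors_vanish {α : Type*} {l : Filter α} [l.NeBot] {k n : ℕ} (hk : k < d) (hnk : n ≤ k)
    {w : Fm d X} (hw : IsKahler w) {ρ₀ : ι → X → ℝ} (hρ₀ : IsMetric L ρ₀)
    {v : α → X → ℝ} (hv : ∀ᶠ N in l, Smooth (d := d) (v N)) {C1 : ℝ}
    (hvC : ∀ᶠ N in l, ∀ x, v N x ≤ C1)
    {τ : α → Fm d X} (hτ : ∀ᶠ N in l, IsKahler (τ N))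
    {ε : α → ℝ} (hε0 : ∀ᶠ N in l, 0 < ε N) (hε : Tendsto ε l (𝓝 0))
    {a b : ℝ} (ha : 0 ≤ a) (hb : 0 < b)
    (hcurv : ∀ᶠ N in l, ∀ i (e : Chart d X) x, At e x → x ∈ L.U i →
      (cHess (fun z => ρ₀ i (e.symm z) + v N (e.symm z)) (e x) +
        ((a * ε N : ℝ) : ℂ) • w e (e x) - (b : ℂ) • τ N e (e x)).PosSemidef)
    {c0 K : ℝ} (hc0 : 0 < c0)
    (hdet : ∀ᶠ N in l, ∀ (e : Chart d X) x, At e x →
      c0 * ε N ^ n * (w e (e x)).det.re ≤ (τ N e (e x)).det.re)
    (hK : ∀ᶠ N in l, INT.intX (fun e z => (w e z + τ N e z).det.re) ≤ K)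
    {p r : ℕ} (hr : cnt d (d - k) p < r)
    {g : α → Fin r → H862.Fam d X ι} (hg : ∀ᶠ N in l, ∀ c, IsSec L (g N c))
    (hgp : ∀ᶠ N in l, ∀ c i e x, At e x → x ∈ L.U i → ∀ I, I.card ≠ p → g N c i e (e x) I = 0)
    {C2 : ℝ} (hgn : ∀ᶠ N in l, ∀ c,
      (ip L (fun i x => ρ₀ i x + v N x) w (g N c) (g N c)).re ≤ C2)
    (hgk : ∀ᶠ N in l, ∀ c,
      (ip L (fun i x => ρ₀ i x + v N x) w (DX (fun i x => ρ₀ i x + v N x) (g N c))
        (DX (fun i x => ρ₀ i x + v N x) (g N c))).re +
      (ip L (fun i x => ρ₀ i x + v N x) w (dX w (g N c)) (dX w (g N c))).re ≤ C2 * ε N)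
    {G : Fin r → H862.Fam d X ι}
    (hlim : ∀ i (e : Chart d X) x, At e x → x ∈ L.U i → ∃ R : ℝ, 0 < R ∧
      closedBall (e x) R ⊆ dom L i e ∧
      (∀ c I, ContinuousOn (fun z => G c i e z I) (closedBall (e x) R)) ∧
      ∀ c I, Tendsto (fun N => ∫⁻ z in closedBall (e x) R, ‖g N c i e z I - G c i e z I‖ₑ ^ 2) l
        (𝓝 0))
    (i : ι) {e : Chart d X} {x : X} (hx : At e x) (hi : x ∈ L.U i) (J : Fin r → FI d) :
    (Matrix.of fun c j => G c i e (e x) (J j)).det = 0 := by
  obtain ⟨R, hR, hRd, hGc, hGl⟩ := hlim i e x hx hi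
  set B := closedBall (e x) R with hB
  have hBc : IsCompact B := isCompact_closedBall _ _
  have hBt : B ⊆ e.target := hRd.trans inter_subset_left
  have hat : ∀ z ∈ B, At e (e.symm z) ∧ e.symm z ∈ L.U i ∧ e (e.symm z) = z := fun z hz =>
    H862.At.of_dom hx.1 (hRd hz)
  have hwp : ∀ z ∈ B, (w e z).PosDef := fun z hz => by
    have h1 := hat z hz
    have := hw.posDef e _ h1.1
    rwa [h1.2.2] at this
  have hwc : ∀ p q, ContinuousOn (fun z => w e z p q) B := fun p q =>
    (hw.toIsHermitian.continuousOn_entry hx.1 p q).mono hBt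
  have hwre : ∀ z ∈ B, 0 < (w e z).det.re := fun z hz => (Complex.lt_def.1 (hwp z hz).det_pos).1
  have hρc : ContinuousOn (fun z => ρ₀ i (e.symm z)) B := fun z hz => by
    have h1 := hat z hz
    have := (hρ₀.smooth i e _ h1.1 h1.2.1).continuousAt
    rw [h1.2.2] at this
    exact this.continuousWithinAt
  obtain ⟨M0, hM0⟩ := hBc.exists_bound_of_continuousOn hρc
  obtain ⟨μ0, hμ0, hμ⟩ : ∃ μ0 : ℝ, 0 < μ0 ∧ ∀ z ∈ B, μ0 ≤ (w e z).det.re := by
    obtain ⟨z₁, hz₁, hmin⟩ := hBc.exists_isMinOn ⟨e x, mem_closedBall_self hR.le⟩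
      (Complex.continuous_re.comp_continuousOn (contOn_det hwc))
    exact ⟨(w e z₁).det.re, hwre z₁ hz₁, fun z hz => hmin hz⟩
  set κ1 : ℝ := Real.exp (-(M0 + C1)) * μ0 with hκ1
  have hκ10 : 0 < κ1 := by positivity
  -- the lower bound of the weight
  have hwt : ∀ᶠ N in l, ∀ z ∈ B,
      κ1 ≤ Real.exp (-(wt (fun i x => ρ₀ i x + v N x) i e z)) * (w e z).det.re := by
    filter_upwards [hvC] with N hvC z hz
    refine mul_le_mul (Real.exp_le_exp.2 ?_) (hμ z hz) hμ0.le (Real.exp_pos _).le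
    have h1 : ρ₀ i (e.symm z) ≤ M0 := (le_abs_self _).trans (hM0 z hz)
    have h2 := hvC (e.symm z)
    show -(M0 + C1) ≤ -(ρ₀ i (e.symm z) + v N (e.symm z))
    linarith
  refine minors_zero (l := l) hk hnk (c := e x) (R := R) (w := w e) hwp hwc
    (τ := fun N => τ N e) ?_ ?_ hr (g := fun N c => g N c i e) ?_ ?_
    (G := fun c => G c i e) hGc ?_ hε0 hε (CS := κ1⁻¹ * C2)
    (CQ := (b * κ1)⁻¹ * (C2 * (1 + a * d))) (K := K) hc0 ?_ ?_ ?_ ?_ J (mem_ball_self hR)
  · filter_upwards [hτ] with N hτ z hz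
    have h1 := hat z hz
    have := (hτ.posDef e _ h1.1).posSemidef
    rwa [h1.2.2] at this
  · filter_upwards [hτ] with N hτ p q
    exact (hτ.toIsHermitian.continuousOn_entry hx.1 p q).mono hBt
  · filter_upwards [hg] with N hg c I z hz
    have h1 := hat z hz
    have := ((hg c).smooth i e _ h1.1 h1.2.1 I).continuousAt
    rw [h1.2.2] at this
    exact this.continuousWithinAt
  · filter_upwards [hgp] with N hgp c z hz I hI
    have h1 := hat z hz
    have := hgp c i e _ h1.1 h1.2.1 I hI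
    rwa [h1.2.2] at this
  · intro c I
    refine (hGl c I).congr fun N => ?_
    refine lintegral_congr fun z => ?_
    rw [← ofReal_norm_eq_enorm, ENNReal.ofReal_pow (norm_nonneg _)]
  · filter_upwards [hgn, hg, hwt, hv] with N hgn hg hwt hv c
    have hρN := isMetric_add hρ₀ hv
    have hD := (hg c).isDens_hX hρN hw (hg c)
    have h1 := local_le_intC hD (fun i e x hx _ => hw_nonneg (kat hw hx) _) hx.1 hBc hRd
    calc ∫⁻ z in B, ENNReal.ofReal (nsw (w e z) (g N c i e z))
        ≤ ∫⁻ z in B, ENNReal.ofReal κ1⁻¹ * ENNReal.ofReal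
            ((hX (fun i x => ρ₀ i x + v N x) w (g N c) (g N c) i e z).re) := by
          refine setLIntegral_mono' hBc.measurableSet fun z hz => ?_
          rw [← ENNReal.ofReal_mul (by positivity)]
          apply ENNReal.ofReal_le_ofReal
          show _ ≤ κ1⁻¹ * (H862.hw _ _ _ _ _).re
          rw [hw_re (hwp z hz), inv_mul_eq_div, le_div_iff₀ hκ10, mul_comm]
          exact mul_le_mul_of_nonneg_right (hwt z hz) (nsw_nonneg (hwp z hz) _)
      _ = ENNReal.ofReal κ1⁻¹ * ∫⁻ z in B, ENNReal.ofReal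
            ((hX (fun i x => ρ₀ i x + v N x) w (g N c) (g N c) i e z).re) := by
          rw [lintegral_const_mul' _ _ ENNReal.ofReal_ne_top]
      _ ≤ ENNReal.ofReal κ1⁻¹ * ENNReal.ofReal C2 := by
          gcongr
          exact h1.trans (ENNReal.ofReal_le_ofReal (hgn c))
      _ = _ := by rw [← ENNReal.ofReal_mul (by positivity)]
  · filter_upwards [hgn, hg, hwt, hv, hgk, hcurv, hε0, hτ] with N hgn hg hwt hv hgk hcurv hε0 hτ c
    have hρN := isMetric_add hρ₀ hv
    set ρN : ι → X → ℝ := fun i x => ρ₀ i x + v N x with hρNd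
    have hD1 := ((hg c).QX hρN hw).isDens_hX hρN hw (hg c)
    have hD2 := ((hg c).isDens_hX hρN hw (hg c)).const_mul ((a * ε N * d : ℝ) : ℂ)
    have hD := hD1.add hD2
    have haε : 0 ≤ a * ε N := mul_nonneg ha hε0.le
    have hlow : ∀ i (e : Chart d X) x, At e x → x ∈ L.U i →
        b * (Real.exp (-(wt ρN i e (e x))) * (w e (e x)).det.re *
          (qfw (w e (e x)) (τ N e (e x)) (g N c i e (e x)) (g N c i e (e x))).re) ≤
        (hX ρN w (QX ρN w (g N c)) (g N c) i e (e x) +
          ((a * ε N * d : ℝ) : ℂ) * hX ρN w (g N c) (g N c) i e (e x)).re := by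
      intro i e x hx hi
      have h1 := Qw_lower2 (f := wt ρN i e) (kat hw hx) haε (b := b) (hcurv i e x hx hi)
        (g N c i e (e x))
      rw [Complex.add_re, Complex.re_ofReal_mul]
      have h2 : (hX ρN w (QX ρN w (g N c)) (g N c) i e (e x)).re =
        (H862.hw (wt ρN i e) (w e) (e x) (Qw (wt ρN i e) (w e) (e x) (g N c i e (e x)))
          (g N c i e (e x))).re := rfl
      have h3 : (hX ρN w (g N c) (g N c) i e (e x)).re =
        (H862.hw (wt ρN i e) (w e) (e x) (g N c i e (e x)) (g N c i e (e x))).re := rfl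
      rw [h2, h3]
      linarith
    have hq0 : ∀ (e : Chart d X) x, At e x → ∀ u : FI d → ℂ,
        0 ≤ (qfw (w e (e x)) (τ N e (e x)) u u).re := fun e x hx u =>
      qfw_nonneg (hw.posDef e x hx) (hτ.posDef e x hx).posSemidef u
    have hpos : ∀ i (e : Chart d X) x, At e x → x ∈ L.U i →
        0 ≤ (hX ρN w (QX ρN w (g N c)) (g N c) i e (e x) +
          ((a * ε N * d : ℝ) : ℂ) * hX ρN w (g N c) (g N c) i e (e x)).re := by
      intro i e x hx hi
      refine le_trans ?_ (hlow i e x hx hi)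
      have h1 := (Complex.lt_def.1 (hw.posDef e x hx).det_pos).1
      have h2 : 0 < (w e (e x)).det.re := h1
      have := hq0 e x hx (g N c i e (e x))
      positivity
    have h1 := local_le_intC hD hpos hx.1 hBc hRd
    have hint : (intC L (fun i e z => hX ρN w (QX ρN w (g N c)) (g N c) i e z +
        ((a * ε N * d : ℝ) : ℂ) * hX ρN w (g N c) (g N c) i e z)).re ≤
        C2 * (1 + a * d) * ε N := by
      rw [intC_add hD1 hD2, intC_const_mul ((hg c).isDens_hX hρN hw (hg c)), Complex.add_re,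
        Complex.re_ofReal_mul]
      have h3 := ip_QX_le hw hρN (hg c)
      have h4 := hgk c
      have h5 := hgn c
      have h6 : a * ε N * d * (intC L (hX ρN w (g N c) (g N c))).re ≤ a * ε N * d * C2 :=
        mul_le_mul_of_nonneg_left h5 (by positivity)
      have h7 : (intC L (hX ρN w (QX ρN w (g N c)) (g N c))).re =
        (ip L ρN w (QX ρN w (g N c)) (g N c)).re := rfl
      rw [h7]
      linarith
    calc ∫⁻ z in B, ENNReal.ofReal
          ((qfw (w e z) (τ N e z) (g N c i e z) (g N c i e z)).re)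
        ≤ ∫⁻ z in B, ENNReal.ofReal (b * κ1)⁻¹ * ENNReal.ofReal
            ((hX ρN w (QX ρN w (g N c)) (g N c) i e z +
              ((a * ε N * d : ℝ) : ℂ) * hX ρN w (g N c) (g N c) i e z).re) := by
          refine setLIntegral_mono' hBc.measurableSet fun z hz => ?_
          rw [← ENNReal.ofReal_mul (by positivity)]
          apply ENNReal.ofReal_le_ofReal
          have h8 := hat z hz
          have h9 := hlow i e _ h8.1 h8.2.1
          have h10 := hq0 e _ h8.1 (g N c i e z)
          rw [h8.2.2] at h9 h10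
          rw [inv_mul_eq_div, le_div_iff₀ (by positivity)]
          refine le_trans ?_ h9
          have h11 := hwt z hz
          calc (qfw (w e z) (τ N e z) (g N c i e z) (g N c i e z)).re * (b * κ1) =
              b * (κ1 * (qfw (w e z) (τ N e z) (g N c i e z) (g N c i e z)).re) := by ring
            _ ≤ _ := mul_le_mul_of_nonneg_left (mul_le_mul_of_nonneg_right h11 h10) hb.le
      _ = ENNReal.ofReal (b * κ1)⁻¹ * ∫⁻ z in B, ENNReal.ofReal
            ((hX ρN w (QX ρN w (g N c)) (g N c) i e z +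
              ((a * ε N * d : ℝ) : ℂ) * hX ρN w (g N c) (g N c) i e z).re) := by
          rw [lintegral_const_mul' _ _ ENNReal.ofReal_ne_top]
      _ ≤ ENNReal.ofReal (b * κ1)⁻¹ * ENNReal.ofReal (C2 * (1 + a * d) * ε N) := by
          gcongr
          exact h1.trans (ENNReal.ofReal_le_ofReal hint)
      _ = _ := by
          rw [← ENNReal.ofReal_mul (by positivity)]
          congr 1; ring
  · filter_upwards [hK, hτ] with N hK hτ
    have hform : IsForm (fun e z => w e z + τ N e z) :=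
      hw.toIsHermitian.isForm.add hτ.toIsHermitian.isForm
    have hD : INT.IsDensity fun (e : Chart d X) z => (w e z + τ N e z).det.re :=
      INT.isDensity_det hform fun e x hx i j => (hw.smooth e x hx i j).add (hτ.smooth e x hx i j)
    have h0 : ∀ (e : Chart d X) x, At e x → 0 ≤ (w e (e x) + τ N e (e x)).det.re := fun e x hx =>
      (Complex.lt_def.1 ((hw.posDef e x hx).add_posSemidef
        (hτ.posDef e x hx).posSemidef).det_pos).1.le
    exact (local_le_intX0 hD h0 hx.1 hBc hBt).trans (ENNReal.ofReal_le_ofReal hK)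
  · filter_upwards [hdet] with N hdet z hz
    have h1 := hat z hz
    have := hdet e _ h1.1
    rwa [h1.2.2] at this

end Vale.Agent.P301.H794
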