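import Vale.Agent.P272.K.QN.H86.Circle
import Mathlib.Analysis.SpecialFunctions.Log.NegMulLog
import Mathlib.MeasureTheory.Integral.IntervalIntegral.FundThmCalculus

/-! P301, H794: circle means of `C²` functions near the closed unit disc, their derivatives, and
the Poisson-Jensen formula at the centre. -/

open Complex MeasureTheory Metric Set Filter Topology intervalIntegral
open scoped Real

set_option linter.all false

noncomputable section

namespace Vale.Agent.P301.H794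

open Vale.Agent.P272.K.QN.H86

/-- The Laplacian. -/
def Lap (u : ℂ → ℝ) (z : ℂ) : ℝ :=
  fderiv ℝ (fderiv ℝ u) z 1 1 + fderiv ℝ (fderiv ℝ u) z I I

/-- circle integrals -/
def cI (F : ℝ → ℝ → ℝ) (t : ℝ) : ℝ := ∫ θ in (-π)..π, F t θ

/-- the integral of `u` over the circle of radius `t` -/
def Mm (u : ℂ → ℝ) (t : ℝ) : ℝ := ∫ θ in (-π)..π, u ((t : ℂ) * cexp (θ * I))

/-- the radial derivative -/
def Kk (u : ℂ → ℝ) (t : ℝ) : ℝ :=
  ∫ θ in (-π)..π, fderiv ℝ u ((t : ℂ) * cexp (θ * I)) ((t : ℂ) * cexp (θ * I))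

/-- the integral of the Laplacian over the circle of radius `t` -/
def Ll (u : ℂ → ℝ) (t : ℝ) : ℝ := ∫ θ in (-π)..π, Lap u ((t : ℂ) * cexp (θ * I))

lemma mem_disc {t : ℝ} (ht : t ∈ Icc (0:ℝ) 1) (θ : ℝ) :
    (t : ℂ) * cexp (θ * I) ∈ closedBall (0 : ℂ) 1 := by
  rw [mem_closedBall_zero_iff, norm_mul, Complex.norm_exp_ofReal_mul_I, mul_one,
    Complex.norm_real, Real.norm_eq_abs, abs_of_nonneg ht.1]
  exact ht.2

lemma neg_pi_le_pi : (-π) ≤ π := by linarith [Real.pi_pos]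

lemma cont_param {F : ℝ → ℝ → ℝ} (hF : ContinuousOn (fun p : ℝ × ℝ => F p.1 p.2)
    (Icc (0:ℝ) 1 ×ˢ Icc (-π) π)) :
    ContinuousOn (fun t => ∫ θ in (-π)..π, F t θ) (Icc (0:ℝ) 1) := by
  have hpi := neg_pi_le_pi
  obtain ⟨C, hC⟩ := (isCompact_Icc.prod isCompact_Icc).exists_bound_of_continuousOn hF
  intro t ht
  apply intervalIntegral.continuousWithinAt_of_dominated_interval (bound := fun _ => C)
  · filter_upwards [self_mem_nhdsWithin] with s hs
    rw [uIoc_of_le hpi]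
    refine (ContinuousOn.mono ?_ Ioc_subset_Icc_self).aestronglyMeasurable measurableSet_Ioc
    exact hF.comp (f := fun θ : ℝ => (s, θ)) (by fun_prop) (fun θ hθ => ⟨hs, hθ⟩)
  · filter_upwards [self_mem_nhdsWithin] with s hs
    refine Eventually.of_forall fun θ hθ => ?_
    rw [uIoc_of_le hpi] at hθ
    exact hC (s, θ) ⟨hs, Ioc_subset_Icc_self hθ⟩
  · exact intervalIntegrable_const
  · refine Eventually.of_forall fun θ hθ => ?_
    rw [uIoc_of_le hpi] at hθ
    have : ContinuousOn (fun s : ℝ => F s θ) (Icc (0:ℝ) 1) :=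
      hF.comp (f := fun s : ℝ => (s, θ)) (by fun_prop) (fun s hs => ⟨hs, Ioc_subset_Icc_self hθ⟩)
    exact this t ht

lemma deriv_param {F F' : ℝ → ℝ → ℝ} (hF : ContinuousOn (fun p : ℝ × ℝ => F p.1 p.2)
    (Icc (0:ℝ) 1 ×ˢ Icc (-π) π)) (hF' : ContinuousOn (fun p : ℝ × ℝ => F' p.1 p.2)
    (Icc (0:ℝ) 1 ×ˢ Icc (-π) π))
    (hd : ∀ t ∈ Ioo (0:ℝ) 1, ∀ θ, HasDerivAt (fun s => F s θ) (F' t θ) t)
    {t : ℝ} (ht : t ∈ Ioo (0:ℝ) 1) :
    HasDerivAt (fun t => ∫ θ in (-π)..π, F t θ) (∫ θ in (-π)..π, F' t θ) t := by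
  have hpi := neg_pi_le_pi
  obtain ⟨C, hC⟩ := (isCompact_Icc.prod isCompact_Icc).exists_bound_of_continuousOn hF'
  refine (intervalIntegral.hasDerivAt_integral_of_dominated_loc_of_deriv_le
    (F := F) (F' := F') (bound := fun _ => C) (Ioo_mem_nhds ht.1 ht.2) ?_ ?_ ?_ ?_ ?_ ?_).2
  · filter_upwards [Ioo_mem_nhds ht.1 ht.2] with s hs
    rw [uIoc_of_le hpi]
    refine (ContinuousOn.mono ?_ Ioc_subset_Icc_self).aestronglyMeasurable measurableSet_Ioc
    exact hF.comp (f := fun θ : ℝ => (s, θ)) (by fun_prop)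
      (fun θ hθ => ⟨Ioo_subset_Icc_self hs, hθ⟩)
  · refine ContinuousOn.intervalIntegrable ?_
    rw [uIcc_of_le hpi]
    exact hF.comp (f := fun θ : ℝ => (t, θ)) (by fun_prop)
      (fun θ hθ => ⟨Ioo_subset_Icc_self ht, hθ⟩)
  · rw [uIoc_of_le hpi]
    refine (ContinuousOn.mono ?_ Ioc_subset_Icc_self).aestronglyMeasurable measurableSet_Ioc
    exact hF'.comp (f := fun θ : ℝ => (t, θ)) (by fun_prop)
      (fun θ hθ => ⟨Ioo_subset_Icc_self ht, hθ⟩)
  · refine Eventually.of_forall fun θ hθ s hs => ?_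
    rw [uIoc_of_le hpi] at hθ
    exact hC (s, θ) ⟨Ioo_subset_Icc_self hs, Ioc_subset_Icc_self hθ⟩
  · exact intervalIntegrable_const
  · exact Eventually.of_forall fun θ _ s hs => hd s hs θ

section
variable {u : ℂ → ℝ} (hu : ∀ z ∈ closedBall (0 : ℂ) 1, ContDiffAt ℝ 2 u z)
include hu

lemma cont_u : ContinuousOn u (closedBall (0:ℂ) 1) := fun z hz =>
  (c2_near (hu z hz)).1.continuousAt.continuousWithinAt

lemma cont_D : ContinuousOn (fderiv ℝ u) (closedBall (0:ℂ) 1) := fun z hz =>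
  (c2_near (hu z hz)).2.2.1.continuousWithinAt

lemma cont_D2 : ContinuousOn (fderiv ℝ (fderiv ℝ u)) (closedBall (0:ℂ) 1) := fun z hz =>
  (c2_near (hu z hz)).2.2.2.continuousWithinAt

lemma cont_Lap : ContinuousOn (Lap u) (closedBall (0:ℂ) 1) :=
  (((cont_D2 hu).clm_apply continuousOn_const).clm_apply continuousOn_const).add
    (((cont_D2 hu).clm_apply continuousOn_const).clm_apply continuousOn_const)

lemma maps_disc : MapsTo (fun p : ℝ × ℝ => (p.1 : ℂ) * cexp (p.2 * I))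
    (Icc (0:ℝ) 1 ×ˢ Icc (-π) π) (closedBall (0:ℂ) 1) := fun p hp => mem_disc hp.1 p.2

lemma cont_Mm : ContinuousOn (Mm u) (Icc (0:ℝ) 1) :=
  cont_param (F := fun t θ => u ((t : ℂ) * cexp (θ * I)))
    ((cont_u hu).comp (by fun_prop) (maps_disc hu))

lemma cont_Kk_aux : ContinuousOn (fun p : ℝ × ℝ => fderiv ℝ u ((p.1 : ℂ) * cexp (p.2 * I))
      ((p.1 : ℂ) * cexp (p.2 * I))) (Icc (0:ℝ) 1 ×ˢ Icc (-π) π) :=
    ((cont_D hu).comp (by fun_prop) (maps_disc hu)).clm_apply (by fun_prop)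

lemma cont_Kk : ContinuousOn (Kk u) (Icc (0:ℝ) 1) :=
  cont_param (F := fun t θ => fderiv ℝ u ((t : ℂ) * cexp (θ * I)) ((t : ℂ) * cexp (θ * I)))
    (cont_Kk_aux hu)

lemma cont_Ll_aux : ContinuousOn (fun p : ℝ × ℝ => Lap u ((p.1 : ℂ) * cexp (p.2 * I)))
    (Icc (0:ℝ) 1 ×ˢ Icc (-π) π) := (cont_Lap hu).comp (by fun_prop) (maps_disc hu)

lemma cont_Ll : ContinuousOn (Ll u) (Icc (0:ℝ) 1) :=
  cont_param (F := fun t θ => Lap u ((t : ℂ) * cexp (θ * I))) (cont_Ll_aux hu)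

lemma hasDeriv_ray (t θ : ℝ) : HasDerivAt (fun s : ℝ => (s : ℂ) * cexp (θ * I)) (cexp (θ * I)) t := by
  simpa using (Complex.ofRealCLM.hasDerivAt (x := t)).mul_const (cexp (θ * I))

lemma hasDeriv_arc (t θ : ℝ) : HasDerivAt (fun φ : ℝ => (t : ℂ) * cexp (φ * I))
    ((t : ℂ) * (cexp (θ * I) * I)) θ := by
  have h1 : HasDerivAt (fun φ : ℝ => ((φ : ℂ) * I)) I θ := by
    simpa using (Complex.ofRealCLM.hasDerivAt (x := θ)).mul_const I
  exact (h1.cexp).const_mul (t : ℂ)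

lemma Kk_eq (t : ℝ) : Kk u t = t * ∫ θ in (-π)..π, fderiv ℝ u ((t : ℂ) * cexp (θ * I)) (cexp (θ * I)) := by
  rw [Kk, ← intervalIntegral.integral_const_mul]
  refine intervalIntegral.integral_congr fun θ _ => ?_
  have e2 : (t : ℂ) * cexp (θ * I) = t • cexp (θ * I) := by simp
  show fderiv ℝ u ((t : ℂ) * cexp (θ * I)) ((t : ℂ) * cexp (θ * I)) = _
  conv_lhs => rw [e2]
  rw [map_smul, smul_eq_mul, ← e2]

theorem hasDerivAt_Mm {t : ℝ} (ht : t ∈ Ioo (0:ℝ) 1) : HasDerivAt (Mm u) (Kk u t / t) t := by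
  have c1 : ContinuousOn (fun p : ℝ × ℝ => u ((p.1 : ℂ) * cexp (p.2 * I)))
      (Icc (0:ℝ) 1 ×ˢ Icc (-π) π) := (cont_u hu).comp (by fun_prop) (maps_disc hu)
  have c2 : ContinuousOn (fun p : ℝ × ℝ => fderiv ℝ u ((p.1 : ℂ) * cexp (p.2 * I)) (cexp (p.2 * I)))
      (Icc (0:ℝ) 1 ×ˢ Icc (-π) π) :=
    ((cont_D hu).comp (by fun_prop) (maps_disc hu)).clm_apply (by fun_prop)
  have h := deriv_param (F := fun t θ => u ((t : ℂ) * cexp (θ * I)))
      (F' := fun t θ => fderiv ℝ u ((t : ℂ) * cexp (θ * I)) (cexp (θ * I))) c1 c2 (fun t ht θ =>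
        (c2_near (hu _ (mem_disc (Ioo_subset_Icc_self ht) θ))).1.hasFDerivAt.comp_hasDerivAt t
          (hasDeriv_ray hu t θ)) ht
  have : Kk u t / t = ∫ θ in (-π)..π, fderiv ℝ u ((t : ℂ) * cexp (θ * I)) (cexp (θ * I)) := by
    rw [Kk_eq hu, mul_div_cancel_left₀ _ ht.1.ne']
  rw [this]
  exact h

theorem hasDerivAt_Kk {t : ℝ} (ht : t ∈ Ioo (0:ℝ) 1) : HasDerivAt (Kk u) (t * Ll u t) t := by
  have hpi := neg_pi_le_pi
  have ht' := Ioo_subset_Icc_self ht
  set D := fderiv ℝ u with hD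
  set D2 := fderiv ℝ D with hD2
  have hcD := cont_D hu
  have hcD2 := cont_D2 hu
  have hce : Continuous fun p : ℝ × ℝ => (p.1 : ℂ) * cexp (p.2 * I) := by fun_prop
  have c4 : ContinuousOn (fun p : ℝ × ℝ => D2 ((p.1 : ℂ) * cexp (p.2 * I)) (cexp (p.2 * I))
      ((p.1 : ℂ) * cexp (p.2 * I)) + D ((p.1 : ℂ) * cexp (p.2 * I)) (cexp (p.2 * I)))
      (Icc (0:ℝ) 1 ×ˢ Icc (-π) π) :=
    (((hcD2.comp hce.continuousOn (maps_disc hu)).clm_apply (by fun_prop)).clm_apply (by fun_prop)).add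
      ((hcD.comp hce.continuousOn (maps_disc hu)).clm_apply (by fun_prop))
  have hK' : HasDerivAt (Kk u) (∫ θ in (-π)..π, (D2 ((t : ℂ) * cexp (θ * I)) (cexp (θ * I))
      ((t : ℂ) * cexp (θ * I)) + D ((t : ℂ) * cexp (θ * I)) (cexp (θ * I)))) t := by
    refine deriv_param (F := fun t θ => D ((t : ℂ) * cexp (θ * I)) ((t : ℂ) * cexp (θ * I)))
      (F' := fun t θ => D2 ((t : ℂ) * cexp (θ * I)) (cexp (θ * I)) ((t : ℂ) * cexp (θ * I)) +
        D ((t : ℂ) * cexp (θ * I)) (cexp (θ * I))) (cont_Kk_aux hu) c4 (fun t ht θ => ?_) ht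
    have h1 : HasDerivAt (fun s : ℝ => D ((s : ℂ) * cexp (θ * I)))
        (D2 ((t : ℂ) * cexp (θ * I)) (cexp (θ * I))) t :=
      (c2_near (hu _ (mem_disc (Ioo_subset_Icc_self ht) θ))).2.1.hasFDerivAt.comp_hasDerivAt t
        (hasDeriv_ray hu t θ)
    exact h1.clm_apply (hasDeriv_ray hu t θ)
  -- the tangential derivative integrates to zero
  have htan : ∫ θ in (-π)..π, (D2 ((t : ℂ) * cexp (θ * I))
      ((t : ℂ) * (cexp (θ * I) * I)) (cexp (θ * I) * I) -
        D ((t : ℂ) * cexp (θ * I)) (cexp (θ * I))) = 0 := by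
    have hd : ∀ θ ∈ uIcc (-π) π, HasDerivAt
        (fun φ : ℝ => D ((t : ℂ) * cexp (φ * I)) (cexp (φ * I) * I))
        (D2 ((t : ℂ) * cexp (θ * I)) ((t : ℂ) * (cexp (θ * I) * I)) (cexp (θ * I) * I) -
        D ((t : ℂ) * cexp (θ * I)) (cexp (θ * I))) θ := by
      intro θ _
      have h1 : HasDerivAt (fun φ : ℝ => D ((t : ℂ) * cexp (φ * I)))
          (D2 ((t : ℂ) * cexp (θ * I)) ((t : ℂ) * (cexp (θ * I) * I))) θ :=
        (c2_near (hu _ (mem_disc ht' θ))).2.1.hasFDerivAt.comp_hasDerivAt θ (hasDeriv_arc hu t θ)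
      have h2 : HasDerivAt (fun φ : ℝ => cexp (φ * I) * I) (cexp (θ * I) * I * I) θ := by
        have h1 : HasDerivAt (fun φ : ℝ => ((φ : ℂ) * I)) I θ := by
          simpa using (Complex.ofRealCLM.hasDerivAt (x := θ)).mul_const I
        exact (h1.cexp).mul_const I
      have h3 := h1.clm_apply h2
      have h4 : cexp (θ * I) * I * I = -cexp (θ * I) := by
        rw [mul_assoc, I_mul_I]; ring
      rw [h4, map_neg] at h3
      simpa [sub_eq_add_neg] using h3
    rw [intervalIntegral.integral_eq_sub_of_hasDerivAt hd]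
    · have : cexp ((π : ℝ) * I) = cexp (((-π : ℝ) : ℂ) * I) := by
        rw [Complex.exp_pi_mul_I]
        push_cast
        rw [neg_mul, Complex.exp_neg, Complex.exp_pi_mul_I]
        norm_num
      rw [this, sub_self]
    · refine ContinuousOn.intervalIntegrable ?_
      have hg : Continuous fun θ : ℝ => (t : ℂ) * cexp (θ * I) := by fun_prop
      have hm : MapsTo (fun θ : ℝ => (t : ℂ) * cexp (θ * I)) (uIcc (-π) π)
        (closedBall (0:ℂ) 1) := fun θ _ => mem_disc ht' θ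
      exact (((hcD2.comp hg.continuousOn hm).clm_apply (by fun_prop)).clm_apply
        (by fun_prop)).sub ((hcD.comp hg.continuousOn hm).clm_apply (by fun_prop))
  have hrot : ∀ z ∈ closedBall (0:ℂ) 1, ∀ θ : ℝ, D2 z (cexp (θ * I)) (cexp (θ * I)) +
      D2 z (cexp (θ * I) * I) (cexp (θ * I) * I) = D2 z 1 1 + D2 z I I := by
    intro z hz θ
    have hs : ∀ v w, D2 z v w = D2 z w v := by
      intro v w
      have := (hu z hz).isSymmSndFDerivAt (by simp)
      exact this v w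
    have h1 : cexp (θ * I) = (Real.cos θ) • (1:ℂ) + (Real.sin θ) • I := by
      rw [Complex.exp_mul_I]
      simp [Complex.ofReal_cos, Complex.ofReal_sin]
    have h2 : cexp (θ * I) * I = (-Real.sin θ) • (1:ℂ) + (Real.cos θ) • I := by
      rw [h1]
      apply Complex.ext <;> simp
    rw [h2, h1]
    simp only [map_add, map_smul, _root_.add_apply, _root_.smul_apply, smul_eq_mul]
    rw [hs I 1]
    have := Real.sin_sq_add_cos_sq θ
    linear_combination (D2 z 1 1 + D2 z I I) * this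
  have hval : (∫ θ in (-π)..π, (D2 ((t : ℂ) * cexp (θ * I)) (cexp (θ * I))
      ((t : ℂ) * cexp (θ * I)) + D ((t : ℂ) * cexp (θ * I)) (cexp (θ * I)))) = t * Ll u t := by
    have hg : Continuous fun θ : ℝ => (t : ℂ) * cexp (θ * I) := by fun_prop
    have hm : MapsTo (fun θ : ℝ => (t : ℂ) * cexp (θ * I)) (uIcc (-π) π)
      (closedBall (0:ℂ) 1) := fun θ _ => mem_disc ht' θ
    have i1 : IntervalIntegrable (fun θ : ℝ => D2 ((t : ℂ) * cexp (θ * I))
      (cexp (θ * I)) ((t : ℂ) * cexp (θ * I)) + D ((t : ℂ) * cexp (θ * I)) (cexp (θ * I)))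
        volume (-π) π := by
      refine ContinuousOn.intervalIntegrable ?_
      exact (((hcD2.comp hg.continuousOn hm).clm_apply (by fun_prop)).clm_apply
        (by fun_prop)).add ((hcD.comp hg.continuousOn hm).clm_apply (by fun_prop))
    have i2 : IntervalIntegrable (fun θ : ℝ => D2 ((t : ℂ) * cexp (θ * I))
      ((t : ℂ) * (cexp (θ * I) * I)) (cexp (θ * I) * I) -
        D ((t : ℂ) * cexp (θ * I)) (cexp (θ * I))) volume (-π) π := by
      refine ContinuousOn.intervalIntegrable ?_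
      exact (((hcD2.comp hg.continuousOn hm).clm_apply (by fun_prop)).clm_apply
        (by fun_prop)).sub ((hcD.comp hg.continuousOn hm).clm_apply (by fun_prop))
    have e1 := intervalIntegral.integral_add i1 i2
    rw [htan, add_zero] at e1
    rw [← e1, Ll, ← intervalIntegral.integral_const_mul]
    refine intervalIntegral.integral_congr fun θ _ => ?_
    have hz := mem_disc ht' θ
    have h1 := hrot _ hz θ
    have e2 : (t : ℂ) * cexp (θ * I) = t • cexp (θ * I) := by simp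
    have e3 : (t : ℂ) * (cexp (θ * I) * I) = t • (cexp (θ * I) * I) := by simp
    have e4 : D2 ((t : ℂ) * cexp (θ * I)) (cexp (θ * I)) ((t : ℂ) * cexp (θ * I)) =
        t * D2 ((t : ℂ) * cexp (θ * I)) (cexp (θ * I)) (cexp (θ * I)) := by
      conv_lhs => rw [e2]
      rw [map_smul, smul_eq_mul, ← e2]
    have e5 : D2 ((t : ℂ) * cexp (θ * I)) ((t : ℂ) * (cexp (θ * I) * I)) (cexp (θ * I) * I) =
        t * D2 ((t : ℂ) * cexp (θ * I)) (cexp (θ * I) * I) (cexp (θ * I) * I) := by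
      conv_lhs => rw [e3]
      rw [map_smul, _root_.smul_apply, smul_eq_mul]
    rw [e4, e5, Lap, ← h1]
    ring
  rw [← hval]
  exact hK'

lemma Kk_zero : Kk u 0 = 0 := by simp [Kk]

lemma Mm_zero : Mm u 0 = 2 * π * u 0 := by
  show ∫ θ in (-π)..π, u (((0:ℝ) : ℂ) * cexp (θ * I)) = _
  simp only [ofReal_zero, zero_mul, intervalIntegral.integral_const, smul_eq_mul]
  ring

lemma Kk_bound : ∃ C : ℝ, ∀ t ∈ Icc (0:ℝ) 1, |Kk u t| ≤ C * t := by
  have hc : ContinuousOn (fun t : ℝ => ∫ θ in (-π)..π, fderiv ℝ u ((t : ℂ) * cexp (θ * I)) (cexp (θ * I)))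
      (Icc (0:ℝ) 1) := cont_param (F := fun t θ => fderiv ℝ u ((t : ℂ) * cexp (θ * I)) (cexp (θ * I)))
      (((cont_D hu).comp (by fun_prop) (maps_disc hu)).clm_apply (by fun_prop))
  obtain ⟨C, hC⟩ := (isCompact_Icc (a := (0:ℝ)) (b := 1)).exists_bound_of_continuousOn hc
  refine ⟨C, fun t ht => ?_⟩
  rw [Kk_eq hu, abs_mul, abs_of_nonneg ht.1, mul_comm]
  exact mul_le_mul_of_nonneg_right (hC t ht) ht.1

/-- **Poisson-Jensen at the centre.** -/
theorem jensen_center : ∫ t in (0:ℝ)..1, (-Real.log t) * (t * Ll u t) = Mm u 1 - 2 * π * u 0 := by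
  set G : ℝ → ℝ := fun t => (-Real.log t) * Kk u t + Mm u t with hG
  have hlogK : ContinuousOn (fun t => (-Real.log t) * Kk u t) (Icc (0:ℝ) 1) := by
    intro t ht
    rcases eq_or_lt_of_le ht.1 with h0 | h0
    · subst h0
      obtain ⟨C, hC⟩ := Kk_bound hu
      rw [ContinuousWithinAt, Kk_zero hu, mul_zero]
      have hl : Tendsto (fun t : ℝ => |C| * |t * Real.log t|) (𝓝[Icc 0 1] 0) (𝓝 0) := by
        have h1 : Tendsto (fun t : ℝ => |C| * |t * Real.log t|) (𝓝 0) (𝓝 (|C| * |0 * Real.log 0|)) :=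
          (continuous_const.mul (Real.continuous_mul_log.abs)).tendsto 0
        simp only [zero_mul, abs_zero, mul_zero] at h1
        exact h1.mono_left nhdsWithin_le_nhds
      refine squeeze_zero_norm' ?_ hl
      filter_upwards [self_mem_nhdsWithin] with t ht
      rw [Real.norm_eq_abs, abs_mul, abs_neg, abs_mul]
      have h2 := hC t ht
      have h3 : C * t ≤ |C| * |t| := by
        rw [abs_of_nonneg ht.1]; exact mul_le_mul_of_nonneg_right (le_abs_self _) ht.1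
      calc |Real.log t| * |Kk u t| ≤ |Real.log t| * (|C| * |t|) :=
            mul_le_mul_of_nonneg_left (h2.trans h3) (abs_nonneg _)
        _ = |C| * (|t| * |Real.log t|) := by ring
    · exact ((Real.continuousAt_log h0.ne').neg.continuousWithinAt).mul (cont_Kk hu t ht)
  have hGc : ContinuousOn G (Icc (0:ℝ) 1) := hlogK.add (cont_Mm hu)
  have hGd : ∀ t ∈ Ioo (0:ℝ) 1, HasDerivAt G ((-Real.log t) * (t * Ll u t)) t := by
    intro t ht
    have h1 := ((Real.hasDerivAt_log ht.1.ne').neg.mul (hasDerivAt_Kk hu ht)).add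
      (hasDerivAt_Mm hu ht)
    refine h1.congr_deriv ?_
    simp only [Pi.neg_apply]
    have : t ≠ 0 := ht.1.ne'
    rw [div_eq_inv_mul]
    ring
  have hci : IntervalIntegrable (fun t => (-Real.log t) * (t * Ll u t)) volume 0 1 := by
    have : ContinuousOn (fun t => -(t * Real.log t) * Ll u t) (Icc (0:ℝ) 1) :=
      (Real.continuous_mul_log.neg.continuousOn).mul (cont_Ll hu)
    have h2 : IntervalIntegrable (fun t => -(t * Real.log t) * Ll u t) volume 0 1 := by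
      refine ContinuousOn.intervalIntegrable ?_
      rwa [uIcc_of_le zero_le_one]
    refine h2.congr fun t _ => ?_
    ring
  rw [intervalIntegral.integral_eq_sub_of_hasDerivAt_of_le zero_le_one hGc hGd hci]
  simp only [hG, Real.log_one, neg_zero, zero_mul, zero_add, Kk_zero hu, mul_zero, Mm_zero hu]

end

end Vale.Agent.P301.H794
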