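import Mathlib.MeasureTheory.Integral.Lebesgue.Markov
import Mathlib.MeasureTheory.Measure.Lebesgue.VolumeOfBalls
import Mathlib.LinearAlgebra.Matrix.Determinant.Basic
import Mathlib.Topology.Instances.Matrix
import Mathlib.Analysis.Complex.Basic
import Mathlib.Topology.UniformSpace.HeineCantor
import Mathlib.Tactic

/-! P301, H794 (CY-LIM): vanishing of minors of limits, by Chebyshev's inequality. -/

open Filter Metric Set MeasureTheory Topology
open scoped ENNReal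

set_option linter.all false

noncomputable section

namespace Vale.Agent.P301.H794

/-- determinants of matrices with close bounded entries are close -/
lemma det_close (r : ℕ) (b κ : ℝ) (hκ : 0 < κ) : ∃ η : ℝ, 0 < η ∧
    ∀ U A : Matrix (Fin r) (Fin r) ℂ, (∀ i j, ‖U i j‖ ≤ b) → (∀ i j, ‖A i j - U i j‖ ≤ η) →
      κ ≤ ‖U.det‖ → κ / 2 ≤ ‖A.det‖ := by
  by_contra! hcon
  -- sequences
  choose U A hU hA hk hlt using fun n : ℕ => hcon (1 / ((n : ℝ) + 1)) (by positivity)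
  -- compactness
  set K : Set (Fin r → Fin r → ℂ) := Set.pi univ fun _ => Set.pi univ fun _ => closedBall (0:ℂ) b
    with hK
  have hKc : IsCompact K := isCompact_univ_pi fun _ => isCompact_univ_pi fun _ =>
    isCompact_closedBall _ _
  have hUK : ∀ n, (U n : Fin r → Fin r → ℂ) ∈ K := by
    intro n i _ j _
    simpa using hU n i j
  obtain ⟨V, -, φ, hφ, hV⟩ := hKc.tendsto_subseq hUK
  have hVU : Tendsto (fun n => (U (φ n) : Matrix (Fin r) (Fin r) ℂ)) atTop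
      (𝓝 (V : Matrix (Fin r) (Fin r) ℂ)) := hV
  have hVA : Tendsto (fun n => (A (φ n) : Matrix (Fin r) (Fin r) ℂ)) atTop
      (𝓝 (V : Matrix (Fin r) (Fin r) ℂ)) := by
    refine tendsto_pi_nhds.2 fun i => tendsto_pi_nhds.2 fun j => ?_
    have h1 : Tendsto (fun n => U (φ n) i j) atTop (𝓝 (V i j)) :=
      tendsto_pi_nhds.1 (tendsto_pi_nhds.1 hVU i) j
    have h2 : Tendsto (fun n => A (φ n) i j - U (φ n) i j) atTop (𝓝 0) := by
      refine squeeze_zero_norm (fun n => hA (φ n) i j) ?_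
      exact (tendsto_one_div_add_atTop_nhds_zero_nat (𝕜 := ℝ)).comp hφ.tendsto_atTop
    have h3 := h2.add h1
    simpa using h3
  have hdet : Continuous fun M : Matrix (Fin r) (Fin r) ℂ => ‖M.det‖ :=
    (Continuous.matrix_det continuous_id).norm
  have h1 := (hdet.tendsto V).comp hVU
  have h2 := (hdet.tendsto V).comp hVA
  have h3 : κ ≤ ‖Matrix.det (n := Fin r) (R := ℂ) V‖ := ge_of_tendsto' h1 fun n => hk (φ n)
  have h4 : ‖Matrix.det (n := Fin r) (R := ℂ) V‖ ≤ κ / 2 :=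
    le_of_tendsto' h2 fun n => (hlt (φ n)).le
  linarith

/-- Chebyshev -/
lemma cheb {E : Type*} [MeasurableSpace E] {μ : Measure E} {s : Set E} {f : E → ℝ}
    (hf : AEMeasurable f (μ.restrict s)) (hs : MeasurableSet s) {T K : ℝ} (hT : 0 < T)
    (hK : ∫⁻ z in s, ENNReal.ofReal (f z) ∂μ ≤ ENNReal.ofReal K) :
    μ (s ∩ {z | T ≤ f z}) ≤ ENNReal.ofReal (K / T) := by
  have h1 := mul_meas_ge_le_lintegral₀ (μ := μ.restrict s) hf.ennreal_ofReal (ENNReal.ofReal T)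
  have h2 : μ (s ∩ {z | T ≤ f z}) ≤ (μ.restrict s) {z | ENNReal.ofReal T ≤ ENNReal.ofReal (f z)} := by
    rw [Measure.restrict_apply' hs]
    refine measure_mono ?_
    rintro z ⟨hz, hz'⟩
    exact ⟨ENNReal.ofReal_le_ofReal hz', hz⟩
  have hT0 : ENNReal.ofReal T ≠ 0 := by simpa using hT
  refine h2.trans ?_
  rw [ENNReal.ofReal_div_of_pos hT, ENNReal.le_div_iff_mul_le (Or.inl hT0)
    (Or.inl ENNReal.ofReal_ne_top), mul_comm]
  exact h1.trans hK

/-- **Core of CY-LIM.** -/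
theorem core_false {α : Type*} {l : Filter α} [l.NeBot] {E : Type*} [MeasurableSpace E]
    {μ : Measure E} {s : Set E} (hs : MeasurableSet s) (hμ0 : μ s ≠ 0) {r : ℕ}
    {A : α → E → Matrix (Fin r) (Fin r) ℂ} {U : E → Matrix (Fin r) (Fin r) ℂ}
    {b κ : ℝ} (hκ : 0 < κ) (hb : ∀ z ∈ s, ∀ i j, ‖U z i j‖ ≤ b) (hU : ∀ z ∈ s, κ ≤ ‖(U z).det‖)
    (hAm : ∀ᶠ N in l, ∀ i j, AEMeasurable (fun z => ‖A N z i j - U z i j‖ ^ 2) (μ.restrict s))
    (hA : ∀ i j, Tendsto (fun N => ∫⁻ z in s, ENNReal.ofReal (‖A N z i j - U z i j‖ ^ 2) ∂μ) l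
      (𝓝 0))
    {ε : α → ℝ} (hε0 : ∀ᶠ N in l, 0 < ε N) (hε : Tendsto ε l (𝓝 0)) {θ : ℝ} (hθ : θ < 1)
    {S : α → Fin r → E → ℝ} {CS : ℝ}
    (hSm : ∀ᶠ N in l, ∀ i, AEMeasurable (S N i) (μ.restrict s))
    (hS : ∀ᶠ N in l, ∀ i, ∫⁻ z in s, ENNReal.ofReal (S N i z) ∂μ ≤ ENNReal.ofReal CS)
    (hS0 : ∀ᶠ N in l, ∀ i, ∀ z ∈ s, 0 ≤ S N i z)
    {Q : α → Fin r → E → ℝ} {CQ : ℝ}
    (hQm : ∀ᶠ N in l, ∀ i, AEMeasurable (Q N i) (μ.restrict s))
    (hQ : ∀ᶠ N in l, ∀ i, ∫⁻ z in s, ENNReal.ofReal (Q N i z) ∂μ ≤ ENNReal.ofReal (CQ * ε N))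
    (hQ0 : ∀ᶠ N in l, ∀ i, ∀ z ∈ s, 0 ≤ Q N i z)
    {t : α → E → ℝ} {K : ℝ} (htm : ∀ᶠ N in l, AEMeasurable (t N) (μ.restrict s))
    (ht : ∀ᶠ N in l, ∫⁻ z in s, ENNReal.ofReal (t N z) ∂μ ≤ ENNReal.ofReal K)
    {m : α → E → ℝ} (hm : ∀ T : ℝ, 0 < T → ∃ c : ℝ, 0 < c ∧
      ∀ᶠ N in l, ∀ z ∈ s, t N z < T → c * ε N ^ θ ≤ m N z)
    {C : ℝ} (hpw : ∀ᶠ N in l, ∀ z ∈ s, m N z * ‖(A N z).det‖ ^ 2 ≤
      C * ∑ i, Q N i z * ∏ j ∈ Finset.univ.erase i, S N j z) : False := by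
  obtain ⟨η, hη, hdet⟩ := det_close r b κ hκ
  -- a positive real number below the measure of `s`
  obtain ⟨ν, hν0, hν⟩ : ∃ ν : ℝ, 0 < ν ∧ ENNReal.ofReal ν < μ s := by
    obtain ⟨x, hx0, hx⟩ := exists_between (pos_iff_ne_zero.2 hμ0)
    have hxt : x ≠ ⊤ := ne_top_of_lt hx
    refine ⟨x.toReal, ENNReal.toReal_pos hx0.ne' hxt, ?_⟩
    rwa [ENNReal.ofReal_toReal hxt]
  have hCS : ∃ CS' : ℝ, 0 ≤ CS' ∧ CS ≤ CS' := ⟨|CS|, abs_nonneg _, le_abs_self _⟩
  obtain ⟨CS', hCS0, hCS'⟩ := hCS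
  obtain ⟨CQ', hCQ0, hCQ'⟩ : ∃ C' : ℝ, 0 ≤ C' ∧ CQ ≤ C' := ⟨|CQ|, abs_nonneg _, le_abs_self _⟩
  obtain ⟨K', hK0, hK'⟩ : ∃ C' : ℝ, 0 ≤ C' ∧ K ≤ C' := ⟨|K|, abs_nonneg _, le_abs_self _⟩
  obtain ⟨C', hC0, hC'⟩ : ∃ C' : ℝ, 0 < C' ∧ C ≤ C' := ⟨|C| + 1, by positivity,
    (le_abs_self _).trans (by linarith)⟩
  -- the thresholds
  set T : ℝ := 4 * (K' + 1) / ν with hT
  have hT0 : 0 < T := by positivity
  set M : ℝ := 4 * (r * CS' + 1) / ν with hM
  have hM0 : 0 < M := by positivity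
  obtain ⟨c, hc0, hc⟩ := hm T hT0
  set q : α → ℝ := fun N => c * (κ / 2) ^ 2 * ε N ^ θ / (C' * M ^ (r - 1)) with hq
  -- the four sets
  have hA' : Tendsto (fun N => ∑ i, ∑ j,
      ∫⁻ z in s, ENNReal.ofReal (‖A N z i j - U z i j‖ ^ 2) ∂μ) l (𝓝 0) := by
    have := tendsto_finsetSum (Finset.univ : Finset (Fin r)) fun i _ =>
      tendsto_finsetSum (Finset.univ : Finset (Fin r)) fun j _ => hA i j
    simpa using this
  have hev4 : ∀ᶠ N in l, (∑ i, ∑ j,
      ∫⁻ z in s, ENNReal.ofReal (‖A N z i j - U z i j‖ ^ 2) ∂μ) ≤ ENNReal.ofReal (ν / 4 * η ^ 2) := by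
    have : (0 : ℝ≥0∞) < ENNReal.ofReal (ν / 4 * η ^ 2) := by
      rw [ENNReal.ofReal_pos]; positivity
    exact hA'.eventually_le_const this
  have hev1 : ∀ᶠ N in l, r * (CQ' * ε N) / q N ≤ ν / 4 := by
    have h1 : Tendsto (fun N => ε N ^ (1 - θ)) l (𝓝 0) := by
      have h2 : Tendsto (fun x : ℝ => x ^ (1 - θ)) (𝓝 0) (𝓝 (0 ^ (1 - θ))) :=
        (Real.continuousAt_rpow_const 0 (1 - θ) (Or.inr (by linarith))).tendsto
      rw [Real.zero_rpow (by linarith)] at h2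
      exact h2.comp hε
    have h3 : Tendsto (fun N => (r * CQ' * (C' * M ^ (r - 1)) / (c * (κ / 2) ^ 2)) *
        ε N ^ (1 - θ)) l (𝓝 0) := by
      simpa using h1.const_mul (r * CQ' * (C' * M ^ (r - 1)) / (c * (κ / 2) ^ 2))
    have h4 := h3.eventually_le_const (show (0:ℝ) < ν / 4 by positivity)
    filter_upwards [h4, hε0] with N h4 h5
    refine le_trans (le_of_eq ?_) h4
    rw [hq]
    simp only []
    rw [Real.rpow_sub h5, Real.rpow_one]
    have h6 : 0 < ε N ^ θ := Real.rpow_pos_of_pos h5 θ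
    field_simp
  obtain ⟨N, hAm, hε0, hSm, hS, hS0, hQm, hQ, hQ0, htm, ht, hc, hpw, hev4, hev1⟩ :=
    (hAm.and (hε0.and (hSm.and (hS.and (hS0.and (hQm.and (hQ.and (hQ0.and (htm.and
      (ht.and (hc.and (hpw.and (hev4.and hev1))))))))))))).exists
  have hεθ : 0 < ε N ^ θ := Real.rpow_pos_of_pos hε0 θ
  have hq0 : 0 < q N := by
    rw [hq]; simp only []; positivity
  set S1 : Set E := s ∩ {z | q N ≤ ∑ i, Q N i z} with hS1
  set S2 : Set E := s ∩ {z | T ≤ t N z} with hS2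
  set S3 : Set E := s ∩ {z | M ≤ ∑ i, S N i z} with hS3
  set S4 : Set E := s ∩ {z | η ^ 2 ≤ ∑ i, ∑ j, ‖A N z i j - U z i j‖ ^ 2} with hS4
  have hcover : s ⊆ S1 ∪ (S2 ∪ (S3 ∪ S4)) := by
    intro z hz
    by_contra hcon
    simp only [mem_union, not_or, hS1, hS2, hS3, hS4, mem_inter_iff, hz, true_and] at hcon
    obtain ⟨n1, n2, n3, n4⟩ := hcon
    have n1' : ∑ i, Q N i z < q N := not_le.1 n1
    have n2' : t N z < T := not_le.1 n2
    have n3' : ∑ i, S N i z < M := not_le.1 n3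
    have n4' : ∑ i, ∑ j, ‖A N z i j - U z i j‖ ^ 2 < η ^ 2 := not_le.1 n4
    have hclose : ∀ i j, ‖A N z i j - U z i j‖ ≤ η := by
      intro i j
      have h1 : ‖A N z i j - U z i j‖ ^ 2 ≤ ∑ i, ∑ j, ‖A N z i j - U z i j‖ ^ 2 :=
        (Finset.single_le_sum (f := fun j => ‖A N z i j - U z i j‖ ^ 2)
          (fun j _ => by positivity) (Finset.mem_univ j)).trans
        (Finset.single_le_sum (f := fun i => ∑ j, ‖A N z i j - U z i j‖ ^ 2)
          (fun i _ => Finset.sum_nonneg fun j _ => by positivity) (Finset.mem_univ i))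
      exact (sq_le_sq₀ (norm_nonneg _) hη.le).1 (h1.trans n4'.le)
    have hd := hdet (U z) (A N z) (hb z hz) hclose (hU z hz)
    have hSle : ∀ j, S N j z ≤ M := fun j =>
      (Finset.single_le_sum (f := fun j => S N j z) (fun j _ => hS0 j z hz)
        (Finset.mem_univ j)).trans n3'.le
    have hprod : ∀ i, ∏ j ∈ Finset.univ.erase i, S N j z ≤ M ^ (r - 1) := by
      intro i
      refine (Finset.prod_le_prod (fun j _ => hS0 j z hz) fun j _ => hSle j).trans ?_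
      rw [Finset.prod_const, Finset.card_erase_of_mem (Finset.mem_univ i), Finset.card_univ,
        Fintype.card_fin]
    have h1 := hpw z hz
    have hsum0 : 0 ≤ ∑ i, Q N i z * ∏ j ∈ Finset.univ.erase i, S N j z :=
      Finset.sum_nonneg fun i _ => mul_nonneg (hQ0 i z hz)
        (Finset.prod_nonneg fun j _ => hS0 j z hz)
    have h2 : ∑ i, Q N i z * ∏ j ∈ Finset.univ.erase i, S N j z ≤
        (∑ i, Q N i z) * M ^ (r - 1) := by
      rw [Finset.sum_mul]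
      exact Finset.sum_le_sum fun i _ => mul_le_mul_of_nonneg_left (hprod i) (hQ0 i z hz)
    have h3 : c * ε N ^ θ * (κ / 2) ^ 2 ≤ m N z * ‖(A N z).det‖ ^ 2 := by
      have h4 : (κ / 2) ^ 2 ≤ ‖(A N z).det‖ ^ 2 := by
        gcongr
      exact mul_le_mul (hc z hz n2') h4 (by positivity) (by
        exact le_trans (by positivity) (hc z hz n2'))
    have h5 : C * ∑ i, Q N i z * ∏ j ∈ Finset.univ.erase i, S N j z ≤
        C' * ((∑ i, Q N i z) * M ^ (r - 1)) :=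
      (mul_le_mul_of_nonneg_right hC' hsum0).trans (mul_le_mul_of_nonneg_left h2 hC0.le)
    have h6 : q N * (C' * M ^ (r - 1)) ≤ (∑ i, Q N i z) * (C' * M ^ (r - 1)) := by
      have h7 : q N * (C' * M ^ (r - 1)) = c * (κ / 2) ^ 2 * ε N ^ θ := by
        rw [hq]; simp only []
        rw [div_mul_cancel₀]
        positivity
      rw [h7]
      nlinarith
    have h8 : q N ≤ ∑ i, Q N i z := le_of_mul_le_mul_right h6 (by positivity)
    linarith
  -- the measures of the four sets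
  have hofsum : ∀ (f : Fin r → E → ℝ), (∀ i, ∀ z ∈ s, 0 ≤ f i z) →
      (∀ i, AEMeasurable (f i) (μ.restrict s)) →
      ∫⁻ z in s, ENNReal.ofReal (∑ i, f i z) ∂μ = ∑ i, ∫⁻ z in s, ENNReal.ofReal (f i z) ∂μ := by
    intro f hf hfm
    rw [← lintegral_finsetSum' _ fun i _ => (hfm i).ennreal_ofReal]
    refine setLIntegral_congr_fun hs fun z hz => ?_
    exact ENNReal.ofReal_sum_of_nonneg fun i _ => hf i z hz
  have m1 : μ S1 ≤ ENNReal.ofReal (ν / 4) := by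
    refine (cheb (f := fun z => ∑ i, Q N i z) (K := r * (CQ' * ε N)) ?_ hs hq0 ?_).trans
      (ENNReal.ofReal_le_ofReal hev1)
    · exact Finset.aemeasurable_fun_sum _ fun i _ => hQm i
    · rw [hofsum (fun i z => Q N i z) hQ0 hQm]
      calc ∑ i, ∫⁻ z in s, ENNReal.ofReal (Q N i z) ∂μ
          ≤ ∑ i : Fin r, ENNReal.ofReal (CQ' * ε N) := Finset.sum_le_sum fun i _ =>
            (hQ i).trans (ENNReal.ofReal_le_ofReal (mul_le_mul_of_nonneg_right hCQ' hε0.le))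
        _ = ENNReal.ofReal (r * (CQ' * ε N)) := by
            rw [Finset.sum_const, Finset.card_univ, Fintype.card_fin, nsmul_eq_mul,
              ENNReal.ofReal_mul (p := (r : ℝ)) (by positivity), ENNReal.ofReal_natCast]
  have m2 : μ S2 ≤ ENNReal.ofReal (ν / 4) := by
    refine (cheb htm hs hT0 (K := K') (ht.trans (ENNReal.ofReal_le_ofReal hK'))).trans
      (ENNReal.ofReal_le_ofReal ?_)
    rw [hT, div_le_iff₀ (by positivity)]
    have : ν / 4 * (4 * (K' + 1) / ν) = K' + 1 := by field_simp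
    rw [this]; linarith
  have m3 : μ S3 ≤ ENNReal.ofReal (ν / 4) := by
    refine (cheb (f := fun z => ∑ i, S N i z) (K := r * CS') ?_ hs hM0 ?_).trans
      (ENNReal.ofReal_le_ofReal ?_)
    · exact Finset.aemeasurable_fun_sum _ fun i _ => hSm i
    · rw [hofsum (fun i z => S N i z) hS0 hSm]
      calc ∑ i, ∫⁻ z in s, ENNReal.ofReal (S N i z) ∂μ
          ≤ ∑ i : Fin r, ENNReal.ofReal CS' := Finset.sum_le_sum fun i _ =>
            (hS i).trans (ENNReal.ofReal_le_ofReal hCS')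
        _ = ENNReal.ofReal (r * CS') := by
            rw [Finset.sum_const, Finset.card_univ, Fintype.card_fin, nsmul_eq_mul,
              ENNReal.ofReal_mul (p := (r : ℝ)) (by positivity), ENNReal.ofReal_natCast]
    · rw [hM, div_le_iff₀ (by positivity)]
      have : ν / 4 * (4 * (r * CS' + 1) / ν) = r * CS' + 1 := by field_simp
      rw [this]; linarith
  have m4 : μ S4 ≤ ENNReal.ofReal (ν / 4) := by
    refine (cheb (f := fun z => ∑ i, ∑ j, ‖A N z i j - U z i j‖ ^ 2) (K := ν / 4 * η ^ 2) ?_ hs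
      (by positivity) ?_).trans (ENNReal.ofReal_le_ofReal (le_of_eq (by field_simp)))
    · exact Finset.aemeasurable_fun_sum _ fun i _ => Finset.aemeasurable_fun_sum _ fun j _ =>
        hAm i j
    · rw [hofsum (fun i z => ∑ j, ‖A N z i j - U z i j‖ ^ 2)
        (fun i z _ => Finset.sum_nonneg fun j _ => by positivity)
        fun i => Finset.aemeasurable_fun_sum _ fun j _ => hAm i j]
      refine le_trans (le_of_eq ?_) hev4
      exact Finset.sum_congr rfl fun i _ =>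
        hofsum (fun j z => ‖A N z i j - U z i j‖ ^ 2) (fun j z _ => by positivity) fun j => hAm i j
  have hfin : μ s ≤ ENNReal.ofReal ν := by
    calc μ s ≤ μ (S1 ∪ (S2 ∪ (S3 ∪ S4))) := measure_mono hcover
      _ ≤ μ S1 + (μ S2 + (μ S3 + μ S4)) :=
        (measure_union_le _ _).trans (add_le_add le_rfl
          ((measure_union_le _ _).trans (add_le_add le_rfl (measure_union_le _ _))))
      _ ≤ ENNReal.ofReal (ν / 4) + (ENNReal.ofReal (ν / 4) + (ENNReal.ofReal (ν / 4) +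
          ENNReal.ofReal (ν / 4))) := add_le_add m1 (add_le_add m2 (add_le_add m3 m4))
      _ = ENNReal.ofReal ν := by
        rw [← ENNReal.ofReal_add (by positivity) (by positivity),
          ← ENNReal.ofReal_add (by positivity) (by positivity),
          ← ENNReal.ofReal_add (by positivity) (by positivity)]
        congr 1; ring
  exact absurd hν (not_lt.2 hfin)

end Vale.Agent.P301.H794
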