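import Vale.Agent.P301.H794.Scale
import Mathlib.Analysis.Convex.Integral
import Mathlib.Analysis.Convex.SpecificFunctions.Basic

/-! P301, H794: uniform exponential integrability of subharmonic functions in the unit disc
(one-variable Hörmander lemma). -/

open Complex MeasureTheory Metric Set Filter Topology intervalIntegral
open scoped Real ENNReal

set_option linter.all false

noncomputable section

namespace Vale.Agent.P301.H794

open Vale.Agent.P272.K.QN.H86

section
variable {u : ℂ → ℝ} (hu : ∀ z ∈ closedBall (0 : ℂ) 1, ContDiffAt ℝ 2 u z)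
include hu

lemma Kk_nonneg (hL : ∀ z ∈ closedBall (0 : ℂ) 1, 0 ≤ Lap u z) {t : ℝ} (ht : t ∈ Icc (0:ℝ) 1) :
    0 ≤ Kk u t := by
  have h : MonotoneOn (Kk u) (Icc (0:ℝ) 1) := by
    apply monotoneOn_of_deriv_nonneg (convex_Icc 0 1) (cont_Kk hu)
    · rw [interior_Icc]
      exact fun t ht => (hasDerivAt_Kk hu ht).differentiableAt.differentiableWithinAt
    · rw [interior_Icc]
      intro t ht
      rw [(hasDerivAt_Kk hu ht).deriv]
      exact mul_nonneg ht.1.le (Ll_nonneg hu hL (Ioo_subset_Icc_self ht))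
  rw [← Kk_zero hu]
  exact h (left_mem_Icc.2 zero_le_one) ht ht.1

lemma Mm_mono (hL : ∀ z ∈ closedBall (0 : ℂ) 1, 0 ≤ Lap u z) : MonotoneOn (Mm u) (Icc (0:ℝ) 1) := by
  apply monotoneOn_of_deriv_nonneg (convex_Icc 0 1) (cont_Mm hu)
  · rw [interior_Icc]
    exact fun t ht => (hasDerivAt_Mm hu ht).differentiableAt.differentiableWithinAt
  · rw [interior_Icc]
    intro t ht
    rw [(hasDerivAt_Mm hu ht).deriv]
    exact div_nonneg (Kk_nonneg hu hL (Ioo_subset_Icc_self ht)) ht.1.le

lemma Mm_neg (t : ℝ) : ∫ θ in (-π)..π, -u ((t : ℂ) * cexp (θ * I)) = -Mm u t := by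
  rw [intervalIntegral.integral_neg]; rfl

lemma Mm_nonpos (hn : ∀ z ∈ closedBall (0:ℂ) 1, u z ≤ 0) {t : ℝ} (ht : t ∈ Icc (0:ℝ) 1) :
    Mm u t ≤ 0 := by
  have : 0 ≤ ∫ θ in (-π)..π, -u ((t : ℂ) * cexp (θ * I)) :=
    intervalIntegral.integral_nonneg neg_pi_le_pi fun θ _ => by
      have := hn _ (mem_disc ht θ)
      linarith
  rw [Mm_neg hu] at this
  linarith

/-- area integral in terms of circle means -/
lemma lintegral_neg (hn : ∀ z ∈ closedBall (0:ℂ) 1, u z ≤ 0) :
    ∫⁻ z in ball (0:ℂ) 1, ENNReal.ofReal (-u z) =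
      ∫⁻ t in Ioo (0:ℝ) 1, ENNReal.ofReal t * ENNReal.ofReal (-Mm u t) := by
  have h := lintegral_radial (g := fun z => -u z) (cont_u hu).neg
    (fun z hz => by have := hn z hz; linarith) (w := fun _ => 1) measurable_const (ρ := 1) le_rfl
  simp only [ENNReal.ofReal_one, one_mul] at h
  rw [h]
  refine setLIntegral_congr_fun measurableSet_Ioo fun t ht => ?_
  rw [← Mm_neg hu]

lemma lintegral_neg_le (hL : ∀ z ∈ closedBall (0 : ℂ) 1, 0 ≤ Lap u z)
    (hn : ∀ z ∈ closedBall (0:ℂ) 1, u z ≤ 0) :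
    ∫⁻ z in ball (0:ℂ) 1, ENNReal.ofReal (-u z) ≤ ENNReal.ofReal (-(2 * π * u 0)) := by
  rw [lintegral_neg hu hn]
  calc ∫⁻ t in Ioo (0:ℝ) 1, ENNReal.ofReal t * ENNReal.ofReal (-Mm u t)
      ≤ ∫⁻ t in Ioo (0:ℝ) 1, ENNReal.ofReal (-(2 * π * u 0)) := by
        refine setLIntegral_mono' measurableSet_Ioo fun t ht => ?_
        rw [← ENNReal.ofReal_mul ht.1.le]
        apply ENNReal.ofReal_le_ofReal
        have h1 := Mm_mono hu hL (left_mem_Icc.2 zero_le_one) (Ioo_subset_Icc_self ht) ht.1.le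
        rw [Mm_zero hu] at h1
        have h2 : 0 ≤ -Mm u t := by have := Mm_nonpos hu hn (Ioo_subset_Icc_self ht); linarith
        nlinarith [ht.1, ht.2]
    _ = ENNReal.ofReal (-(2 * π * u 0)) := by
        rw [setLIntegral_const, Real.volume_Ioo]; simp

lemma le_lintegral_neg (hL : ∀ z ∈ closedBall (0 : ℂ) 1, 0 ≤ Lap u z)
    (hn : ∀ z ∈ closedBall (0:ℂ) 1, u z ≤ 0) :
    ENNReal.ofReal (-Mm u 1 / 4) ≤ ∫⁻ z in ball (0:ℂ) 1, ENNReal.ofReal (-u z) := by
  rw [lintegral_neg hu hn]
  calc ENNReal.ofReal (-Mm u 1 / 4) = ∫⁻ t in Ioo (1/2:ℝ) 1, ENNReal.ofReal (-Mm u 1 / 2) := by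
        rw [setLIntegral_const, Real.volume_Ioo, ← ENNReal.ofReal_mul (by
          have := Mm_nonpos hu hn (right_mem_Icc.2 zero_le_one); linarith)]
        congr 1; ring
    _ ≤ ∫⁻ t in Ioo (1/2:ℝ) 1, ENNReal.ofReal t * ENNReal.ofReal (-Mm u t) := by
        refine setLIntegral_mono' measurableSet_Ioo fun t ht => ?_
        have ht' : t ∈ Icc (0:ℝ) 1 := ⟨by linarith [ht.1], ht.2.le⟩
        rw [← ENNReal.ofReal_mul ht'.1]
        apply ENNReal.ofReal_le_ofReal
        have h1 := Mm_mono hu hL ht' (right_mem_Icc.2 zero_le_one) ht.2.le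
        have h2 : 0 ≤ -Mm u 1 := by have := Mm_nonpos hu hn (right_mem_Icc.2 zero_le_one); linarith
        nlinarith [ht.1, ht.2]
    _ ≤ _ := lintegral_mono_set (Ioo_subset_Ioo (by norm_num) le_rfl)

end

/-- the potential of the Laplacian near `z` -/
def pot (u : ℂ → ℝ) (ρ r : ℝ) (z : ℂ) : ℝ≥0∞ :=
  ∫⁻ w in ball (0:ℂ) ρ, ENNReal.ofReal (-Real.log (‖w - z‖ / r)) * ENNReal.ofReal (Lap u w)

lemma Lap_affine {u : ℂ → ℝ} {z : ℂ} {r : ℝ} {ζ : ℂ} (h : ContDiffAt ℝ 2 u (z + r • ζ)) :
    Lap (fun ζ => u (z + r • ζ)) ζ = r ^ 2 * Lap u (z + r • ζ) := by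
  have h1 := fun w w' => fderiv2_affine (f := u) (r • ContinuousLinearMap.id ℝ ℂ) z (z := ζ) h w w'
  simp only [_root_.smul_apply, ContinuousLinearMap.coe_id', id_eq] at h1
  unfold Lap
  rw [h1, h1]
  simp only [map_smul, _root_.smul_apply, smul_eq_mul]
  ring

/-- **Pointwise bound** by the potential. -/
theorem pointwise {u : ℂ → ℝ} (hu : ∀ z ∈ closedBall (0 : ℂ) 1, ContDiffAt ℝ 2 u z)
    (hL : ∀ z ∈ closedBall (0 : ℂ) 1, 0 ≤ Lap u z)
    (hn : ∀ z ∈ closedBall (0:ℂ) 1, u z ≤ 0) {A : ℝ} (hA : -A ≤ u 0) {r : ℝ} (hr : 0 < r)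
    (hr1 : 2 * r ≤ 1) {z : ℂ} (hz : z ∈ ball (0:ℂ) r) :
    ENNReal.ofReal (-(2 * π * u z)) ≤ ENNReal.ofReal (8 * π * A / r ^ 2) + pot u (2 * r) r z := by
  set v : ℂ → ℝ := fun ζ => u (z + r • ζ) with hv
  rw [mem_ball_zero_iff] at hz
  have hmem : ∀ ζ ∈ closedBall (0:ℂ) 1, z + r • ζ ∈ closedBall (0:ℂ) 1 := by
    intro ζ hζ
    rw [mem_closedBall_zero_iff] at hζ ⊢
    calc ‖z + r • ζ‖ ≤ ‖z‖ + ‖r • ζ‖ := norm_add_le _ _
      _ = ‖z‖ + r * ‖ζ‖ := by rw [norm_smul, Real.norm_eq_abs, abs_of_pos hr]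
      _ ≤ 1 := by nlinarith
  have hvC : ∀ ζ ∈ closedBall (0:ℂ) 1, ContDiffAt ℝ 2 v ζ := by
    intro ζ hζ
    refine (hu _ (hmem ζ hζ)).comp ζ ?_
    fun_prop
  have hvL' : ∀ ζ ∈ closedBall (0:ℂ) 1, Lap v ζ = r ^ 2 * Lap u (z + r • ζ) := fun ζ hζ =>
    Lap_affine (hu _ (hmem ζ hζ))
  have hvL : ∀ ζ ∈ closedBall (0:ℂ) 1, 0 ≤ Lap v ζ := fun ζ hζ => by
    rw [hvL' ζ hζ]; exact mul_nonneg (by positivity) (hL _ (hmem ζ hζ))
  have hvn : ∀ ζ ∈ closedBall (0:ℂ) 1, v ζ ≤ 0 := fun ζ hζ => hn _ (hmem ζ hζ)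
  have hv0 : v 0 = u z := by simp [hv]
  have hfin2 : Module.finrank ℝ ℂ = 2 := Complex.finrank_real_complex
  -- lower bound of the mean over the circle of radius `r`
  have h1 : ENNReal.ofReal (-Mm v 1 / 4) ≤ ENNReal.ofReal ((r ^ 2)⁻¹ * (2 * π * A)) := by
    refine (le_lintegral_neg hvC hvL hvn).trans ?_
    rw [lintegral_ball_affine volume z hr 1 (fun w => ENNReal.ofReal (-u w)), hfin2,
      ENNReal.ofReal_mul (by positivity)]
    refine mul_le_mul_right ?_ _
    calc ∫⁻ w in ball z (r * 1), ENNReal.ofReal (-u w) ≤ ∫⁻ w in ball (0:ℂ) 1, ENNReal.ofReal (-u w) := by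
          refine lintegral_mono_set (ball_subset_ball' ?_)
          rw [dist_zero_right]; linarith
      _ ≤ ENNReal.ofReal (-(2 * π * u 0)) := lintegral_neg_le hu hL hn
      _ ≤ ENNReal.ofReal (2 * π * A) := by
          apply ENNReal.ofReal_le_ofReal
          have := Real.pi_pos
          nlinarith
  -- Jensen
  have h2 := jensen hvC hvL
  have h3 : ∫⁻ ζ in ball (0:ℂ) 1, ENNReal.ofReal (-Real.log ‖ζ‖) * ENNReal.ofReal (Lap v ζ) ≤
      pot u (2 * r) r z := by
    have e1 : ∫⁻ ζ in ball (0:ℂ) 1, ENNReal.ofReal (-Real.log ‖ζ‖) * ENNReal.ofReal (Lap v ζ) =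
        ENNReal.ofReal (r ^ 2) * ∫⁻ ζ in ball (0:ℂ) 1, (fun w => ENNReal.ofReal (-Real.log (‖w - z‖ / r)) *
          ENNReal.ofReal (Lap u w)) (z + r • ζ) := by
      rw [← lintegral_const_mul' _ _ ENNReal.ofReal_ne_top]
      refine setLIntegral_congr_fun measurableSet_ball fun ζ hζ => ?_
      simp only
      rw [hvL' ζ (ball_subset_closedBall hζ), ENNReal.ofReal_mul (by positivity),
        add_sub_cancel_left, norm_smul, Real.norm_eq_abs, abs_of_pos hr,
        mul_div_cancel_left₀ _ hr.ne']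
      ring
    rw [e1, lintegral_ball_affine volume z hr 1 (fun w => ENNReal.ofReal (-Real.log (‖w - z‖ / r)) *
          ENNReal.ofReal (Lap u w)), hfin2, ← mul_assoc, ← ENNReal.ofReal_mul (by positivity),
      mul_inv_cancel₀ (by positivity), ENNReal.ofReal_one, one_mul]
    refine lintegral_mono_set (ball_subset_ball' ?_)
    rw [dist_zero_right]; linarith
  rw [h2, hv0] at h3
  have h4 : -(2 * π * u z) ≤ 8 * π * A / r ^ 2 + (Mm v 1 - 2 * π * u z) := by
    by_contra hcon
    rw [not_le] at hcon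
    have h5 : 2 * π * A / r ^ 2 < -Mm v 1 / 4 := by
      have : 8 * π * A / r ^ 2 = 4 * (2 * π * A / r ^ 2) := by ring
      linarith
    have h6 : 0 < -Mm v 1 / 4 := by
      have hA0 : 0 ≤ A := by have := hn 0 (by simp); linarith
      have : 0 ≤ 2 * π * A / r ^ 2 := by positivity
      linarith
    rw [ENNReal.ofReal_le_ofReal_iff' ] at h1
    rcases h1 with h1 | h1
    · rw [inv_mul_eq_div] at h1; linarith
    · linarith
  calc ENNReal.ofReal (-(2 * π * u z)) ≤ ENNReal.ofReal (8 * π * A / r ^ 2 + (Mm v 1 - 2 * π * u z)) :=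
        ENNReal.ofReal_le_ofReal h4
    _ ≤ ENNReal.ofReal (8 * π * A / r ^ 2) + ENNReal.ofReal (Mm v 1 - 2 * π * u z) :=
        ENNReal.ofReal_add_le
    _ ≤ _ := by gcongr

/-! ### Jensen's inequality and Tonelli -/

lemma exp_neg_log_max {x : ℝ} (hx : 0 ≤ x) : Real.exp (max 0 (-Real.log x)) ≤ 1 + 1 / x := by
  rcases eq_or_lt_of_le hx with h0 | h0
  · subst h0; simp
  · rcases le_total 0 (-Real.log x) with h | h
    · rw [max_eq_right h, Real.exp_neg, Real.exp_log h0, one_div]
      linarith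
    · rw [max_eq_left h, Real.exp_zero]
      have : 0 < 1 / x := by positivity
      linarith

/-- **Uniform exponential integrability in the disc.** -/
theorem disc_exp {u : ℂ → ℝ} (hu : ∀ z ∈ closedBall (0 : ℂ) 1, ContDiffAt ℝ 2 u z)
    (hL : ∀ z ∈ closedBall (0 : ℂ) 1, 0 ≤ Lap u z)
    (hn : ∀ z ∈ closedBall (0:ℂ) 1, u z ≤ 0) {A p r : ℝ} (hA : -A ≤ u 0) (hr : 0 < r)
    (hr1 : 2 * r < 1) (hp : 0 ≤ p) (hpA : p * A ≤ -Real.log (2 * r)) :
    ∫⁻ z in ball (0:ℂ) r, ENNReal.ofReal (Real.exp (-(p * u z))) ≤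
      ENNReal.ofReal (Real.exp (4 * p * A / r ^ 2) * (9 * π)) := by
  have hA0 : 0 ≤ A := by have := hn 0 (by simp); linarith
  have hpi := Real.pi_pos
  set G : ℂ → ℝ := (closedBall (0:ℂ) 1).indicator (Lap u) with hG
  have hGm : Measurable G := meas_cut (cont_Lap hu)
  have hsub : ball (0:ℂ) (2 * r) ⊆ closedBall 0 1 :=
    ball_subset_closedBall.trans (closedBall_subset_closedBall hr1.le)
  have hGe : ∀ w ∈ ball (0:ℂ) (2 * r), G w = Lap u w := fun w hw => by
    rw [hG, indicator_of_mem (hsub hw)]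
  have hG0 : ∀ w, 0 ≤ G w := fun w => indicator_nonneg hL w
  set μ₀ : Measure ℂ := volume.restrict (ball (0:ℂ) (2 * r)) with hμ₀
  haveI : IsFiniteMeasure μ₀ := ⟨by rw [hμ₀, Measure.restrict_apply_univ]; exact measure_ball_lt_top⟩
  set ν : Measure ℂ := μ₀.withDensity (fun w => ENNReal.ofReal (G w)) with hν
  have hGm' : Measurable fun w => ENNReal.ofReal (G w) := ENNReal.measurable_ofReal.comp hGm
  set m : ℝ≥0∞ := ∫⁻ w, ENNReal.ofReal (G w) ∂μ₀ with hm
  have hmL : m = ∫⁻ w in ball (0:ℂ) (2 * r), ENNReal.ofReal (Lap u w) := by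
    rw [hm, hμ₀]
    exact setLIntegral_congr_fun measurableSet_ball fun w hw => by rw [hGe w hw]
  have hlog : 0 < -Real.log (2 * r) := by
    have := Real.log_neg (by positivity) hr1
    linarith
  have hm1 : m ≤ ENNReal.ofReal (2 * π * A / (-Real.log (2 * r))) := by
    rw [hmL]
    refine (mass_le hu hL (by positivity) hr1).trans (ENNReal.ofReal_le_ofReal ?_)
    gcongr
    have h1 := Mm_nonpos hu hn (right_mem_Icc.2 zero_le_one)
    nlinarith
  have hmtop : m ≠ ⊤ := ne_top_of_le_ne_top ENNReal.ofReal_ne_top hm1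
  have hνuniv : ν univ = m := by
    rw [hν, withDensity_apply _ MeasurableSet.univ, Measure.restrict_univ]
  haveI : IsFiniteMeasure ν := ⟨by rw [hνuniv]; exact hmtop.lt_top⟩
  have hpm : p * m.toReal / (2 * π) ≤ 1 := by
    have h1 : m.toReal ≤ 2 * π * A / (-Real.log (2 * r)) := by
      have := ENNReal.toReal_mono ENNReal.ofReal_ne_top hm1
      rwa [ENNReal.toReal_ofReal (by positivity)] at this
    rw [div_le_one (by positivity)]
    calc p * m.toReal ≤ p * (2 * π * A / (-Real.log (2 * r))) := by gcongr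
      _ = 2 * π * ((p * A) / (-Real.log (2 * r))) := by ring
      _ ≤ 2 * π * 1 := by
          gcongr
          rw [div_le_one hlog]; exact hpA
      _ = 2 * π := by ring
  -- the kernel
  set k : ℂ → ℂ → ℝ := fun z w => max 0 (-Real.log (‖w - z‖ / r)) with hk
  have hk0 : ∀ z w, 0 ≤ k z w := fun z w => le_max_left _ _
  have hkm : ∀ z, Measurable (k z) := fun z => by
    simp only [hk]; fun_prop
  have hke : ∀ z w, Real.exp (k z w) ≤ 1 + 1 / (‖w - z‖ / r) := fun z w =>
    exp_neg_log_max (by positivity)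
  have hof : ∀ z w, ENNReal.ofReal (k z w) = ENNReal.ofReal (-Real.log (‖w - z‖ / r)) := by
    intro z w
    simp only [hk]
    rcases le_total 0 (-Real.log (‖w - z‖ / r)) with h | h
    · rw [max_eq_right h]
    · rw [max_eq_left h, ENNReal.ofReal_zero, ENNReal.ofReal_of_nonpos h]
  have hpot : ∀ z, pot u (2 * r) r z = ∫⁻ w, ENNReal.ofReal (k z w) ∂ν := by
    intro z
    rw [hν, lintegral_withDensity_eq_lintegral_mul _ hGm'
      (show Measurable fun w => ENNReal.ofReal (k z w) from ENNReal.measurable_ofReal.comp (hkm z)),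
      pot, hμ₀]
    refine setLIntegral_congr_fun measurableSet_ball fun w hw => ?_
    simp only [Pi.mul_apply, Function.comp_apply]
    rw [hof, hGe w hw, mul_comm]
  -- integrability of the kernel
  obtain ⟨C, hC⟩ := (isCompact_closedBall (0:ℂ) 1).exists_bound_of_continuousOn (cont_Lap hu)
  have hGC : ∀ w ∈ ball (0:ℂ) (2 * r), G w ≤ C := fun w hw => by
    rw [hGe w hw]; exact (le_abs_self _).trans (hC w (hsub hw))
  set q : ℂ → ℂ → ℝ := fun z w => 1 + 1 / (‖w - z‖ / r) with hq
  have hq0 : ∀ z w, 0 ≤ q z w := fun z w => by simp only [hq]; positivity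
  have hqm : Measurable (Function.uncurry q) := by
    simp only [hq]; fun_prop
  have hqz : ∀ z, Measurable (q z) := fun z => by simp only [hq]; fun_prop
  have hqw : ∀ w, Measurable fun z => q z w := fun w => by simp only [hq]; fun_prop
  -- the basic bound of the kernel
  have hKer : ∀ w, ‖w‖ ≤ 1 → ∀ s : ℝ, 0 ≤ s → s ≤ 1 →
      ∫⁻ z in ball (0:ℂ) s, ENNReal.ofReal (q z w) ≤ ENNReal.ofReal (5 * π) := by
    intro w hw s hs0 hs
    calc ∫⁻ z in ball (0:ℂ) s, ENNReal.ofReal (q z w)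
        ≤ ∫⁻ z in ball (0:ℂ) s, (1 + ENNReal.ofReal (1 / ‖w - z‖)) := by
          refine lintegral_mono fun z => ?_
          simp only [hq]
          refine (ENNReal.ofReal_add_le).trans ?_
          rw [ENNReal.ofReal_one]
          refine add_le_add_right (ENNReal.ofReal_le_ofReal ?_) _
          rw [one_div, inv_div]
          exact div_le_div_of_nonneg_right (by linarith) (norm_nonneg _)
      _ = volume (ball (0:ℂ) s) + ∫⁻ z in ball (0:ℂ) s, ENNReal.ofReal (1 / ‖w - z‖) := by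
          rw [lintegral_add_left measurable_const]
          simp
      _ ≤ ENNReal.ofReal π + ENNReal.ofReal (4 * π) := by
          gcongr
          · rw [Complex.volume_ball, ENNReal.ofReal_eq_coe_nnreal hpi.le]
            calc ENNReal.ofReal s ^ 2 * _ ≤ 1 ^ 2 * _ := by
                  gcongr
                  rw [← ENNReal.ofReal_one]; exact ENNReal.ofReal_le_ofReal hs
              _ = _ := by rw [one_pow, one_mul]; rfl
          · exact lintegral_inv_norm_sub hw hs
      _ = ENNReal.ofReal (5 * π) := by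
          rw [← ENNReal.ofReal_add hpi.le (by positivity)]; congr 1; ring
  have hqi : ∀ z ∈ ball (0:ℂ) r, Integrable (q z) ν := by
    intro z hz
    refine ⟨(hqz z).aestronglyMeasurable, ?_⟩
    rw [hasFiniteIntegral_iff_ofReal (Eventually.of_forall (hq0 z)), hν,
      lintegral_withDensity_eq_lintegral_mul _ hGm'
      (show Measurable fun w => ENNReal.ofReal (q z w) from ENNReal.measurable_ofReal.comp (hqz z))]
    have h1 : ∫⁻ w, ENNReal.ofReal (G w) * ENNReal.ofReal (q z w) ∂μ₀ ≤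
        ENNReal.ofReal C * ENNReal.ofReal (5 * π) := by
      calc ∫⁻ w, ENNReal.ofReal (G w) * ENNReal.ofReal (q z w) ∂μ₀
          ≤ ∫⁻ w, ENNReal.ofReal C * ENNReal.ofReal (q z w) ∂μ₀ := by
            refine setLIntegral_mono' measurableSet_ball fun w hw => ?_
            gcongr
            exact hGC w hw
        _ = ENNReal.ofReal C * ∫⁻ w, ENNReal.ofReal (q w z) ∂μ₀ := by
            rw [lintegral_const_mul' _ _ ENNReal.ofReal_ne_top]
            congr 1
            refine lintegral_congr fun w => ?_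
            simp only [hq]
            rw [norm_sub_rev]
        _ ≤ _ := by
            gcongr
            rw [mem_ball_zero_iff] at hz
            exact hKer z (by linarith) (2 * r) (by positivity) hr1.le
    exact h1.trans_lt (ENNReal.mul_lt_top ENNReal.ofReal_lt_top ENNReal.ofReal_lt_top)
  -- the pointwise bound
  have hpt : ∀ z ∈ ball (0:ℂ) r, ENNReal.ofReal (Real.exp (-(p * u z))) ≤
      ENNReal.ofReal (Real.exp (4 * p * A / r ^ 2)) * (1 + m⁻¹ * ∫⁻ w, ENNReal.ofReal (q z w) ∂ν) := by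
    intro z hz
    have hkei : Integrable (fun w => Real.exp (k z w)) ν :=
      (hqi z hz).mono' ((Real.measurable_exp.comp (hkm z)).aestronglyMeasurable)
        (Eventually.of_forall fun w => by
          rw [Real.norm_eq_abs, abs_of_pos (Real.exp_pos _)]; exact hke z w)
    have hki : Integrable (k z) ν :=
      hkei.mono' (hkm z).aestronglyMeasurable (Eventually.of_forall fun w => by
          rw [Real.norm_eq_abs, abs_of_nonneg (hk0 z w)]
          have := Real.add_one_le_exp (k z w)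
          linarith)
    have h1 := pointwise hu hL hn hA hr hr1.le hz
    rw [hpot z, ← ofReal_integral_eq_lintegral_ofReal hki (Eventually.of_forall (hk0 z))] at h1
    set J : ℝ := ∫ w, k z w ∂ν with hJ
    have hJ0 : 0 ≤ J := integral_nonneg (hk0 z)
    have h2 : -(2 * π * u z) ≤ 8 * π * A / r ^ 2 + J := by
      rw [← ENNReal.ofReal_add (by positivity) hJ0, ENNReal.ofReal_le_ofReal_iff (by positivity)] at h1
      exact h1
    have h3 : -(p * u z) ≤ 4 * p * A / r ^ 2 + p / (2 * π) * J := by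
      have h4 := mul_le_mul_of_nonneg_left h2 (show 0 ≤ p / (2 * π) by positivity)
      have e1 : p / (2 * π) * -(2 * π * u z) = -(p * u z) := by field_simp
      have e2 : p / (2 * π) * (8 * π * A / r ^ 2 + J) = 4 * p * A / r ^ 2 + p / (2 * π) * J := by
        field_simp; ring
      rw [e1, e2] at h4
      exact h4
    have h5 : Real.exp (-(p * u z)) ≤ Real.exp (4 * p * A / r ^ 2) * Real.exp (p / (2 * π) * J) := by
      rw [← Real.exp_add]; exact Real.exp_le_exp.2 h3
    have h6 : ENNReal.ofReal (Real.exp (p / (2 * π) * J)) ≤ 1 + m⁻¹ * ∫⁻ w, ENNReal.ofReal (q z w) ∂ν := by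
      by_cases hm0 : m = 0
      · have : ν = 0 := by rw [← Measure.measure_univ_eq_zero, hνuniv, hm0]
        have hJ00 : J = 0 := by rw [hJ, this, integral_zero_measure]
        rw [hJ00, mul_zero, Real.exp_zero, ENNReal.ofReal_one]
        exact le_self_add
      · haveI : NeZero ν := ⟨fun h => hm0 (by rw [← hνuniv, h]; simp)⟩
        have hmr : 0 < m.toReal := ENNReal.toReal_pos hm0 hmtop
        set M : ℝ := p * m.toReal / (2 * π) with hM
        have hM0 : 0 ≤ M := by positivity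
        have hMk : ∀ w, Real.exp (M * k z w) ≤ q z w := fun w =>
          (Real.exp_le_exp.2 (by nlinarith [hk0 z w])).trans (hke z w)
        have hMi : Integrable (fun w => Real.exp (M * k z w)) ν :=
          (hqi z hz).mono' ((Real.measurable_exp.comp ((hkm z).const_mul M)).aestronglyMeasurable)
            (Eventually.of_forall fun w => by
              rw [Real.norm_eq_abs, abs_of_pos (Real.exp_pos _)]; exact hMk w)
        have hj := ConvexOn.map_average_le (μ := ν) (s := univ) (g := Real.exp)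
          (f := fun w => M * k z w) convexOn_exp Real.continuous_exp.continuousOn isClosed_univ
          (Eventually.of_forall fun _ => mem_univ _) (hki.const_mul M) hMi
        rw [average_eq, average_eq, MeasureTheory.integral_const_mul, measureReal_def, hνuniv, smul_eq_mul,
          smul_eq_mul] at hj
        have e1 : m.toReal⁻¹ * (M * ∫ w, k z w ∂ν) = p / (2 * π) * J := by
          rw [hM, ← hJ]; field_simp
        rw [e1] at hj
        have hj2 : Real.exp (p / (2 * π) * J) ≤ m.toReal⁻¹ * ∫ w, q z w ∂ν := by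
          refine hj.trans ?_
          gcongr
          · exact hqi z hz
          · intro w; exact hMk w
        calc ENNReal.ofReal (Real.exp (p / (2 * π) * J)) ≤ ENNReal.ofReal (m.toReal⁻¹ * ∫ w, q z w ∂ν) :=
              ENNReal.ofReal_le_ofReal hj2
          _ = m⁻¹ * ∫⁻ w, ENNReal.ofReal (q z w) ∂ν := by
              rw [ENNReal.ofReal_mul (by positivity), ofReal_integral_eq_lintegral_ofReal (hqi z hz)
                (Eventually.of_forall (hq0 z)), ENNReal.ofReal_inv_of_pos hmr,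
                ENNReal.ofReal_toReal hmtop]
          _ ≤ _ := le_add_self
    calc ENNReal.ofReal (Real.exp (-(p * u z)))
        ≤ ENNReal.ofReal (Real.exp (4 * p * A / r ^ 2) * Real.exp (p / (2 * π) * J)) :=
          ENNReal.ofReal_le_ofReal h5
      _ = ENNReal.ofReal (Real.exp (4 * p * A / r ^ 2)) * ENNReal.ofReal (Real.exp (p / (2 * π) * J)) :=
          ENNReal.ofReal_mul (Real.exp_pos _).le
      _ ≤ _ := by gcongr
  -- integrate
  have hT : ∫⁻ z in ball (0:ℂ) r, ∫⁻ w, ENNReal.ofReal (q z w) ∂ν ≤ m * ENNReal.ofReal (5 * π) := by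
    rw [lintegral_lintegral_swap (f := fun z w => ENNReal.ofReal (q z w))
      (ENNReal.measurable_ofReal.comp hqm).aemeasurable]
    calc ∫⁻ w, (∫⁻ z in ball (0:ℂ) r, ENNReal.ofReal (q z w)) ∂ν
        ≤ ∫⁻ w, ENNReal.ofReal (5 * π) ∂ν := by
          refine lintegral_mono_ae ?_
          have h1 : ∀ᵐ w ∂μ₀, w ∈ ball (0:ℂ) (2 * r) := self_mem_ae_restrict measurableSet_ball
          have h2 : ∀ᵐ w ∂ν, w ∈ ball (0:ℂ) (2 * r) :=
            (withDensity_absolutelyContinuous μ₀ _).ae_le h1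
          filter_upwards [h2] with w hw
          rw [mem_ball_zero_iff] at hw
          exact hKer w (by linarith) r hr.le (by linarith)
      _ = m * ENNReal.ofReal (5 * π) := by rw [lintegral_const, hνuniv, mul_comm]
  calc ∫⁻ z in ball (0:ℂ) r, ENNReal.ofReal (Real.exp (-(p * u z)))
      ≤ ∫⁻ z in ball (0:ℂ) r, ENNReal.ofReal (Real.exp (4 * p * A / r ^ 2)) *
          (1 + m⁻¹ * ∫⁻ w, ENNReal.ofReal (q z w) ∂ν) := setLIntegral_mono' measurableSet_ball hpt
    _ = ENNReal.ofReal (Real.exp (4 * p * A / r ^ 2)) * (volume (ball (0:ℂ) r) +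
          ∫⁻ z in ball (0:ℂ) r, m⁻¹ * ∫⁻ w, ENNReal.ofReal (q z w) ∂ν) := by
        rw [lintegral_const_mul' _ _ ENNReal.ofReal_ne_top, lintegral_add_left measurable_const]
        simp
    _ ≤ ENNReal.ofReal (Real.exp (4 * p * A / r ^ 2)) * (ENNReal.ofReal π + ENNReal.ofReal (5 * π)) := by
        gcongr
        · rw [Complex.volume_ball, ENNReal.ofReal_eq_coe_nnreal hpi.le]
          calc ENNReal.ofReal r ^ 2 * _ ≤ 1 ^ 2 * _ := by
                gcongr
                rw [← ENNReal.ofReal_one]; exact ENNReal.ofReal_le_ofReal (by linarith)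
            _ = _ := by rw [one_pow, one_mul]; rfl
        · have hmeas : Measurable fun z => ∫⁻ w, ENNReal.ofReal (q z w) ∂ν :=
            Measurable.lintegral_prod_right' (f := fun p : ℂ × ℂ => ENNReal.ofReal (q p.1 p.2))
              (ENNReal.measurable_ofReal.comp hqm)
          rw [lintegral_const_mul _ hmeas]
          calc m⁻¹ * ∫⁻ z in ball (0:ℂ) r, ∫⁻ w, ENNReal.ofReal (q z w) ∂ν
              ≤ m⁻¹ * (m * ENNReal.ofReal (5 * π)) := by gcongr
            _ = (m⁻¹ * m) * ENNReal.ofReal (5 * π) := by rw [mul_assoc]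
            _ ≤ 1 * ENNReal.ofReal (5 * π) := by
                gcongr
                exact ENNReal.inv_mul_le_one _
            _ = _ := one_mul _
    _ ≤ _ := by
        rw [← ENNReal.ofReal_add hpi.le (by positivity), ← ENNReal.ofReal_mul (Real.exp_pos _).le]
        apply ENNReal.ofReal_le_ofReal
        gcongr
        linarith

end Vale.Agent.P301.H794
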