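import Vale.Agent.P301.H794.Exp

/-! P301, H794: uniform exponential integrability of quasi-plurisubharmonic functions. -/

open Complex MeasureTheory Metric Set Filter Topology
open scoped Real ENNReal ComplexOrder

set_option linter.all false

noncomputable section

namespace Vale.Agent.P301.H794

open Vale.Agent.P272.K.QN.H86 Vale.Agent.P272.K

variable {n : ℕ}

lemma lintegral_rot (F : Cm n → ℝ≥0∞) (R : ℝ) (θ : ℝ) :
    ∫⁻ v in ball (0 : Cm n) R, F (cexp (θ * I) • v) = ∫⁻ v in ball (0 : Cm n) R, F v := by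
  have hne : cexp (θ * I) ≠ 0 := Complex.exp_ne_zero _
  have hemb : MeasurableEmbedding (fun v : Cm n => cexp (θ * I) • v) :=
    (Homeomorph.smulOfNeZero _ hne).measurableEmbedding
  have h := (measurePreserving_smul_circle (n := n) θ).setLIntegral_comp_preimage_emb hemb F
    (ball (0 : Cm n) R)
  have hpre : (fun v : Cm n => cexp (θ * I) • v) ⁻¹' ball (0 : Cm n) R = ball (0 : Cm n) R := by
    ext v
    simp [norm_smul, Complex.norm_exp_ofReal_mul_I]
  rw [hpre] at h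
  exact h

/-- integrals of a nonnegative function over complex multiples of a polydisc -/
lemma lintegral_line_le (f : Cm n → ℝ≥0∞) (c : Cm n) {R r : ℝ} (hR : 0 < R) (hr : 0 < r)
    (hr1 : r ≤ 1) {ζ : ℂ} (h1 : r / 2 ≤ ‖ζ‖) (h2 : ‖ζ‖ < r) :
    ∫⁻ y in ball c (r / 2 * R), f y ≤ ∫⁻ v in ball (0 : Cm n) R, f (c + ζ • v) := by
  have ht : 0 < ‖ζ‖ := by linarith
  have e1 : ∀ v : Cm n, c + ζ • v = c + ‖ζ‖ • (cexp (Complex.arg ζ * I) • v) := by
    intro v
    congr 1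
    rw [← Complex.coe_smul, smul_smul, Complex.norm_mul_exp_arg_mul_I]
  have e2 : ∫⁻ v in ball (0 : Cm n) R, f (c + ζ • v) =
      ∫⁻ v in ball (0 : Cm n) R, f (c + ‖ζ‖ • v) := by
    simp only [e1]
    exact lintegral_rot (fun v => f (c + ‖ζ‖ • v)) R (Complex.arg ζ)
  rw [e2, lintegral_ball_affine volume c ht R f]
  calc ∫⁻ y in ball c (r / 2 * R), f y ≤ ∫⁻ y in ball c (‖ζ‖ * R), f y := by
        refine lintegral_mono_set (ball_subset_ball ?_)
        gcongr
    _ = 1 * ∫⁻ y in ball c (‖ζ‖ * R), f y := (one_mul _).symm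
    _ ≤ _ := by
        gcongr
        rw [← ENNReal.ofReal_one]
        apply ENNReal.ofReal_le_ofReal
        rw [one_le_inv₀ (by positivity)]
        exact pow_le_one₀ ht.le (by linarith)

/-- the restriction of a quasi-psh function to a line, corrected, is subharmonic -/
lemma line_lap {f : Cm n → ℝ} {c : Cm n} {R A : ℝ} (hA : 0 ≤ A)
    (hf : ∀ z ∈ closedBall c R, ContDiffAt ℝ 2 f z)
    (hL : ∀ z ∈ closedBall c R,
      (cHess f z + (A : ℂ) • (1 : Matrix (Fin n) (Fin n) ℂ)).PosSemidef)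
    {v : Cm n} (hv : ‖v‖ ≤ R) (b : ℝ) :
    (∀ ζ ∈ closedBall (0:ℂ) 1, ContDiffAt ℝ 2
      (fun ζ : ℂ => f (c + ζ • v) + ((A * ∑ k, ‖v k‖ ^ 2) * ‖ζ‖ ^ 2 + b)) ζ) ∧
    ∀ ζ ∈ closedBall (0:ℂ) 1,
      0 ≤ Lap (fun ζ : ℂ => f (c + ζ • v) + ((A * ∑ k, ‖v k‖ ^ 2) * ‖ζ‖ ^ 2 + b)) ζ := by
  set S : ℝ := ∑ k, ‖v k‖ ^ 2 with hS
  set L : ℂ →L[ℝ] Cm n := (ContinuousLinearMap.toSpanSingleton ℂ v).restrictScalars ℝ with hLdef
  have hLa : ∀ ζ, L ζ = ζ • v := fun ζ => by simp [hLdef]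
  have hmem : ∀ ζ ∈ closedBall (0:ℂ) 1, c + L ζ ∈ closedBall c R := by
    intro ζ hζ
    rw [mem_closedBall_iff_norm, add_sub_cancel_left, hLa, norm_smul]
    have h1 : ‖ζ‖ ≤ 1 := by simpa using hζ
    calc ‖ζ‖ * ‖v‖ ≤ 1 * ‖v‖ := by gcongr
      _ ≤ R := by rw [one_mul]; exact hv
  set g : ℂ → ℝ := fun ζ => f (c + L ζ) with hg
  set q : ℂ → ℝ := fun ζ => (A * S) * ‖ζ‖ ^ 2 with hq
  have hfun : (fun ζ : ℂ => f (c + ζ • v) + ((A * S) * ‖ζ‖ ^ 2 + b)) =
      fun ζ => (g ζ + q ζ) + b := by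
    funext ζ
    simp only [hg, hq, hLa]
    ring
  rw [hfun]
  have hgC : ∀ z ∈ closedBall (0:ℂ) 1, ContDiffAt ℝ 2 g z := by
    intro z hz
    refine (hf _ (hmem z hz)).comp z ?_
    exact (contDiff_const.add L.contDiff).contDiffAt
  have hqC : ContDiff ℝ 2 q := contDiff_const.mul (contDiff_norm_sq ℝ)
  refine ⟨fun z hz => ((hgC z hz).add hqC.contDiffAt).add contDiffAt_const, fun z hz => ?_⟩
  have hsum : ∀ z ∈ closedBall (0:ℂ) 1, ∀ w w', fderiv ℝ (fderiv ℝ fun ζ => (g ζ + q ζ) + b) z w w' =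
      fderiv ℝ (fderiv ℝ g) z w w' + fderiv ℝ (fderiv ℝ q) z w w' := by
    intro z hz w w'
    have hev : ∀ᶠ y in 𝓝 z, ContDiffAt ℝ 2 g y := (hgC z hz).eventually (by simp)
    have h1 : (fderiv ℝ fun ζ => (g ζ + q ζ) + b) =ᶠ[𝓝 z] fun y => fderiv ℝ g y + fderiv ℝ q y := by
      filter_upwards [hev] with y hy
      rw [fderiv_add_const]
      exact fderiv_fun_add (hy.differentiableAt (by norm_num))
        (hqC.contDiffAt.differentiableAt (by norm_num))
    rw [h1.fderiv_eq, fderiv_fun_add (c2_near (hgC z hz)).2.1 (c2_near hqC.contDiffAt).2.1]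
    rfl
  unfold Lap
  rw [hsum z hz, hsum z hz, fderiv2_normsq, fderiv2_normsq]
  rw [fderiv2_affine L c (hf _ (hmem z hz)), fderiv2_affine L c (hf _ (hmem z hz))]
  have hp := hL _ (hmem z hz)
  set B := fderiv ℝ (fderiv ℝ f) (c + L z) with hB
  have hd : DifferentiableAt ℝ (fderiv ℝ f) (c + L z) :=
    ((hf _ (hmem z hz)).fderiv_right (m := 1) (by norm_num)).differentiableAt (by norm_num)
  have hsym : ∀ v w, B v w = B w v := fun v w =>
    (hf _ (hmem z hz)).isSymmSndFDerivAt (by simp) v w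
  have h1 := hp.dotProduct_mulVec_nonneg (star v)
  rw [N.cHess_eq_lev hd, Matrix.add_mulVec, dotProduct_add, ← hB,
    N.lev_quadratic hsym] at h1
  rw [star_star] at h1
  have h2 : v ⬝ᵥ ((A : ℂ) • (1 : Matrix (Fin n) (Fin n) ℂ)).mulVec (star v) =
      ((A * S : ℝ) : ℂ) := by
    rw [Matrix.smul_mulVec, Matrix.one_mulVec, dotProduct_smul, smul_eq_mul]
    push_cast
    congr 1
    rw [hS]
    push_cast
    refine Finset.sum_congr rfl fun k _ => ?_
    simp only [Pi.star_apply, RCLike.star_def]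
    rw [Complex.mul_conj, Complex.normSq_eq_norm_sq]
    push_cast; rfl
  rw [h2] at h1
  have h3 : (0:ℝ) ≤ (B v v + B (I • v) (I • v)) / 4 + A * S := by
    exact_mod_cast h1
  rw [hLa, hLa, one_smul]
  have e1 : inner ℝ (1:ℂ) (1:ℂ) = (1:ℝ) := by simp
  have e2 : inner ℝ I I = (1:ℝ) := by simp
  rw [e1, e2]
  linarith

/-- **Uniform exponential integrability on polydiscs.** -/
theorem polydisc_exp (n : ℕ) {R A B p r : ℝ} (hR : 0 < R) (hA : 0 ≤ A) (hB : 0 ≤ B) (hp : 0 ≤ p)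
    (hr : 0 < r) (hr1 : 2 * r < 1) (hpA : p * (B + A * n * R ^ 2) ≤ -Real.log (2 * r)) :
    ∃ K : ℝ≥0∞, K ≠ ⊤ ∧ ∀ (c : Cm n) (f : Cm n → ℝ),
      (∀ z ∈ closedBall c R, ContDiffAt ℝ 2 f z) →
      (∀ z ∈ closedBall c R, (cHess f z + (A : ℂ) • (1 : Matrix (Fin n) (Fin n) ℂ)).PosSemidef) →
      (∀ z ∈ closedBall c R, f z ≤ 0) → -B ≤ f c →
      ∫⁻ y in ball c (r / 2 * R), ENNReal.ofReal (Real.exp (-(p * f y))) ≤ K := by
  set B1 : ℝ := B + A * n * R ^ 2 with hB1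
  have hpi := Real.pi_pos
  set K1 : ℝ≥0∞ := ENNReal.ofReal (Real.exp (4 * p * B1 / r ^ 2) * (9 * π)) with hK1
  set V : ℝ≥0∞ := volume (ball (0 : Cm n) R) with hV
  set a : ℝ≥0∞ := volume (ball ((3 * r / 4 : ℝ) : ℂ) (r / 4)) with ha
  have ha0 : a ≠ 0 := (measure_ball_pos volume _ (by positivity)).ne'
  refine ⟨a⁻¹ * (K1 * V), ENNReal.mul_ne_top (ENNReal.inv_ne_top.2 ha0)
    (ENNReal.mul_ne_top ENNReal.ofReal_ne_top measure_ball_lt_top.ne), fun c f hf hL hn hfc => ?_⟩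
  set F : Cm n → ℝ≥0∞ := (closedBall c R).indicator
    (fun y => ENNReal.ofReal (Real.exp (-(p * f y)))) with hF
  have hfc' : ContinuousOn f (closedBall c R) := fun z hz =>
    (hf z hz).continuousAt.continuousWithinAt
  have hFm : Measurable F := by
    classical
    rw [hF, ← piecewise_eq_indicator]
    refine ContinuousOn.measurable_piecewise ?_ (continuousOn_const (c := (0:ℝ≥0∞)))
      measurableSet_closedBall
    exact ENNReal.continuous_ofReal.comp_continuousOn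
      (Real.continuous_exp.comp_continuousOn ((hfc'.const_smul p).neg))
  have hFe : ∀ y ∈ closedBall c R, F y = ENNReal.ofReal (Real.exp (-(p * f y))) := fun y hy => by
    rw [hF, indicator_of_mem hy]
  -- the line integrals
  have hline : ∀ v ∈ ball (0 : Cm n) R, ∫⁻ ζ in ball (0:ℂ) r, F (c + ζ • v) ≤ K1 := by
    intro v hv
    have hv' : ‖v‖ ≤ R := by rw [mem_ball_zero_iff] at hv; exact hv.le
    set S : ℝ := ∑ k, ‖v k‖ ^ 2 with hS
    have hS0 : 0 ≤ S := Finset.sum_nonneg fun k _ => by positivity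
    have hSR : S ≤ n * R ^ 2 := norm_sq_sum_le v hv'
    obtain ⟨h1, h2⟩ := line_lap hA hf hL hv' (-(A * S))
    have hmem : ∀ ζ ∈ closedBall (0:ℂ) 1, c + ζ • v ∈ closedBall c R := by
      intro ζ hζ
      rw [mem_closedBall_iff_norm, add_sub_cancel_left, norm_smul]
      have h1 : ‖ζ‖ ≤ 1 := by simpa using hζ
      calc ‖ζ‖ * ‖v‖ ≤ 1 * ‖v‖ := by gcongr
        _ ≤ R := by rw [one_mul]; exact hv'
    have hcorr : ∀ ζ ∈ closedBall (0:ℂ) 1, (A * S) * ‖ζ‖ ^ 2 + -(A * S) ≤ 0 := by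
      intro ζ hζ
      have h3 : ‖ζ‖ ≤ 1 := by simpa using hζ
      have h4 : ‖ζ‖ ^ 2 ≤ 1 := pow_le_one₀ (norm_nonneg _) h3
      have h5 : 0 ≤ A * S := mul_nonneg hA hS0
      nlinarith
    have h3 := disc_exp (p := p) (r := r) (A := B1) h1 h2
      (fun ζ hζ => by
        have := hn _ (hmem ζ hζ)
        have := hcorr ζ hζ
        linarith)
      (by
        simp only [zero_smul, add_zero, norm_zero]
        have : A * S ≤ A * (n * R ^ 2) := by gcongr
        rw [hB1]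
        nlinarith)
      hr hr1 hp hpA
    refine le_trans ?_ h3
    refine setLIntegral_mono' measurableSet_ball fun ζ hζ => ?_
    have hζ1 : ζ ∈ closedBall (0:ℂ) 1 := by
      rw [mem_ball_zero_iff] at hζ
      rw [mem_closedBall_zero_iff]; linarith
    rw [hFe _ (hmem ζ hζ1)]
    apply ENNReal.ofReal_le_ofReal
    apply Real.exp_le_exp.2
    have := hcorr ζ hζ1
    nlinarith
  -- Tonelli
  have hT : ∫⁻ v in ball (0 : Cm n) R, ∫⁻ ζ in ball (0:ℂ) r, F (c + ζ • v) ≤ K1 * V := by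
    calc ∫⁻ v in ball (0 : Cm n) R, ∫⁻ ζ in ball (0:ℂ) r, F (c + ζ • v)
        ≤ ∫⁻ v in ball (0 : Cm n) R, K1 := setLIntegral_mono' measurableSet_ball hline
      _ = K1 * V := by rw [setLIntegral_const]
  rw [lintegral_lintegral_swap (f := fun v ζ => F (c + ζ • v))
    (hFm.comp (by fun_prop : Measurable fun q : Cm n × ℂ => c + q.2 • q.1)).aemeasurable] at hT
  have hsub : ball ((3 * r / 4 : ℝ) : ℂ) (r / 4) ⊆ ball (0:ℂ) r := by
    refine ball_subset_ball' ?_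
    rw [dist_zero_right, Complex.norm_real, Real.norm_eq_abs, abs_of_pos (by positivity)]
    linarith
  have hlow : a * ∫⁻ y in ball c (r / 2 * R), F y ≤
      ∫⁻ ζ in ball (0:ℂ) r, ∫⁻ v in ball (0 : Cm n) R, F (c + ζ • v) := by
    calc a * ∫⁻ y in ball c (r / 2 * R), F y
        = ∫⁻ ζ in ball ((3 * r / 4 : ℝ) : ℂ) (r / 4), ∫⁻ y in ball c (r / 2 * R), F y := by
          rw [setLIntegral_const, mul_comm]
      _ ≤ ∫⁻ ζ in ball ((3 * r / 4 : ℝ) : ℂ) (r / 4), ∫⁻ v in ball (0 : Cm n) R, F (c + ζ • v) := by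
          refine setLIntegral_mono' measurableSet_ball fun ζ hζ => ?_
          have h1 : ‖ζ‖ < r := by have := hsub hζ; rwa [mem_ball_zero_iff] at this
          have h2 : r / 2 ≤ ‖ζ‖ := by
            rw [mem_ball, dist_comm, dist_eq_norm] at hζ
            have h3 := norm_sub_norm_le ((3 * r / 4 : ℝ) : ℂ) ζ
            rw [Complex.norm_real, Real.norm_eq_abs, abs_of_pos (by positivity)] at h3
            linarith
          exact lintegral_line_le F c hR hr (by linarith) h2 h1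
      _ ≤ _ := lintegral_mono_set hsub
  have hfin : ∫⁻ y in ball c (r / 2 * R), ENNReal.ofReal (Real.exp (-(p * f y))) =
      ∫⁻ y in ball c (r / 2 * R), F y := by
    refine setLIntegral_congr_fun measurableSet_ball fun y hy => ?_
    rw [hFe y]
    refine ball_subset_closedBall.trans (closedBall_subset_closedBall ?_) hy
    nlinarith
  rw [hfin]
  have hatop : a ≠ ⊤ := measure_ball_lt_top.ne
  calc ∫⁻ y in ball c (r / 2 * R), F y = a⁻¹ * (a * ∫⁻ y in ball c (r / 2 * R), F y) := by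
        rw [← mul_assoc, ENNReal.inv_mul_cancel ha0 hatop, one_mul]
    _ ≤ a⁻¹ * (K1 * V) := mul_le_mul' le_rfl (hlow.trans hT)

end Vale.Agent.P301.H794
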