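import Vale.Agent.P301.H794.Quant

/-! P301, H794: uniform exponential integrability over compact sets and over `X`; the functions
`UU F h c k`. -/

open scoped Manifold ContDiff ComplexOrder Topology ENNReal
open Filter Metric Set MeasureTheory

set_option linter.all false

noncomputable section

namespace Vale.Agent.P301.H794

open Vale.Agent.P272.K Vale.Agent.P272.K.QN Vale.Agent.P301.H599

variable {d : ℕ} {X : Type} [TopologicalSpace X] [ChartedSpace (Cm d) X]
  [IsManifold 𝓘(ℂ, Cm d) ω X] [CompactSpace X]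
  {F : Auto d X} {w : Fm d X} {A C₀ C₁ C₂ : ℝ}

/-- uniform exponential integrability over compact subsets of a chart -/
theorem exists_compact_bound [PreconnectedSpace X] (hw : IsKahler w) (hA : 0 ≤ A) {p : ℝ}
    (hp : 0 ≤ p) {e : Chart d X} (he : e ∈ atlas (Cm d) X) {K : Set (Cm d)} (hK : IsCompact K)
    (hKe : K ⊆ e.target) :
    ∃ B : ℝ≥0∞, B ≠ ⊤ ∧ ∀ v : X → ℝ, Fam F w A C₀ C₁ C₂ v →
      ∫⁻ z in K, ENNReal.ofReal (Real.exp (-(p * v (e.symm z)))) ≤ B := by
  refine hK.induction_on (p := fun S => ∃ B : ℝ≥0∞, B ≠ ⊤ ∧ ∀ v : X → ℝ, Fam F w A C₀ C₁ C₂ v →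
      ∫⁻ z in S, ENNReal.ofReal (Real.exp (-(p * v (e.symm z)))) ≤ B) ?_ ?_ ?_ ?_
  · exact ⟨0, by simp, fun v _ => by simp⟩
  · rintro S S' hSS ⟨B, hB, h⟩
    exact ⟨B, hB, fun v hv => (lintegral_mono_set hSS).trans (h v hv)⟩
  · rintro S S' ⟨B, hB, h⟩ ⟨B', hB', h'⟩
    refine ⟨B + B', ENNReal.add_ne_top.2 ⟨hB, hB'⟩, fun v hv => ?_⟩
    exact (lintegral_union_le _ _ _).trans (add_le_add (h v hv) (h' v hv))
  · intro z hz
    have hat := At.of_target he (hKe hz)
    obtain ⟨r, hr, hre, B, hB, h⟩ := exists_exp_bound (F := F) (C₀ := C₀) (C₁ := C₁) (C₂ := C₂)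
      hw hA hp hat
    rw [e.right_inv (hKe hz)] at h
    exact ⟨ball z r, mem_nhdsWithin_of_mem_nhds (ball_mem_nhds z hr), B, hB, h⟩

/-- **Uniform exponential integrability over `X`.** -/
theorem exists_intX_bound [T2Space X] [PreconnectedSpace X] (hw : IsKahler w) (hA : 0 ≤ A) {p : ℝ}
    (hp : 0 ≤ p) {D : Chart d X → Cm d → ℝ} (hD : INT.IsDensity D)
    (hD0 : ∀ e x, At e x → 0 ≤ D e (e x)) :
    ∃ B : ℝ, ∀ v : X → ℝ, Fam F w A C₀ C₁ C₂ v →
      INT.intX (fun e z => Real.exp (-(p * v (e.symm z))) * D e z) ≤ B := by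
  classical
  set P := INT.part d X with hP
  have hle : ∀ i x, P.ρ i x ≤ 1 := by
    intro i x
    rw [← P.sum x]
    exact Finset.single_le_sum (f := fun i => P.ρ i x) (fun j _ => P.nonneg j x)
      (Finset.mem_univ i)
  have hi : ∀ i, ∃ B : ℝ, ∀ v : X → ℝ, Fam F w A C₀ C₁ C₂ v →
      ∫ z in (P.e i).target, P.ρ i ((P.e i).symm z) *
        (Real.exp (-(p * v ((P.e i).symm z))) * D (P.e i) z) ≤ B := by
    intro i
    set e := P.e i with he
    have hmem : e ∈ atlas (Cm d) X := P.mem i
    set K : Set (Cm d) := e '' tsupport (P.ρ i) with hK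
    have hKc : IsCompact K := (isClosed_tsupport (P.ρ i)).isCompact.image_of_continuousOn
      (e.continuousOn.mono (P.supp i))
    have hKt : K ⊆ e.target := by
      rintro _ ⟨x, hx, rfl⟩; exact e.map_source (P.supp i hx)
    obtain ⟨B, hB, hBv⟩ := exists_compact_bound (F := F) (C₀ := C₀) (C₁ := C₁) (C₂ := C₂)
      hw hA hp hmem hKc hKt
    obtain ⟨b, hb⟩ := hKc.exists_bound_of_continuousOn ((hD.continuousOn hmem).mono hKt)
    refine ⟨|b| * B.toReal, fun v hv => ?_⟩
    have hvc : Continuous v := INT.SmoothFn.continuous hv.smooth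
    have hec : ContinuousOn (fun z => Real.exp (-(p * v (e.symm z)))) K := by
      refine Real.continuous_exp.comp_continuousOn (ContinuousOn.neg ?_)
      exact continuousOn_const.mul (hvc.comp_continuousOn (e.continuousOn_symm.mono hKt))
    have hρc : ContinuousOn (fun z => P.ρ i (e.symm z)) K :=
      (P.cont i).comp_continuousOn (e.continuousOn_symm.mono hKt)
    have hDc : ContinuousOn (D e) K := (hD.continuousOn hmem).mono hKt
    have hDn : ∀ z ∈ e.target, 0 ≤ D e z := by
      intro z hz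
      have := hD0 e (e.symm z) (At.of_target hmem hz)
      rwa [e.right_inv hz] at this
    have e1 : ∫ z in e.target, P.ρ i (e.symm z) * (Real.exp (-(p * v (e.symm z))) * D e z) =
        ∫ z in K, P.ρ i (e.symm z) * (Real.exp (-(p * v (e.symm z))) * D e z) := by
      refine setIntegral_eq_of_subset_of_forall_sdiff_eq_zero e.open_target.measurableSet hKt ?_
      rintro z ⟨hz1, hz2⟩
      have h1 : e.symm z ∉ tsupport (P.ρ i) := fun h => hz2 ⟨_, h, e.right_inv hz1⟩
      rw [image_eq_zero_of_notMem_tsupport h1, zero_mul]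
    have hint : IntegrableOn (fun z => Real.exp (-(p * v (e.symm z)))) K :=
      hec.integrableOn_compact hKc
    have e2 : ∫ z in K, P.ρ i (e.symm z) * (Real.exp (-(p * v (e.symm z))) * D e z) ≤
        ∫ z in K, |b| * Real.exp (-(p * v (e.symm z))) := by
      refine setIntegral_mono_on ((hρc.mul (hec.mul hDc)).integrableOn_compact hKc)
        (hint.const_mul _) hKc.measurableSet fun z hz => ?_
      have h1 : D e z ≤ |b| := (le_abs_self _).trans ((hb z hz).trans (le_abs_self b))
      have h2 := Real.exp_pos (-(p * v (e.symm z)))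
      have h3 := hDn z (hKt hz)
      calc P.ρ i (e.symm z) * (Real.exp (-(p * v (e.symm z))) * D e z)
          ≤ 1 * (Real.exp (-(p * v (e.symm z))) * D e z) :=
            mul_le_mul_of_nonneg_right (hle i _) (by positivity)
        _ = Real.exp (-(p * v (e.symm z))) * D e z := one_mul _
        _ ≤ Real.exp (-(p * v (e.symm z))) * |b| := mul_le_mul_of_nonneg_left h1 h2.le
        _ = _ := mul_comm _ _
    rw [e1]
    refine e2.trans ?_
    rw [integral_const_mul]
    refine mul_le_mul_of_nonneg_left ?_ (abs_nonneg _)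
    rw [← ENNReal.ofReal_le_iff_le_toReal hB, ofReal_integral_eq_lintegral_ofReal hint
      (Filter.Eventually.of_forall fun z => (Real.exp_pos _).le)]
    exact hBv v hv
  choose B hB using hi
  refine ⟨∑ i, B i, fun v hv => ?_⟩
  unfold INT.intX
  rw [← hP]
  exact Finset.sum_le_sum fun i _ => hB i v hv

end Vale.Agent.P301.H794
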