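import Vale.Agent.P301.H794.Core
import Vale.Agent.P301.H85.PW
import Vale.Agent.P299.H835.IX.FockD

/-! P301, H794 (CY-LIM): local form of the vanishing of the minors of the limits. -/

open Filter Metric Set MeasureTheory Topology
open scoped ENNReal ComplexOrder Matrix ComplexConjugate

set_option linter.all false

noncomputable section

namespace Vale.Agent.P301.H794

open Vale.Agent.P272.K Vale.Agent.P299.IX Vale.Agent.P299.IX.Fock Vale.Agent.P301.H85

variable {d : ℕ}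

lemma nsw_nonneg {w : Matrix (Fin d) (Fin d) ℂ} (hw : w.PosDef) (u : FI d → ℂ) : 0 ≤ nsw w u := by
  obtain ⟨T, U, η, hη, hUT, hTU, hwT, hτT⟩ :=
    Vale.Agent.P272.K.QN.H327.exists_frame hw hw.posSemidef
  rw [nsw_eq hUT hTU hwT]
  exact nn_nonneg _

lemma contOn_lam {s : Set (Cm d)} {M : Cm d → Matrix (Fin d) (Fin d) ℂ}
    (hM : ∀ i j, ContinuousOn (fun z => M z i j) s) (K I : FI d) :
    ContinuousOn (fun z => lam (M z) K I) s :=
  lam_induction (P := fun f => ContinuousOn f s) (fun _ => continuousOn_const)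
    (fun _ _ hf => continuousOn_finsetSum _ hf) (fun _ _ hf hg => hf.mul hg) hM K I

lemma contOn_matrix {ι κ : Type*} {s : Set (Cm d)} {M : Cm d → Matrix ι κ ℂ}
    (hM : ∀ i j, ContinuousOn (fun z => M z i j) s) : ContinuousOn M s :=
  continuousOn_pi.2 fun i => continuousOn_pi.2 fun j => hM i j

lemma contOn_det {ι : Type*} [Fintype ι] [DecidableEq ι] {s : Set (Cm d)}
    {M : Cm d → Matrix ι ι ℂ} (hM : ∀ i j, ContinuousOn (fun z => M z i j) s) :
    ContinuousOn (fun z => (M z).det) s :=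
  (Continuous.matrix_det continuous_id).comp_continuousOn (contOn_matrix hM)

lemma contOn_inv {s : Set (Cm d)} {M : Cm d → Matrix (Fin d) (Fin d) ℂ}
    (hM : ∀ i j, ContinuousOn (fun z => M z i j) s) (h0 : ∀ z ∈ s, (M z).det ≠ 0) (i j : Fin d) :
    ContinuousOn (fun z => (M z)⁻¹ i j) s := by
  have h1 : ContinuousOn (fun z => (M z).adjugate i j) s := by
    have : ContinuousOn (fun z => (M z).adjugate) s :=
      (Continuous.matrix_adjugate continuous_id).comp_continuousOn (contOn_matrix hM)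
    exact continuousOn_pi.1 (continuousOn_pi.1 this i) j
  have h2 := (contOn_det hM).inv₀ h0
  refine (h2.mul h1).congr fun z hz => ?_
  rw [Matrix.inv_def, Ring.inverse_eq_inv', Matrix.smul_apply, smul_eq_mul]
  rfl

lemma contOn_ipw {s : Set (Cm d)} {w : Cm d → Matrix (Fin d) (Fin d) ℂ}
    (hw : ∀ i j, ContinuousOn (fun z => w z i j) s) (h0 : ∀ z ∈ s, (w z).det ≠ 0)
    {u v : Cm d → FI d → ℂ} (hu : ∀ I, ContinuousOn (fun z => u z I) s)
    (hv : ∀ I, ContinuousOn (fun z => v z I) s) :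
    ContinuousOn (fun z => ipw (w z) (u z) (v z)) s := by
  unfold ipw
  refine continuousOn_finsetSum _ fun I _ => ContinuousOn.mul ?_ ?_
  · simp only [Matrix.mulVec, dotProduct]
    exact continuousOn_finsetSum _ fun K _ => (contOn_lam (contOn_inv hw h0) I K).mul (hu K)
  · exact Complex.continuous_conj.comp_continuousOn (hv I)

lemma contOn_mulVec {s : Set (Cm d)} (A : Matrix (FI d) (FI d) ℂ)
    {u : Cm d → FI d → ℂ} (hu : ∀ I, ContinuousOn (fun z => u z I) s) (I : FI d) :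
    ContinuousOn (fun z => (A *ᵥ u z) I) s := by
  simp only [Matrix.mulVec, dotProduct]
  exact continuousOn_finsetSum _ fun K _ => continuousOn_const.mul (hu K)

lemma contOn_qfw {s : Set (Cm d)} {w τ : Cm d → Matrix (Fin d) (Fin d) ℂ}
    (hw : ∀ i j, ContinuousOn (fun z => w z i j) s) (h0 : ∀ z ∈ s, (w z).det ≠ 0)
    (hτ : ∀ i j, ContinuousOn (fun z => τ z i j) s)
    {u v : Cm d → FI d → ℂ} (hu : ∀ I, ContinuousOn (fun z => u z I) s)
    (hv : ∀ I, ContinuousOn (fun z => v z I) s) :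
    ContinuousOn (fun z => qfw (w z) (τ z) (u z) (v z)) s := by
  unfold qfw
  refine continuousOn_finsetSum _ fun l _ => continuousOn_finsetSum _ fun b _ =>
    (hτ l b).mul ?_
  exact contOn_ipw hw h0 (contOn_mulVec _ hu) (contOn_mulVec _ hv)

/-- **Local form of CY-LIM.** -/
theorem minors_zero {α : Type*} {l : Filter α} [l.NeBot] {k n : ℕ} (hk : k < d) (hnk : n ≤ k)
    {c : Cm d} {R : ℝ}
    {w : Cm d → Matrix (Fin d) (Fin d) ℂ} (hw : ∀ z ∈ closedBall c R, (w z).PosDef)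
    (hwc : ∀ i j, ContinuousOn (fun z => w z i j) (closedBall c R))
    {τ : α → Cm d → Matrix (Fin d) (Fin d) ℂ}
    (hτ : ∀ᶠ N in l, ∀ z ∈ closedBall c R, (τ N z).PosSemidef)
    (hτc : ∀ᶠ N in l, ∀ i j, ContinuousOn (fun z => τ N z i j) (closedBall c R))
    {p r : ℕ} (hr : cnt d (d - k) p < r)
    {g : α → Fin r → Cm d → FI d → ℂ}
    (hg : ∀ᶠ N in l, ∀ a I, ContinuousOn (fun z => g N a z I) (closedBall c R))
    (hgp : ∀ᶠ N in l, ∀ a, ∀ z ∈ closedBall c R, ∀ I, I.card ≠ p → g N a z I = 0)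
    {G : Fin r → Cm d → FI d → ℂ} (hG : ∀ a I, ContinuousOn (fun z => G a z I) (closedBall c R))
    (hlim : ∀ a I, Tendsto
      (fun N => ∫⁻ z in closedBall c R, ENNReal.ofReal (‖g N a z I - G a z I‖ ^ 2)) l (𝓝 0))
    {ε : α → ℝ} (hε0 : ∀ᶠ N in l, 0 < ε N) (hε : Tendsto ε l (𝓝 0))
    {CS CQ K c0 : ℝ} (hc0 : 0 < c0)
    (hS : ∀ᶠ N in l, ∀ a,
      ∫⁻ z in closedBall c R, ENNReal.ofReal (nsw (w z) (g N a z)) ≤ ENNReal.ofReal CS)
    (hQ : ∀ᶠ N in l, ∀ a, ∫⁻ z in closedBall c R,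
      ENNReal.ofReal ((qfw (w z) (τ N z) (g N a z) (g N a z)).re) ≤ ENNReal.ofReal (CQ * ε N))
    (hK : ∀ᶠ N in l,
      ∫⁻ z in closedBall c R, ENNReal.ofReal ((w z + τ N z).det.re) ≤ ENNReal.ofReal K)
    (hdet : ∀ᶠ N in l, ∀ z ∈ closedBall c R, c0 * ε N ^ n * (w z).det.re ≤ (τ N z).det.re)
    (J : Fin r → FI d) {z₀ : Cm d} (hz₀ : z₀ ∈ ball c R) :
    (Matrix.of fun a b => G a z₀ (J b)).det = 0 := by
  by_contra hne
  set U : Cm d → Matrix (Fin r) (Fin r) ℂ := fun z => Matrix.of fun a b => G a z (J b) with hU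
  have hUne : 0 < ‖(U z₀).det‖ := norm_pos_iff.2 hne
  set κ : ℝ := ‖(U z₀).det‖ / 2 with hκ
  have hκ0 : 0 < κ := by positivity
  have hUc : ContinuousOn (fun z => ‖(U z).det‖) (closedBall c R) :=
    (contOn_det fun a b => hG a (J b)).norm
  have hnb : closedBall c R ∈ 𝓝 z₀ := mem_of_superset (isOpen_ball.mem_nhds hz₀)
    ball_subset_closedBall
  have hcat : ContinuousAt (fun z => ‖(U z).det‖) z₀ := hUc.continuousAt hnb
  have hev : ∀ᶠ z in 𝓝 z₀, z ∈ closedBall c R ∧ κ < ‖(U z).det‖ :=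
    Filter.Eventually.and hnb (hcat.tendsto.eventually_const_lt (by
      show ‖(U z₀).det‖ / 2 < ‖(U z₀).det‖
      linarith))
  obtain ⟨ρ, hρ, hρs⟩ := Metric.nhds_basis_closedBall.mem_iff.1 hev
  set s : Set (Cm d) := closedBall z₀ ρ with hs
  have hsR : s ⊆ closedBall c R := fun z hz => (hρs hz).1
  have hsm : MeasurableSet s := measurableSet_closedBall
  have hsc : IsCompact s := isCompact_closedBall _ _
  have hμ0 : (volume : Measure (Cm d)) s ≠ 0 :=
    ((measure_ball_pos volume z₀ hρ).trans_le (measure_mono ball_subset_closedBall)).ne'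
  -- bounds on `s`
  have hb : ∃ b : ℝ, ∀ z ∈ s, ∀ i j, ‖U z i j‖ ≤ b := by
    have h1 : ∀ i j, ∃ b : ℝ, ∀ z ∈ s, ‖U z i j‖ ≤ b := fun i j =>
      hsc.exists_bound_of_continuousOn ((hG i (J j)).mono hsR)
    choose b hb using h1
    refine ⟨∑ i, ∑ j, |b i j|, fun z hz i j => (hb i j z hz).trans ((le_abs_self _).trans ?_)⟩
    exact (Finset.single_le_sum (f := fun j => |b i j|) (fun j _ => abs_nonneg _)
      (Finset.mem_univ j)).trans (Finset.single_le_sum (f := fun i => ∑ j, |b i j|)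
        (fun i _ => Finset.sum_nonneg fun j _ => abs_nonneg _) (Finset.mem_univ i))
  obtain ⟨b, hb⟩ := hb
  have hP : ∃ Λ : ℝ, 0 ≤ Λ ∧ ∀ z ∈ s, (∏ j, (lam (w z) (J j) (J j)).re) ≤ Λ := by
    have h1 : ContinuousOn (fun z => ∏ j, (lam (w z) (J j) (J j)).re) s :=
      continuousOn_finsetProd _ fun j _ => Complex.continuous_re.comp_continuousOn
        ((contOn_lam hwc _ _).mono hsR)
    obtain ⟨Λ, hΛ⟩ := hsc.exists_bound_of_continuousOn h1
    exact ⟨|Λ|, abs_nonneg _, fun z hz => (le_abs_self _).trans ((hΛ z hz).trans (le_abs_self _))⟩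
  obtain ⟨Λ, hΛ0, hΛ⟩ := hP
  have hwdet : ∀ z ∈ closedBall c R, (w z).det ≠ 0 := fun z hz => (hw z hz).det_pos.ne'
  have hwre : ∀ z ∈ closedBall c R, 0 < (w z).det.re := fun z hz =>
    (Complex.lt_def.1 (hw z hz).det_pos).1
  obtain ⟨μ0, hμ00, hμ0'⟩ : ∃ μ0 : ℝ, 0 < μ0 ∧ ∀ z ∈ s, μ0 ≤ (w z).det.re := by
    obtain ⟨z₁, hz₁, hmin⟩ := hsc.exists_isMinOn ⟨z₀, mem_closedBall_self hρ.le⟩
      ((Complex.continuous_re.comp_continuousOn (contOn_det hwc)).mono hsR)
    exact ⟨(w z₁).det.re, hwre z₁ (hsR hz₁), fun z hz => hmin hz⟩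
  have hθ : (n : ℝ) / ((k : ℝ) + 1) < 1 := by
    rw [div_lt_one (by positivity)]
    have : (n : ℝ) ≤ k := by exact_mod_cast hnk
    linarith
  refine core_false (μ := volume) (s := s) (l := l) hsm hμ0 (r := r)
    (A := fun N z => Matrix.of fun a b => g N a z (J b)) (U := U) (b := b) (κ := κ) hκ0 hb
    (fun z hz => (hρs hz).2.le) ?_ ?_ (ε := ε) hε0 hε (θ := (n : ℝ) / ((k : ℝ) + 1)) hθ
    (S := fun N a z => nsw (w z) (g N a z)) (CS := CS) ?_ ?_ ?_
    (Q := fun N a z => (qfw (w z) (τ N z) (g N a z) (g N a z)).re) (CQ := CQ) ?_ ?_ ?_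
    (t := fun N z => (w z + τ N z).det.re) (K := K) ?_ ?_
    (m := fun N z => ((τ N z).det.re / (w z + τ N z).det.re) ^ (1 / ((k : ℝ) + 1))) ?_
    (C := ((Nat.factorial r : ℝ) ^ 2 * r) * Λ) ?_
  · filter_upwards [hg] with N hg i j
    exact ((((hg i (J j)).mono hsR).sub ((hG i (J j)).mono hsR)).norm.pow 2).aemeasurable hsm
  · intro i j
    refine tendsto_of_tendsto_of_tendsto_of_le_of_le tendsto_const_nhds (hlim i (J j))
      (fun _ => zero_le) fun N => lintegral_mono_set hsR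
  · filter_upwards [hg] with N hg a
    exact (Complex.continuous_re.comp_continuousOn ((contOn_ipw hwc hwdet (hg a) (hg a)).mono
      hsR)).aemeasurable hsm
  · filter_upwards [hS] with N hS a
    exact (lintegral_mono_set hsR).trans (hS a)
  · exact Filter.Eventually.of_forall fun N a z hz => nsw_nonneg (hw z (hsR hz)) _
  · filter_upwards [hg, hτc] with N hg hτc a
    exact (Complex.continuous_re.comp_continuousOn
      ((contOn_qfw hwc hwdet hτc (hg a) (hg a)).mono hsR)).aemeasurable hsm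
  · filter_upwards [hQ] with N hQ a
    exact (lintegral_mono_set hsR).trans (hQ a)
  · filter_upwards [hτ] with N hτ a z hz
    exact qfw_nonneg (hw z (hsR hz)) (hτ z (hsR hz)) _
  · filter_upwards [hτc] with N hτc
    exact (Complex.continuous_re.comp_continuousOn
      ((contOn_det fun i j => (hwc i j).add (hτc i j)).mono hsR)).aemeasurable hsm
  · filter_upwards [hK] with N hK
    exact (lintegral_mono_set hsR).trans hK
  · intro T hT
    refine ⟨(c0 * μ0 / T) ^ (1 / ((k : ℝ) + 1)), Real.rpow_pos_of_pos (by positivity) _, ?_⟩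
    filter_upwards [hdet, hτ, hε0] with N hdet hτ hε0 z hz ht
    have hz' := hsR hz
    have hsum : 0 < (w z + τ N z).det.re :=
      (Complex.lt_def.1 ((hw z hz').add_posSemidef (hτ z hz')).det_pos).1
    have h1 : c0 * μ0 / T * ε N ^ n ≤ (τ N z).det.re / (w z + τ N z).det.re := by
      rw [div_mul_eq_mul_div, div_le_div_iff₀ hT hsum]
      have h2 := hdet z hz'
      have h3 := hμ0' z hz
      have h4 : c0 * μ0 * ε N ^ n ≤ (τ N z).det.re := by
        refine le_trans ?_ h2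
        have : 0 < c0 * ε N ^ n := by positivity
        nlinarith
      have h5 : 0 ≤ (τ N z).det.re := le_trans (by positivity) h4
      calc c0 * μ0 * ε N ^ n * (w z + τ N z).det.re ≤ (τ N z).det.re * (w z + τ N z).det.re :=
            mul_le_mul_of_nonneg_right h4 hsum.le
        _ ≤ (τ N z).det.re * T := mul_le_mul_of_nonneg_left ht.le h5
    calc (c0 * μ0 / T) ^ (1 / ((k : ℝ) + 1)) * ε N ^ ((n : ℝ) / ((k : ℝ) + 1))
        = (c0 * μ0 / T * ε N ^ n) ^ (1 / ((k : ℝ) + 1)) := by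
          rw [Real.mul_rpow (by positivity) (by positivity), ← Real.rpow_natCast (ε N) n,
            ← Real.rpow_mul hε0.le, mul_one_div]
      _ ≤ _ := Real.rpow_le_rpow (by positivity) h1 (by positivity)
  · filter_upwards [hgp, hτ] with N hgp hτ z hz
    have hz' := hsR hz
    have h1 := minor_le_det (hw z hz') (hτ z hz') hk hr (fun a => g N a z)
      (fun a I hI => hgp a z hz' I hI) J
    refine h1.trans ?_
    refine mul_le_mul_of_nonneg_right (mul_le_mul_of_nonneg_left (hΛ z hz) (by positivity)) ?_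
    exact Finset.sum_nonneg fun a _ => mul_nonneg (qfw_nonneg (hw z hz') (hτ z hz') _)
      (Finset.prod_nonneg fun j _ => nsw_nonneg (hw z hz') _)

end Vale.Agent.P301.H794
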