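import Vale.Agent.P301.H599.Main

/-! P301, H794: the function `Σ |z_k|²` and local plurisubharmonicity. -/

open scoped Manifold ContDiff ComplexOrder Topology
open Filter Metric Set

set_option linter.all false

noncomputable section

namespace Vale.Agent.P301.H794

open Vale.Agent.P272.K Vale.Agent.P272.K.QN Vale.Agent.P301.H599

variable {d : ℕ}

/-- `Σ |z_k|²` -/
def nq (z : Cm d) : ℝ := ∑ k, ‖z k‖ ^ 2

lemma nq_nonneg (z : Cm d) : 0 ≤ nq z := Finset.sum_nonneg fun k _ => by positivity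

lemma nq_le (z : Cm d) {R : ℝ} (h : ‖z‖ ≤ R) : nq z ≤ d * R ^ 2 := QN.H86.norm_sq_sum_le z h

lemma contDiff_nq {m : WithTop ℕ∞} : ContDiff ℝ m (nq (d := d)) := by
  unfold nq
  refine ContDiff.sum fun k _ => ?_
  have h1 : ContDiff ℝ m (fun z : Cm d => z k) := contDiff_apply ℝ ℂ k
  exact h1.norm_sq ℝ

lemma diffC_apply (k : Fin d) (z : Cm d) : DifferentiableAt ℂ (fun y : Cm d => y k) z :=
  (ContinuousLinearMap.proj (R := ℂ) (φ := fun _ : Fin d => ℂ) k).differentiableAt

lemma dz_apply (i k : Fin d) (z : Cm d) : dz i (fun y : Cm d => y k) z = if i = k then 1 else 0 := by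
  rw [dz_of_holo (diffC_apply k z)]
  have h : fderiv ℂ (fun y : Cm d => y k) z =
      ContinuousLinearMap.proj (R := ℂ) (φ := fun _ : Fin d => ℂ) k :=
    (ContinuousLinearMap.proj (R := ℂ) (φ := fun _ : Fin d => ℂ) k).fderiv
  rw [h]
  simp only [ContinuousLinearMap.proj_apply]
  by_cases hik : i = k
  · subst hik; simp
  · rw [if_neg hik]
    exact Pi.single_eq_of_ne (Ne.symm hik) _

lemma dzb_nq (k : Fin d) (z : Cm d) : dzb k (fun y => ((nq y : ℝ) : ℂ)) z = z k := by
  have h0 : (fun y : Cm d => ((nq y : ℝ) : ℂ)) = fun y => ∑ l, y l * cj (y l) := by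
    funext y
    unfold nq cj
    push_cast
    refine Finset.sum_congr rfl fun l _ => ?_
    rw [Complex.mul_conj, Complex.normSq_eq_norm_sq]
    push_cast; rfl
  have hl : ∀ l, DifferentiableAt ℝ (fun y : Cm d => y l) z := fun l =>
    (diffC_apply l z).restrictScalars ℝ
  have hc : ∀ l, DifferentiableAt ℝ (fun y : Cm d => cj (y l)) z := fun l =>
    Complex.conjCLE.differentiableAt.comp z (hl l)
  rw [h0, dzb_sum (F := fun l y => y l * cj (y l)) Finset.univ fun l _ => (hl l).mul (hc l)]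
  have h1 : ∀ l, dzb k (fun y : Cm d => y l * cj (y l)) z = if k = l then z l else 0 := by
    intro l
    rw [dzb_mul (hl l) (hc l), dzb_of_holo (diffC_apply l z), dzb_cj (hl l), dz_apply]
    by_cases hkl : k = l
    · simp [hkl, cj]
    · simp [hkl, cj]
  simp only [h1]
  simp

lemma cHess_nq (z : Cm d) : cHess nq z = 1 := by
  ext j k
  rw [cHess_apply]
  have h1 : dzb k (fun y => ((nq y : ℝ) : ℂ)) = fun y : Cm d => y k := by
    funext y; exact dzb_nq k y
  rw [h1, dz_apply, Matrix.one_apply]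

end Vale.Agent.P301.H794
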