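import Vale.Agent.P301.H794.Circle
import Vale.Agent.P272.K.QN.H86.Poly
import Mathlib.Analysis.SpecialFunctions.PolarCoord

/-! P301, H794: area integrals over discs in polar coordinates; Jensen's formula. -/

open Complex MeasureTheory Metric Set Filter Topology intervalIntegral
open scoped Real ENNReal

set_option linter.all false

noncomputable section

namespace Vale.Agent.P301.H794

open Vale.Agent.P272.K.QN.H86

lemma polar_symm (t θ : ℝ) : Complex.polarCoord.symm (t, θ) = (t : ℂ) * cexp (θ * I) := by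
  rw [Complex.polarCoord_symm_apply, Complex.exp_mul_I]
  simp [Complex.ofReal_cos, Complex.ofReal_sin]

/-- polar coordinates in a disc -/
lemma lintegral_disc {f : ℂ → ℝ≥0∞} (hf : Measurable f) (ρ : ℝ) :
    ∫⁻ z in ball (0:ℂ) ρ, f z =
      ∫⁻ t in Ioo 0 ρ, ENNReal.ofReal t * ∫⁻ θ in Ioo (-π) π, f ((t : ℂ) * cexp (θ * I)) := by
  rw [← lintegral_indicator measurableSet_ball, ← Complex.lintegral_comp_polarCoord_symm]
  have hm : Measurable fun p : ℝ × ℝ => ENNReal.ofReal p.1 •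
      (ball (0:ℂ) ρ).indicator f (Complex.polarCoord.symm p) := by
    have h1 : Measurable fun p : ℝ × ℝ => Complex.polarCoord.symm p := by
      simp only [Complex.polarCoord_symm_apply]
      fun_prop
    simp only [smul_eq_mul]
    exact (ENNReal.measurable_ofReal.comp measurable_fst).mul
      ((hf.indicator measurableSet_ball).comp h1)
  have h2 : (polarCoord.target : Set (ℝ × ℝ)) = Ioi (0:ℝ) ×ˢ Ioo (-π) π := rfl
  rw [h2, Measure.volume_eq_prod, setLIntegral_prod _ hm.aemeasurable]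
  have h3 : ∀ t ∈ Ioi (0:ℝ), (∫⁻ θ in Ioo (-π) π, ENNReal.ofReal (t, θ).1 •
      (ball (0:ℂ) ρ).indicator f (Complex.polarCoord.symm (t, θ))) =
      (Iio ρ).indicator (fun t => ENNReal.ofReal t *
        ∫⁻ θ in Ioo (-π) π, f ((t : ℂ) * cexp (θ * I))) t := by
    intro t ht
    have hn : ∀ θ : ℝ, ‖(t : ℂ) * cexp (θ * I)‖ = t := by
      intro θ
      rw [norm_mul, Complex.norm_exp_ofReal_mul_I, mul_one, Complex.norm_real, Real.norm_eq_abs,
        abs_of_pos ht]
    simp only [polar_symm, smul_eq_mul]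
    by_cases hρ : t < ρ
    · rw [indicator_of_mem (show t ∈ Iio ρ from hρ)]
      have : ∀ θ : ℝ, (ball (0:ℂ) ρ).indicator f ((t : ℂ) * cexp (θ * I)) =
          f ((t : ℂ) * cexp (θ * I)) := by
        intro θ
        rw [indicator_of_mem]
        rw [mem_ball_zero_iff, hn]; exact hρ
      simp only [this]
      rw [lintegral_const_mul' _ _ ENNReal.ofReal_ne_top]
    · rw [indicator_of_notMem (show t ∉ Iio ρ from hρ)]
      have : ∀ θ : ℝ, (ball (0:ℂ) ρ).indicator f ((t : ℂ) * cexp (θ * I)) = 0 := by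
        intro θ
        rw [indicator_of_notMem]
        rw [mem_ball_zero_iff, hn]; exact hρ
      simp only [this, mul_zero, lintegral_zero]
  rw [setLIntegral_congr_fun measurableSet_Ioi h3, lintegral_indicator measurableSet_Iio,
    Measure.restrict_restrict measurableSet_Iio]
  congr 2
  ext t
  simp [and_comm]

lemma meas_cut {g : ℂ → ℝ} (hg : ContinuousOn g (closedBall 0 1)) :
    Measurable ((closedBall (0:ℂ) 1).indicator g) := by
  classical
  rw [← piecewise_eq_indicator]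
  exact hg.measurable_piecewise (continuousOn_const (c := (0:ℝ))) measurableSet_closedBall

/-- radial weights -/
lemma lintegral_radial {g : ℂ → ℝ} (hg : ContinuousOn g (closedBall 0 1))
    (hg0 : ∀ z ∈ closedBall (0:ℂ) 1, 0 ≤ g z) {w : ℝ → ℝ} (hw : Measurable w) {ρ : ℝ} (hρ : ρ ≤ 1) :
    ∫⁻ z in ball (0:ℂ) ρ, ENNReal.ofReal (w ‖z‖) * ENNReal.ofReal (g z) =
      ∫⁻ t in Ioo 0 ρ, ENNReal.ofReal t * (ENNReal.ofReal (w t) *
        ENNReal.ofReal (∫ θ in (-π)..π, g ((t : ℂ) * cexp (θ * I)))) := by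
  set G := (closedBall (0:ℂ) 1).indicator g with hG
  have hGm := meas_cut hg
  have hsub : ball (0:ℂ) ρ ⊆ closedBall 0 1 := ball_subset_closedBall.trans (closedBall_subset_closedBall hρ)
  have e1 : ∫⁻ z in ball (0:ℂ) ρ, ENNReal.ofReal (w ‖z‖) * ENNReal.ofReal (g z) =
      ∫⁻ z in ball (0:ℂ) ρ, ENNReal.ofReal (w ‖z‖) * ENNReal.ofReal (G z) := by
    refine setLIntegral_congr_fun measurableSet_ball fun z hz => ?_
    rw [hG, indicator_of_mem (hsub hz)]
  rw [e1, lintegral_disc (f := fun z => ENNReal.ofReal (w ‖z‖) * ENNReal.ofReal (G z))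
    ((ENNReal.measurable_ofReal.comp (hw.comp measurable_norm)).mul
      (ENNReal.measurable_ofReal.comp hGm))]
  refine setLIntegral_congr_fun measurableSet_Ioo fun t ht => ?_
  congr 1
  have ht1 : t ∈ Icc (0:ℝ) 1 := ⟨ht.1.le, ht.2.le.trans hρ⟩
  have hn : ∀ θ : ℝ, ‖(t : ℂ) * cexp (θ * I)‖ = t := by
    intro θ
    rw [norm_mul, Complex.norm_exp_ofReal_mul_I, mul_one, Complex.norm_real, Real.norm_eq_abs,
      abs_of_pos ht.1]
  simp only [hn]
  rw [lintegral_const_mul' _ _ ENNReal.ofReal_ne_top]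
  congr 1
  have e2 : ∀ θ : ℝ, G ((t : ℂ) * cexp (θ * I)) = g ((t : ℂ) * cexp (θ * I)) := fun θ => by
    rw [hG, indicator_of_mem (mem_disc ht1 θ)]
  simp only [e2]
  rw [intervalIntegral.integral_of_le neg_pi_le_pi, integral_Ioc_eq_integral_Ioo]
  have hc : ContinuousOn (fun θ : ℝ => g ((t : ℂ) * cexp (θ * I))) (Icc (-π) π) :=
    hg.comp (by fun_prop) (fun θ _ => mem_disc ht1 θ)
  rw [ofReal_integral_eq_lintegral_ofReal]
  · exact (hc.integrableOn_compact isCompact_Icc).mono_set Ioo_subset_Icc_self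
  · exact Eventually.of_forall fun θ => hg0 _ (mem_disc ht1 θ)

section
variable {u : ℂ → ℝ} (hu : ∀ z ∈ closedBall (0 : ℂ) 1, ContDiffAt ℝ 2 u z)
  (hL : ∀ z ∈ closedBall (0 : ℂ) 1, 0 ≤ Lap u z)
include hu

lemma Ll_nonneg (hL : ∀ z ∈ closedBall (0 : ℂ) 1, 0 ≤ Lap u z) {t : ℝ} (ht : t ∈ Icc (0:ℝ) 1) :
    0 ≤ Ll u t :=
  intervalIntegral.integral_nonneg neg_pi_le_pi fun θ _ => hL _ (mem_disc ht θ)

/-- **Jensen's formula.** -/
theorem jensen (hL : ∀ z ∈ closedBall (0 : ℂ) 1, 0 ≤ Lap u z) :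
    ∫⁻ z in ball (0:ℂ) 1, ENNReal.ofReal (-Real.log ‖z‖) * ENNReal.ofReal (Lap u z) =
      ENNReal.ofReal (Mm u 1 - 2 * π * u 0) := by
  rw [lintegral_radial (w := fun t => -Real.log t) (cont_Lap hu) hL (Real.measurable_log.neg) le_rfl,
    ← jensen_center hu, intervalIntegral.integral_of_le zero_le_one, integral_Ioc_eq_integral_Ioo]
  have hci : IntegrableOn (fun t => (-Real.log t) * (t * Ll u t)) (Ioo 0 1) := by
    have : ContinuousOn (fun t => -(t * Real.log t) * Ll u t) (Icc (0:ℝ) 1) :=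
      (Real.continuous_mul_log.neg.continuousOn).mul (cont_Ll hu)
    have h2 := (this.integrableOn_compact (μ := volume) isCompact_Icc).mono_set
      (Ioo_subset_Icc_self (a := (0:ℝ)) (b := 1))
    refine h2.congr_fun (fun t _ => ?_) measurableSet_Ioo
    ring
  rw [ofReal_integral_eq_lintegral_ofReal hci]
  · refine setLIntegral_congr_fun measurableSet_Ioo fun t ht => ?_
    have h0 : 0 ≤ -Real.log t := by
      have := Real.log_nonpos ht.1.le ht.2.le
      linarith
    show ENNReal.ofReal t * (ENNReal.ofReal (-Real.log t) * ENNReal.ofReal (Ll u t)) = _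
    rw [← ENNReal.ofReal_mul h0, ← ENNReal.ofReal_mul ht.1.le]
    congr 1
    ring
  · filter_upwards [self_mem_ae_restrict measurableSet_Ioo] with t ht
    have h0 : 0 ≤ -Real.log t := by
      have := Real.log_nonpos ht.1.le ht.2.le
      linarith
    exact mul_nonneg h0 (mul_nonneg ht.1.le (Ll_nonneg hu hL (Ioo_subset_Icc_self ht)))

/-- the mass of the Laplacian -/
theorem mass_le (hL : ∀ z ∈ closedBall (0 : ℂ) 1, 0 ≤ Lap u z) {ρ : ℝ} (h0 : 0 < ρ) (h1 : ρ < 1) :
    ∫⁻ z in ball (0:ℂ) ρ, ENNReal.ofReal (Lap u z) ≤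
      ENNReal.ofReal ((Mm u 1 - 2 * π * u 0) / (-Real.log ρ)) := by
  have hl : 0 < -Real.log ρ := by
    have := Real.log_neg h0 h1
    linarith
  have h2 : ENNReal.ofReal (-Real.log ρ) * ∫⁻ z in ball (0:ℂ) ρ, ENNReal.ofReal (Lap u z) ≤
      ENNReal.ofReal (Mm u 1 - 2 * π * u 0) := by
    rw [← jensen hu hL, ← lintegral_const_mul' _ _ ENNReal.ofReal_ne_top]
    calc _ ≤ ∫⁻ z in ball (0:ℂ) ρ, ENNReal.ofReal (-Real.log ‖z‖) * ENNReal.ofReal (Lap u z) := by
          refine lintegral_mono_ae ?_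
          filter_upwards [self_mem_ae_restrict measurableSet_ball, ae_restrict_of_ae
            (compl_mem_ae_iff.2 (measure_singleton (0:ℂ)))] with z hz hz0
          rw [mem_ball_zero_iff] at hz
          gcongr
      _ ≤ _ := lintegral_mono_set (ball_subset_ball h1.le)
  rw [ENNReal.ofReal_div_of_pos hl, ENNReal.le_div_iff_mul_le (Or.inl (by simpa using hl))
    (Or.inl ENNReal.ofReal_ne_top), mul_comm]
  exact h2

end

end Vale.Agent.P301.H794
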