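import Vale.Agent.P301.H794.Slope
import Vale.Agent.P301.H794.ExpCm

/-! P301, H794: uniform exponential integrability of all orders. -/

open scoped Manifold ContDiff ComplexOrder Topology ENNReal
open Filter Metric Set MeasureTheory

set_option linter.all false

noncomputable section

namespace Vale.Agent.P301.H794

open Vale.Agent.P272.K Vale.Agent.P272.K.QN Vale.Agent.P301.H599

variable {d : ℕ} {X : Type} [TopologicalSpace X] [ChartedSpace (Cm d) X]
  [IsManifold 𝓘(ℂ, Cm d) ω X] [CompactSpace X]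
  {F : Auto d X} {w : Fm d X} {A C₀ C₁ C₂ : ℝ}

lemma Fam.qpsh {v : X → ℝ} (hv : Fam F w A C₀ C₁ C₂ v) : QPsh w A (fun x => v x - C₀) := by
  refine ⟨hv.smooth.sub (Smooth.const _), fun e x hx => ?_, fun x => sub_nonpos.2 (hv.upper x)⟩
  have h3 := ddc_sub hv.smooth (Smooth.const C₀) e x hx
  have h4 := ddc_const (X := X) C₀ e x hx
  simp only [] at h3 h4
  rw [h4, sub_zero] at h3
  have h5 : cHess (fun z => v (e.symm z) - C₀) (e x) = cHess (fun z => v (e.symm z)) (e x) := h3
  rw [h5]
  exact hv.psd e x hx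

/-- uniform lower bound at a point of every chart ball -/
lemma exists_low [PreconnectedSpace X] (hw : IsKahler w) (hA : 0 ≤ A) {e : Chart d X}
    {c : Cm d} {R : ℝ} (hR : 0 < R) (hc : ball c R ⊆ e.target) :
    ∃ M : ℝ, ∀ v : X → ℝ, Fam F w A C₀ C₁ C₂ v → ∃ y ∈ ball c R, -M ≤ v (e.symm y) := by
  have hUo : IsOpen (e.source ∩ e ⁻¹' ball c R) := e.isOpen_inter_preimage isOpen_ball
  have hUn : (e.source ∩ e ⁻¹' ball c R).Nonempty := by
    refine ⟨e.symm c, e.map_target (hc (mem_ball_self hR)), ?_⟩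
    show e (e.symm c) ∈ ball c R
    rw [e.right_inv (hc (mem_ball_self hR))]
    exact mem_ball_self hR
  obtain ⟨M, hM⟩ := exists_lower_point (w := w) (subMean d) hw.toIsHermitian hA hUo hUn
    (C₂ + C₀)
  refine ⟨M - C₀, fun v hv => ?_⟩
  obtain ⟨i, hi⟩ := hv.orbit (e.symm c)
  obtain ⟨q, hq, hq'⟩ := hM _ hv.qpsh ⟨F^[i] (e.symm c), by linarith⟩
  refine ⟨e q, hq.2, ?_⟩
  rw [e.left_inv hq.1]
  linarith

/-- **Uniform exponential integrability.** -/
theorem exists_exp_bound [PreconnectedSpace X] (hw : IsKahler w) (hA : 0 ≤ A) {p : ℝ}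
    (hp : 0 ≤ p) {e : Chart d X} {x : X} (hx : At e x) :
    ∃ r : ℝ, 0 < r ∧ closedBall (e x) r ⊆ e.target ∧ ∃ K : ℝ≥0∞, K ≠ ⊤ ∧
      ∀ v : X → ℝ, Fam F w A C₀ C₁ C₂ v →
        ∫⁻ z in ball (e x) r, ENNReal.ofReal (Real.exp (-(p * v (e.symm z)))) ≤ K := by
  set c := e x with hcdef
  obtain ⟨R', hR', hRe⟩ := Metric.nhds_basis_closedBall.mem_iff.1 hx.nhds_target
  obtain ⟨R, hR, hR3⟩ : ∃ R : ℝ, 0 < R ∧ 3 * R ≤ R' := ⟨R' / 3, by positivity, by linarith⟩
  have hc3 : closedBall c (3 * R) ⊆ e.target := (closedBall_subset_closedBall hR3).trans hRe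
  have hc2 : closedBall c (2 * R) ⊆ e.target :=
    (closedBall_subset_closedBall (by linarith)).trans hc3
  obtain ⟨T, hT0, hT⟩ := exists_psd (F := F) (C₀ := C₀) (C₁ := C₁) (C₂ := C₂) hw hA hx.1
    (isCompact_closedBall c (3 * R)) hc3
  set a : ℝ := p * (T * d * R ^ 2) with ha
  have ha0 : 0 ≤ a := by positivity
  set δ : ℝ := 1 / (2 * (p + 1)) with hδ
  have hδ0 : 0 < δ := by positivity
  have hpδ : p * δ ≤ 1 / 2 := by
    rw [hδ, mul_one_div, div_le_div_iff₀ (by positivity) (by norm_num)]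
    linarith
  set s : ℝ := 2 * R * Real.exp (-(2 * (Real.log 32 + a))) with hs
  have hs0 : 0 < s := by positivity
  have hl32 : 0 < Real.log 32 := Real.log_pos (by norm_num)
  obtain ⟨r, hr0, hrs, hrR, hslope⟩ := exists_slope (F := F) (C₀ := C₀) (C₁ := C₁) (C₂ := C₂)
    hw hA hx.1 (c := c) (R₀ := 2 * R) (R₁ := 3 * R) (δ := δ) (s := s) (by positivity)
    (by linarith) hc3 hδ0 hs0
  obtain ⟨M, hM⟩ := exists_low (F := F) (C₀ := C₀) (C₁ := C₁) (C₂ := C₂) hw hA (e := e)
    (c := c) (R := 2 * R) (by positivity) (ball_subset_closedBall.trans hc2)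
  set L : ℝ := Real.log (2 * R / r) with hL
  have hLL : L = Real.log (2 * R) - Real.log r := Real.log_div (by positivity) hr0.ne'
  have hL1 : 2 * (Real.log 32 + a) ≤ L := by
    have h1 := Real.log_le_log hr0 hrs.le
    rw [hs, Real.log_mul (by positivity) (Real.exp_pos _).ne', Real.log_exp] at h1
    linarith
  have hL0 : 0 ≤ L := by linarith
  set B : ℝ := δ * L with hB
  have hB0 : 0 ≤ B := by positivity
  set q : ℝ := p * (B + T * d * R ^ 2) with hq
  have hq0 : 0 ≤ q := by positivity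
  set t : ℝ := Real.exp (-q) / 4 with ht
  have ht0 : 0 < t := by positivity
  have ht1 : 2 * t < 1 := by
    have : Real.exp (-q) ≤ 1 := Real.exp_le_one_iff.2 (by linarith)
    rw [ht]; linarith
  have htq : q ≤ -Real.log (2 * t) := by
    have h1 : 2 * t = Real.exp (-q) / 2 := by rw [ht]; ring
    rw [h1, Real.log_div (Real.exp_pos _).ne' (by norm_num), Real.log_exp]
    have := Real.log_pos (show (1:ℝ) < 2 by norm_num)
    linarith
  obtain ⟨K, hK, hKf⟩ := polydisc_exp d (R := R) (A := T) (B := B) (p := p) (r := t) hR hT0 hB0 hp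
    ht0 ht1 htq
  -- the radius
  have hrt : 2 * r ≤ t / 2 * R := by
    have h1 : 16 * r ≤ Real.exp (-q) * R := by
      rw [← Real.log_le_log_iff (by positivity) (by positivity),
        Real.log_mul (by norm_num) hr0.ne', Real.log_mul (Real.exp_pos _).ne' hR.ne', Real.log_exp]
      have h2 : Real.log r = Real.log 2 + Real.log R - L := by
        rw [hLL, Real.log_mul (by norm_num) hR.ne']; ring
      have h3 : Real.log 32 = Real.log 16 + Real.log 2 := by
        rw [← Real.log_mul (by norm_num) (by norm_num)]; norm_num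
      have h4 : q = p * δ * L + a := by rw [hq, hB, ha]; ring
      have h5 : p * δ * L ≤ 1 / 2 * L := mul_le_mul_of_nonneg_right hpδ hL0
      linarith
    rw [ht]; linarith
  have hr1 : r ≤ R := by
    have h1 : t / 2 * R ≤ R := by nlinarith
    linarith
  refine ⟨r, hr0, (closedBall_subset_closedBall (by linarith)).trans hc2,
    ENNReal.ofReal (Real.exp (p * M)) * K, ENNReal.mul_ne_top ENNReal.ofReal_ne_top hK,
    fun v hv => ?_⟩
  obtain ⟨z, hz, hzy⟩ := hslope v hv
  obtain ⟨y₀, hy₀, hy₀M⟩ := hM v hv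
  set N : ℝ := v (e.symm z) + B with hN
  have hNM : -M ≤ N := hy₀M.trans (hzy y₀ (ball_subset_closedBall hy₀))
  have hzd : dist z c ≤ r := hz
  have hsub2 : closedBall z R ⊆ closedBall c (2 * R) := by
    refine closedBall_subset_closedBall' ?_
    linarith
  have hsub3 : closedBall z R ⊆ closedBall c (3 * R) :=
    hsub2.trans (closedBall_subset_closedBall (by linarith))
  have hcd : ∀ y ∈ closedBall z R, ContDiffAt ℝ ∞ (fun y => v (e.symm y)) y := fun y hy =>
    hv.cd hx.1 (hc3 (hsub3 hy))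
  have key := hKf z (fun y => v (e.symm y) - N)
    (fun y hy => ((hcd y hy).of_le (by norm_cast)).sub contDiffAt_const)
    (fun y hy => by
      have h1 : cHess (fun y => v (e.symm y) - N) y = cHess (fun y => v (e.symm y)) y := by
        have h2 : ContDiffAt ℝ 2 (fun y => v (e.symm y)) y := (hcd y hy).of_le (by norm_cast)
        have h3 := cHess_sub h2 (contDiffAt_const (c := N))
        have h4 := C2.cHess_const (z := y) N
        rw [h4, sub_zero] at h3
        exact h3
      rw [h1]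
      exact hT v hv y (hsub3 hy))
    (fun y hy => by
      have := hzy y (hsub2 hy)
      linarith)
    (by linarith)
  have hbb : ball c r ⊆ ball z (t / 2 * R) := by
    refine ball_subset_ball' ?_
    rw [dist_comm]
    linarith
  calc ∫⁻ y in ball c r, ENNReal.ofReal (Real.exp (-(p * v (e.symm y))))
      ≤ ∫⁻ y in ball z (t / 2 * R), ENNReal.ofReal (Real.exp (-(p * v (e.symm y)))) :=
        lintegral_mono_set hbb
    _ = ∫⁻ y in ball z (t / 2 * R), ENNReal.ofReal (Real.exp (-(p * N))) *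
          ENNReal.ofReal (Real.exp (-(p * (v (e.symm y) - N)))) := by
        refine lintegral_congr fun y => ?_
        rw [← ENNReal.ofReal_mul (Real.exp_pos _).le, ← Real.exp_add]
        congr 2
        ring
    _ = ENNReal.ofReal (Real.exp (-(p * N))) *
          ∫⁻ y in ball z (t / 2 * R), ENNReal.ofReal (Real.exp (-(p * (v (e.symm y) - N)))) := by
        rw [lintegral_const_mul' _ _ ENNReal.ofReal_ne_top]
    _ ≤ ENNReal.ofReal (Real.exp (p * M)) * K := by
        refine mul_le_mul' (ENNReal.ofReal_le_ofReal (Real.exp_le_exp.2 ?_)) key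
        nlinarith

end Vale.Agent.P301.H794
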