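import Vale.Agent.P301.H794.Polar
import Mathlib.MeasureTheory.Measure.Haar.NormedSpace

/-! P301, H794: lower integrals over balls and affine scalings; the kernel `1/‖z‖`. -/

open Complex MeasureTheory Metric Set Filter Topology
open scoped Real ENNReal

set_option linter.all false

noncomputable section

namespace Vale.Agent.P301.H794

section
variable {E : Type*} [NormedAddCommGroup E] [NormedSpace ℝ E] [FiniteDimensional ℝ E]
  [MeasurableSpace E] [BorelSpace E] (μ : Measure E) [μ.IsAddHaarMeasure]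

/-- scaling of lower integrals over balls -/
lemma lintegral_ball_affine (c : E) {r : ℝ} (hr : 0 < r) (ρ : ℝ) (f : E → ℝ≥0∞) :
    ∫⁻ x in ball 0 ρ, f (c + r • x) ∂μ =
      ENNReal.ofReal ((r ^ Module.finrank ℝ E)⁻¹) * ∫⁻ y in ball c (r * ρ), f y ∂μ := by
  set F := (ball c (r * ρ)).indicator f with hF
  have h1 : ∀ x, F (c + r • x) = (ball (0:E) ρ).indicator (fun x => f (c + r • x)) x := by
    intro x
    have hiff : c + r • x ∈ ball c (r * ρ) ↔ x ∈ ball (0:E) ρ := by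
      rw [mem_ball_iff_norm, add_sub_cancel_left, norm_smul, Real.norm_eq_abs, abs_of_pos hr,
        mem_ball_zero_iff]
      exact ⟨fun h => lt_of_mul_lt_mul_left h hr.le, fun h => mul_lt_mul_of_pos_left h hr⟩
    by_cases hx : x ∈ ball (0:E) ρ
    · rw [hF, indicator_of_mem (hiff.2 hx), indicator_of_mem hx]
    · rw [hF, indicator_of_notMem (fun h => hx (hiff.1 h)), indicator_of_notMem hx]
  have h2 : ∫⁻ x, F (c + r • x) ∂μ = ENNReal.ofReal ((r ^ Module.finrank ℝ E)⁻¹) *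
      ∫⁻ y, F y ∂μ := by
    have e1 := lintegral_map_equiv (μ := μ) (fun y => F (c + y))
      (Homeomorph.smulOfNeZero r hr.ne').toMeasurableEquiv
    have e2 : Measure.map (⇑(Homeomorph.smulOfNeZero r hr.ne').toMeasurableEquiv) μ =
        Measure.map (r • ·) μ := rfl
    rw [e2, Measure.map_addHaar_smul μ hr.ne', lintegral_smul_measure] at e1
    have e3 : ∫⁻ y, F (c + y) ∂μ = ∫⁻ y, F y ∂μ := lintegral_add_left_eq_self F c
    rw [e3, abs_of_pos (by positivity)] at e1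
    exact e1.symm
  have h3 : ∫⁻ x, F (c + r • x) ∂μ = ∫⁻ x in ball 0 ρ, f (c + r • x) ∂μ := by
    rw [← lintegral_indicator measurableSet_ball]
    exact lintegral_congr h1
  have h4 : ∫⁻ y, F y ∂μ = ∫⁻ y in ball c (r * ρ), f y ∂μ := by
    rw [hF, lintegral_indicator measurableSet_ball]
  rw [← h3, h2, h4]

/-- translation -/
lemma lintegral_ball_translate (c : E) (ρ : ℝ) (f : E → ℝ≥0∞) :
    ∫⁻ x in ball 0 ρ, f (c + x) ∂μ = ∫⁻ y in ball c ρ, f y ∂μ := by
  have := lintegral_ball_affine μ c one_pos ρ f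
  simpa using this

end

/-- the kernel `1/‖z‖` on discs -/
lemma lintegral_inv_norm (ρ : ℝ) (hρ : 0 ≤ ρ) :
    ∫⁻ z in ball (0:ℂ) ρ, ENNReal.ofReal (1 / ‖z‖) = ENNReal.ofReal (2 * π * ρ) := by
  rw [lintegral_disc (f := fun z => ENNReal.ofReal (1 / ‖z‖)) (by fun_prop)]
  have h : ∀ t ∈ Ioo 0 ρ, ENNReal.ofReal t * ∫⁻ θ in Ioo (-π) π,
      ENNReal.ofReal (1 / ‖(t : ℂ) * cexp (θ * I)‖) = ENNReal.ofReal (2 * π) := by
    intro t ht
    have hn : ∀ θ : ℝ, ‖(t : ℂ) * cexp (θ * I)‖ = t := by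
      intro θ
      rw [norm_mul, Complex.norm_exp_ofReal_mul_I, mul_one, Complex.norm_real, Real.norm_eq_abs,
        abs_of_pos ht.1]
    simp only [hn]
    rw [setLIntegral_const, Real.volume_Ioo, ← ENNReal.ofReal_mul (by have := ht.1; positivity),
      ← ENNReal.ofReal_mul ht.1.le]
    congr 1
    have := ht.1.ne'
    field_simp
    ring
  rw [setLIntegral_congr_fun measurableSet_Ioo h, setLIntegral_const, Real.volume_Ioo,
    ← ENNReal.ofReal_mul (by positivity)]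
  congr 1
  ring

lemma lintegral_inv_norm_sub {w : ℂ} {r : ℝ} (hw : ‖w‖ ≤ 1) (hr : r ≤ 1) :
    ∫⁻ z in ball (0:ℂ) r, ENNReal.ofReal (1 / ‖w - z‖) ≤ ENNReal.ofReal (4 * π) := by
  have h1 : ∫⁻ z in ball w 2, ENNReal.ofReal (1 / ‖w - z‖) =
      ∫⁻ x in ball (0:ℂ) 2, ENNReal.ofReal (1 / ‖w - (w + x)‖) :=
    (lintegral_ball_translate volume w 2 (fun z => ENNReal.ofReal (1 / ‖w - z‖))).symm
  have h2 : ∫⁻ x in ball (0:ℂ) 2, ENNReal.ofReal (1 / ‖w - (w + x)‖) =
      ∫⁻ x in ball (0:ℂ) 2, ENNReal.ofReal (1 / ‖x‖) := by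
    refine lintegral_congr fun x => ?_
    have : ‖w - (w + x)‖ = ‖x‖ := by rw [show w - (w + x) = -x by ring, norm_neg]
    rw [this]
  calc ∫⁻ z in ball (0:ℂ) r, ENNReal.ofReal (1 / ‖w - z‖)
      ≤ ∫⁻ z in ball w 2, ENNReal.ofReal (1 / ‖w - z‖) := by
        refine lintegral_mono_set ?_
        intro z hz
        rw [mem_ball_zero_iff] at hz
        rw [mem_ball_iff_norm]
        calc ‖z - w‖ ≤ ‖z‖ + ‖w‖ := norm_sub_le _ _
          _ < 2 := by linarith
    _ = ENNReal.ofReal (4 * π) := by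
        rw [h1, h2, lintegral_inv_norm 2 (by norm_num)]
        congr 1; ring

end Vale.Agent.P301.H794
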