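import Vale.Agent.P301.H794.NoPole

/-! P301, H794: uniform smallness of the logarithmic slopes. -/

open scoped Manifold ContDiff ComplexOrder Topology
open Filter Metric Set

set_option linter.all false

noncomputable section

namespace Vale.Agent.P301.H794

open Vale.Agent.P272.K Vale.Agent.P272.K.QN Vale.Agent.P301.H599

variable {d : ℕ}

/-- smooth plurisubharmonic functions -/
lemma isPSH_smooth {Ω : Set (Cm d)} {f : Cm d → ℝ} (hf : ∀ z ∈ Ω, ContDiffAt ℝ ∞ f z)
    (hH : ∀ z ∈ Ω, (cHess f z).PosSemidef) : H599.IsPSH Ω (fun z => ((f z : ℝ) : EReal)) := by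
  have hc : ∀ z ∈ Ω, ContinuousAt f z := fun z hz => (hf z hz).continuousAt
  refine ⟨?_, fun z _ => EReal.coe_ne_top _, fun a b hab g hg hm => ?_⟩
  · refine ContinuousOn.upperSemicontinuousOn ?_
    exact continuous_coe_real_ereal.comp_continuousOn fun z hz => (hc z hz).continuousWithinAt
  · have h1 := smooth_submean (f := f) (a := a) (b := b) (ε := 0) (fun ζ hζ => hf _ (hab ζ hζ))
      (fun ζ hζ => by
        rw [Complex.ofReal_zero, zero_smul, add_zero]
        exact hH _ (hab ζ hζ))
    rw [abs_zero, zero_mul, add_zero] at h1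
    have hgi : CircleIntegrable (fun ζ => f (a + ζ • b)) 0 1 := by
      apply ContinuousOn.circleIntegrable (by norm_num)
      intro ζ hζ
      have hζ1 : ‖ζ‖ ≤ 1 := by
        have : ‖ζ‖ = 1 := by simpa using hζ
        exact this.le
      have c1 : ContinuousAt f (a + ζ • b) := hc _ (hab ζ hζ1)
      have c2 : ContinuousAt (fun ζ : ℂ => a + ζ • b) ζ := by fun_prop
      exact (ContinuousAt.comp (f := fun ζ : ℂ => a + ζ • b) c1 c2).continuousWithinAt
    have h2 : Real.circleAverage (fun ζ => f (a + ζ • b)) 0 1 ≤ Real.circleAverage g 0 1 := by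
      apply Real.circleAverage_mono hgi (hg.continuousOn.circleIntegrable (by norm_num))
      intro ζ hζ
      rw [abs_one] at hζ
      exact EReal.coe_le_coe_iff.1 (hm ζ (by simpa using hζ))
    exact EReal.coe_le_coe_iff.2 (h1.trans h2)

variable {X : Type} [TopologicalSpace X] [ChartedSpace (Cm d) X]
  [IsManifold 𝓘(ℂ, Cm d) ω X] [CompactSpace X]
  {F : Auto d X} {w : Fm d X} {A C₀ C₁ C₂ : ℝ}

/-- **Uniform slopes.** -/
theorem exists_slope (hw : IsKahler w) (hA : 0 ≤ A) {e : Chart d X}
    (he : e ∈ atlas (Cm d) X) {c : Cm d} {R₀ R₁ δ s : ℝ} (hR₀ : 0 < R₀) (h01 : R₀ < R₁)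
    (hc : closedBall c R₁ ⊆ e.target) (hδ : 0 < δ) (hs : 0 < s) :
    ∃ r : ℝ, 0 < r ∧ r < s ∧ r < R₀ ∧ ∀ v : X → ℝ, Fam F w A C₀ C₁ C₂ v →
      ∃ z ∈ closedBall c r, ∀ y ∈ closedBall c R₀,
        v (e.symm y) ≤ v (e.symm z) + δ * Real.log (R₀ / r) := by
  by_contra! hcon
  -- the radii
  set m : ℝ := min s R₀ with hm
  have hm0 : 0 < m := lt_min hs hR₀
  set r : ℕ → ℝ := fun j => m / (j + 2) with hr
  have hr0 : ∀ j, 0 < r j := fun j => by positivity
  have hrm : ∀ j, r j < m := fun j => by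
    rw [hr]; simp only []
    rw [div_lt_iff₀ (by positivity)]
    have : (0 : ℝ) ≤ j := Nat.cast_nonneg j
    nlinarith
  have hrt : Tendsto r atTop (𝓝 0) := by
    have h1 : Tendsto (fun j : ℕ => (j : ℝ) + 2) atTop atTop :=
      tendsto_atTop_add_const_right _ _ tendsto_natCast_atTop_atTop
    exact tendsto_const_nhds.div_atTop h1
  choose v hv hvz using fun j => hcon (r j) (hr0 j) ((hrm j).trans_le (min_le_left _ _))
    ((hrm j).trans_le (min_le_right _ _))
  have hsub : closedBall c R₀ ⊆ closedBall c R₁ := closedBall_subset_closedBall h01.le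
  obtain ⟨T, hT0, hT⟩ := exists_psd (F := F) (C₀ := C₀) (C₁ := C₁) (C₂ := C₂) hw hA he
    (isCompact_closedBall c R₁) hc
  set D : ℝ := T * (d * (‖c‖ + R₀) ^ 2) with hD
  have hnq : ∀ z ∈ closedBall c R₀, T * nq z ≤ D := by
    intro z hz
    refine mul_le_mul_of_nonneg_left (nq_le z ?_) hT0
    have h2 : ‖z - c‖ ≤ R₀ := by rwa [mem_closedBall, dist_eq_norm] at hz
    have h3 := norm_sub_norm_le z c
    linarith
  have hnq0 : ∀ z : Cm d, 0 ≤ T * nq z := fun z => mul_nonneg hT0 (nq_nonneg z)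
  have hD0 : 0 ≤ D := by positivity
  -- the maxima
  have hmax : ∀ j, ∃ M : ℝ, M ≤ C₀ ∧ (∀ z ∈ closedBall c R₀, v j (e.symm z) ≤ M) ∧
      ∀ z ∈ closedBall c (r j), v j (e.symm z) ≤ M + δ * (Real.log (r j) - Real.log R₀) := by
    intro j
    have hcont : ContinuousOn (fun z => v j (e.symm z)) (closedBall c R₀) := fun z hz =>
      ((hv j).cd he (hc (hsub hz))).continuousAt.continuousWithinAt
    obtain ⟨y, hy, hymax⟩ := (isCompact_closedBall c R₀).exists_isMaxOn
      ⟨c, mem_closedBall_self hR₀.le⟩ hcont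
    refine ⟨v j (e.symm y), (hv j).upper _, fun z hz => hymax hz, fun z hz => ?_⟩
    obtain ⟨y', hy', h1⟩ := hvz j z hz
    have h2 : v j (e.symm y') ≤ v j (e.symm y) := hymax hy'
    rw [Real.log_div hR₀.ne' (hr0 j).ne'] at h1
    linarith
  choose M hMC hM1 hM2 using hmax
  -- the estimate
  have main : ∀ j, ∀ ρ : ℝ, r j ≤ ρ → ρ ≤ R₀ → ∀ z ∈ closedBall c ρ,
      v j (e.symm z) ≤ C₀ + D + δ * (Real.log ρ - Real.log R₀) := by
    intro j ρ hρ1 hρ2 z hz
    have hz' : ‖z - c‖ ≤ ρ := by rwa [mem_closedBall, dist_eq_norm] at hz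
    by_cases hzr : ‖z - c‖ < r j
    · have h1 := hM2 j z (by rw [mem_closedBall, dist_eq_norm]; exact hzr.le)
      have h2 := Real.log_le_log (hr0 j) hρ1
      have h3 := hMC j
      nlinarith
    · rw [not_lt] at hzr
      have hpsh : H599.IsPSH (ball c R₁) (fun z => ((v j (e.symm z) + T * nq z : ℝ) : EReal)) := by
        have hc' : ∀ z : Cm d, ContDiffAt ℝ ∞ (fun z : Cm d => T * nq z) z := fun z =>
          contDiffAt_const.mul contDiff_nq.contDiffAt
        refine isPSH_smooth (f := fun z => v j (e.symm z) + T * nq z)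
          (fun z hz => ((hv j).cd he (hc (ball_subset_closedBall hz))).add (hc' z))
          fun z hz => ?_
        exact psd_nq (((hv j).cd he (hc (ball_subset_closedBall hz))).of_le (by norm_cast))
          (hT _ (hv j) z (ball_subset_closedBall hz))
      have key := H474.IsPSH.annulus (a := c) (R := R₁) (r₁ := r j) (r₂ := R₀)
        (A := M j + D - δ * Real.log R₀) (B := δ) hpsh (hr0 j) h01 ?_ ?_ z hzr (hz'.trans hρ2)
      · rw [EReal.coe_le_coe_iff] at key
        have h2 := Real.log_le_log ((hr0 j).trans_le hzr) hz'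
        have h3 := hMC j
        have h4 := hnq0 z
        nlinarith
      · intro y hy
        rw [EReal.coe_le_coe_iff]
        have h1 := hM2 j y (by rw [mem_closedBall, dist_eq_norm, hy])
        have h2 := hnq y (by
          rw [mem_closedBall, dist_eq_norm, hy]
          exact ((hrm j).trans_le (min_le_right _ _)).le)
        linarith
      · intro y hy
        rw [EReal.coe_le_coe_iff]
        have h0 : y ∈ closedBall c R₀ := by rw [mem_closedBall, dist_eq_norm, hy]
        have h1 := hM1 j y h0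
        have h2 := hnq y h0
        linarith
  -- the pole
  have hct : c ∈ e.target := hc (mem_closedBall_self (hR₀.le.trans h01.le))
  have hat : At e (e.symm c) := At.of_target he hct
  have hmem : e.symm c ∈ PoleSet (d := d) v δ := by
    refine ⟨e, hat, ?_⟩
    rw [e.right_inv hct]
    refine ⟨C₀ + D - δ * Real.log R₀, ?_⟩
    filter_upwards [Ioo_mem_nhdsGT hR₀] with ρ hρ z hz
    have hzt : z ∈ e.target := hc (hsub (ball_subset_closedBall.trans
      (closedBall_subset_closedBall hρ.2.le) hz))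
    show LS v (e.symm z) ≤ _
    rw [LS_chart v hzt]
    refine LS_le' ?_
    have h1 : ∀ᶠ j : ℕ in atTop, r j ≤ ρ := hrt.eventually_le_const hρ.1
    have h2 : ∀ᶠ y in 𝓝 z, y ∈ ball c ρ := isOpen_ball.mem_nhds hz
    filter_upwards [h1.prod_mk h2] with p hp
    have h3 := main p.1 ρ hp.1 hρ.2.le p.2 (ball_subset_closedBall hp.2)
    linarith
  rw [poleSet_empty hw hA hv hδ] at hmem
  exact hmem

end Vale.Agent.P301.H794
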