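import Vale.Agent.P301.H862.Glob

/-! P301, H794: the formal adjoint in coordinates. -/

open scoped Manifold ContDiff ComplexOrder Topology Matrix
open Vale.Agent.P272.K Vale.Agent.P272.K.C2 Vale.Agent.P299.H954 Vale.Agent.P299.IX
open Vale.Agent.P299.IX.Fock Vale.Agent.P301.H599 Vale.Agent.P301.H862 MeasureTheory Set Filter

set_option linter.all false

noncomputable section

namespace Vale.Agent.P301.H794

section loc

variable {n : ℕ} {w : Cm n → Matrix (Fin n) (Fin n) ℂ} {z : Cm n} {a b : Cm n → FI n → ℂ}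

/-- the form `η` with `⟨u, b⟩ det w = Σ u_I η_I` -/
def eta (w : Cm n → Matrix (Fin n) (Fin n) ℂ) (b : Cm n → FI n → ℂ) (z : Cm n) (I : FI n) : ℂ :=
  rho 0 w z * ∑ J, Ld w z J I * (starRingEnd ℂ) (b z J)

lemma hp_eq_eta (u : FI n → ℂ) : hp 0 w z u (b z) = ∑ I, u I * eta w b z I := by
  unfold hp eta pr
  simp only [Matrix.mulVec, dotProduct, Finset.sum_mul, Finset.mul_sum]
  rw [Finset.sum_comm]
  refine Finset.sum_congr rfl fun I _ => Finset.sum_congr rfl fun J _ => ?_
  ring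

lemma VC_eta {m : WithTop ℕ∞} (hm : m ≤ ∞) (h : KAt w z) (hb : VC m b z) : VC m (eta w b) z := by
  intro I
  refine ((contDiffAt_rho h).of_le hm).mul (ContDiffAt.sum fun J _ => ?_)
  exact ((MC_Ld h J I).of_le hm).mul (Complex.conjCLE.contDiff.contDiffAt.comp z (hb J))

/-- **`δ` in coordinates**: `⟨u, δb⟩ det w = - Σ_l Σ_I (dz_l ∧ u)_I ∂_l η_I` -/
theorem hp_De (h : KAt w z) (ha : VC 1 a z) (hb : VC 1 b z) :
    hp 0 w z (a z) (De w b z) = -∑ l, ∑ I, (eps l *ᵥ a z) I * DV l (eta w b) z I := by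
  have h1 := div_one (k := 0) h ha hb
  have hη : VC 1 (eta w b) z := VC_eta (by exact_mod_cast le_top) h hb
  have h2 : ∀ l, dz l (fun y => hp 0 w y (eps l *ᵥ a y) (b y)) z =
      ∑ I, ((eps l *ᵥ DV l a z) I * eta w b z I + (eps l *ᵥ a z) I * DV l (eta w b) z I) := by
    intro l
    have e1 : (fun y => hp 0 w y (eps l *ᵥ a y) (b y)) =
        fun y => ∑ I, (eps l *ᵥ a y) I * eta w b y I := by
      funext y; exact hp_eq_eta _
    have hea : VC 1 (fun y => eps l *ᵥ a y) z := VC_constMul (eps l) ha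
    have hm : ∀ I ∈ (Finset.univ : Finset (FI n)),
        DifferentiableAt ℝ (fun y => (eps l *ᵥ a y) I * eta w b y I) z := fun I _ =>
      (hea.d one_ne_zero I).mul (hη.d one_ne_zero I)
    rw [e1, dz_sum _ hm]
    refine Finset.sum_congr rfl fun I _ => ?_
    rw [dz_mul l (hea.d one_ne_zero I) (hη.d one_ne_zero I)]
    have e2 : dz l (fun y => (eps l *ᵥ a y) I) z = (eps l *ᵥ DV l a z) I := by
      rw [← DV_constMul (eps l) ha]; rfl
    rw [e2]
    rfl
  have h3 : hp 0 w z (Dp 0 w a z) (b z) = ∑ l, ∑ I, (eps l *ᵥ DV l a z) I * eta w b z I := by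
    rw [Dp_zero, hp_sum_left]
    exact Finset.sum_congr rfl fun l _ => hp_eq_eta _
  rw [h3] at h1
  simp only [h2, Finset.sum_add_distrib] at h1
  linear_combination h1

end loc

end Vale.Agent.P301.H794
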