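import Vale.Agent.P301.H794.ZGlob

/-! P301, H794: division of a weak equation by a holomorphic function (local form). -/

open scoped Manifold ContDiff ComplexOrder Topology Matrix ENNReal
open Vale.Agent.P272.K Vale.Agent.P272.K.C2 Vale.Agent.P299.H954 Vale.Agent.P299.IX
open Vale.Agent.P299.IX.Fock Vale.Agent.P301.H599 Vale.Agent.P301.H862 MeasureTheory Set Filter

set_option linter.all false

noncomputable section

namespace Vale.Agent.P301.H794

section reg

variable {d : ℕ} {s : Cm d → ℂ} {t : ℝ}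

/-- regularised inverse of `s` -/
def kinv (s : Cm d → ℂ) (t : ℝ) (z : Cm d) : ℂ :=
  (starRingEnd ℂ) (s z) / (s z * (starRingEnd ℂ) (s z) + t)

lemma kden_eq (c : ℂ) : c * (starRingEnd ℂ) c + t = ((‖c‖ ^ 2 + t : ℝ) : ℂ) := by
  rw [Complex.mul_conj, Complex.normSq_eq_norm_sq]
  push_cast
  rfl

lemma kden_ne (ht : 0 < t) (c : ℂ) : c * (starRingEnd ℂ) c + t ≠ 0 := by
  rw [kden_eq]
  exact_mod_cast (by positivity : (‖c‖ ^ 2 + t) ≠ 0)

lemma s_kinv (z : Cm d) : s z * kinv s t z = ((‖s z‖ ^ 2 / (‖s z‖ ^ 2 + t) : ℝ) : ℂ) := by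
  unfold kinv
  rw [kden_eq, mul_div_assoc', Complex.mul_conj, Complex.normSq_eq_norm_sq]
  push_cast
  rfl

lemma norm_s_kinv (ht : 0 < t) (z : Cm d) : ‖s z * kinv s t z‖ ≤ 1 := by
  rw [s_kinv, Complex.norm_real, Real.norm_eq_abs, abs_of_nonneg (by positivity)]
  exact div_le_one_of_le₀ (by linarith) (by positivity)

lemma tendsto_s_kinv {z : Cm d} (h : s z ≠ 0) {t : ℕ → ℝ} (ht : Tendsto t atTop (𝓝 0)) :
    Tendsto (fun n => s z * kinv s (t n) z) atTop (𝓝 1) := by
  simp only [s_kinv]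
  have h1 : ‖s z‖ ^ 2 ≠ 0 := by positivity
  have h2 : Tendsto (fun n => ‖s z‖ ^ 2 / (‖s z‖ ^ 2 + t n)) atTop (𝓝 1) := by
    have h3 := (tendsto_const_nhds (x := ‖s z‖ ^ 2)).div
      ((tendsto_const_nhds (x := ‖s z‖ ^ 2)).add ht) (by rw [add_zero]; exact h1)
    rw [add_zero, div_self h1] at h3
    exact h3
  have h4 := (Complex.continuous_ofReal.tendsto 1).comp h2
  rw [Complex.ofReal_one] at h4
  exact h4

lemma contDiffAt_kinv (ht : 0 < t) {z : Cm d} (hs : ContDiffAt ℝ ∞ s z) :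
    ContDiffAt ℝ ∞ (kinv s t) z := by
  have h1 : ContDiffAt ℝ ∞ (fun y => (starRingEnd ℂ) (s y)) z :=
    Complex.conjCLE.contDiff.contDiffAt.comp z hs
  have h2 : ContDiffAt ℝ ∞ (fun y => s y * (starRingEnd ℂ) (s y) + (t : ℂ)) z :=
    (hs.mul h1).add contDiffAt_const
  have h3 := h1.mul (h2.inv (kden_ne ht _))
  refine h3.congr_of_eventuallyEq (Eventually.of_forall fun y => ?_)
  exact div_eq_mul_inv _ _

lemma dz_kinv (ht : 0 < t) {z : Cm d} (hs : ContDiffAt ℂ ω s z) (l : Fin d) :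
    dz l (kinv s t) z = -(kinv s t z) ^ 2 * dz l s z := by
  have hsR : DifferentiableAt ℝ s z :=
    (hs.differentiableAt (by simp)).restrictScalars ℝ
  have hc : DifferentiableAt ℝ (fun y => (starRingEnd ℂ) (s y)) z :=
    Complex.conjCLE.differentiableAt.comp z hsR
  have hsS : ContDiffAt ℝ ∞ s z := (hs.restrict_scalars ℝ).of_le (by exact_mod_cast le_top)
  have hk : DifferentiableAt ℝ (kinv s t) z :=
    (contDiffAt_kinv ht hsS).differentiableAt (by simp)
  have hden : DifferentiableAt ℝ (fun y => s y * (starRingEnd ℂ) (s y)) z := hsR.mul hc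
  have hdc : dz l (fun y => (starRingEnd ℂ) (s y)) z = 0 := by
    rw [dz_conj l hsR, dzb_of_holo (hs.differentiableAt (by simp)), map_zero]
  have h1 : dz l (fun y => kinv s t y * (s y * (starRingEnd ℂ) (s y) + t)) z = 0 := by
    have : (fun y => kinv s t y * (s y * (starRingEnd ℂ) (s y) + t)) =
        fun y => (starRingEnd ℂ) (s y) := by
      funext y
      exact div_mul_cancel₀ _ (kden_ne ht _)
    rw [this, hdc]
  have h2 : dz l (fun y => s y * (starRingEnd ℂ) (s y) + (t : ℂ)) z =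
      dz l s z * (starRingEnd ℂ) (s z) := by
    rw [dz_add l hden (differentiableAt_const _), dz_mul l hsR hc, hdc, C2.dz_const]
    ring
  have hden' : DifferentiableAt ℝ (fun y => s y * (starRingEnd ℂ) (s y) + (t : ℂ)) z :=
    hden.add (differentiableAt_const _)
  rw [dz_mul l hk hden', h2] at h1
  have hne := kden_ne (t := t) ht (s z)
  have h3 : kinv s t z * (s z * (starRingEnd ℂ) (s z) + t) = (starRingEnd ℂ) (s z) :=
    div_mul_cancel₀ _ hne
  have h4 : dz l (kinv s t) z * (s z * (starRingEnd ℂ) (s z) + t) =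
      (-(kinv s t z) ^ 2 * dz l s z) * (s z * (starRingEnd ℂ) (s z) + t) := by
    linear_combination h1 + kinv s t z * dz l s z * h3
  exact mul_right_cancel₀ hne h4

end reg

section main

variable {d : ℕ} {A : Type*} [Fintype A] {Ω : Set (Cm d)} {f : Cm d → ℝ} {s : Cm d → ℂ}
variable {U : A → Fin d → Cm d → ℂ} {γ : A → Cm d → ℂ} {B : Fin d → Cm d → ℂ}

/-- a locally integrable weight times a continuous function with compact support -/
lemma integrable_test {C : Set (Cm d)} (hΩ : IsOpen Ω) (hC : IsCompact C) (hCd : C ⊆ Ω)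
    (hf : ∀ K ⊆ Ω, IsCompact K → IntegrableOn f K) {G : Cm d → ℂ}
    (hG : ContinuousOn G Ω) (hG0 : ∀ z ∈ Ω, z ∉ C → G z = 0) :
    IntegrableOn (fun z => (f z : ℂ) * G z) Ω := by
  obtain ⟨b, hb⟩ := hC.exists_bound_of_continuousOn (hG.mono hCd)
  have h2 : IntegrableOn (fun z => (f z : ℂ) * G z) C :=
    ((hf C hCd hC).ofReal).mul_bdd ((hG.mono hCd).aestronglyMeasurable hC.measurableSet)
      ((ae_restrict_iff' hC.measurableSet).2 (Eventually.of_forall hb))
  refine h2.of_forall_sdiff_eq_zero hΩ.measurableSet fun z hz => ?_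
  rw [hG0 z hz.1 hz.2, mul_zero]

/-- the zeroth order term -/
def zH (s : Cm d → ℂ) (U : A → Fin d → Cm d → ℂ) (γ : A → Cm d → ℂ) (B : Fin d → Cm d → ℂ)
    (z : Cm d) : ℂ :=
  ∑ α, ∑ l, U α l z * dz l (γ α) z - ∑ l, B l z * dz l s z

/-- **The local analytic theorem.** -/
theorem z_local (hΩ : IsOpen Ω) (hf : ∀ K ⊆ Ω, IsCompact K → IntegrableOn f K)
    (hs : ∀ z ∈ Ω, ContDiffAt ℂ ω s z) (hs0 : ∀ᵐ z ∂(volume.restrict Ω), s z ≠ 0)
    (hU : ∀ α l, ∀ z ∈ Ω, ContDiffAt ℂ ω (U α l) z) (hγ : ∀ α, ∀ z ∈ Ω, ContDiffAt ℂ ω (γ α) z)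
    (hB : ∀ l, ∀ z ∈ Ω, ContDiffAt ℂ ω (B l) z)
    (hrel : ∀ z ∈ Ω, ∀ l, s z * B l z = ∑ α, γ α z * U α l z)
    (hW : ∀ α, ∀ ξ : Cm d → ℂ, ContDiff ℝ ∞ ξ → HasCompactSupport ξ → tsupport ξ ⊆ Ω →
      ∫ z in Ω, (f z : ℂ) * ∑ l, s z * U α l z * dz l ξ z = 0)
    {ξ : Cm d → ℂ} (hξ : ContDiff ℝ ∞ ξ) (hξc : HasCompactSupport ξ) (hξΩ : tsupport ξ ⊆ Ω) :
    ∫ z in Ω, (f z : ℂ) * (∑ l, s z * B l z * dz l ξ z + zH s U γ B z * ξ z) = 0 := by
  have toR : ∀ {F : Cm d → ℂ} {z : Cm d}, ContDiffAt ℂ ω F z → ContDiffAt ℝ ∞ F z :=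
    fun h => (h.restrict_scalars ℝ).of_le (by exact_mod_cast le_top)
  have cdz : ∀ {F : Cm d → ℂ} {z : Cm d} (l : Fin d), ContDiffAt ℝ ∞ F z →
      ContinuousAt (dz l F) z := fun l h =>
    (contDiffAt_dz (m := 0) l (h.of_le (by norm_cast)) (by norm_num)).continuousAt
  -- the identity for multiples of `s`
  have step : ∀ k : Cm d → ℂ, (∀ z ∈ Ω, ContDiffAt ℝ ∞ k z) →
      ∫ z in Ω, (f z : ℂ) * (∑ l, s z * (s z * B l z) * (dz l k z * ξ z + k z * dz l ξ z) +
        s z * k z * (∑ α, ∑ l, U α l z * dz l (γ α) z) * ξ z) = 0 := by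
    intro k hk
    have hξz : ∀ z ∈ Ω, z ∉ tsupport ξ → ξ z = 0 := fun z _ h => image_eq_zero_of_notMem_tsupport h
    have hte := fun α => ext_smooth (Ω := Ω) (C := tsupport ξ) hξc hξΩ hΩ
      (V := fun z => γ α z * (k z * ξ z))
      (fun z hz => (toR (hγ α z hz)).mul ((hk z hz).mul hξ.contDiffAt))
      (fun z hz h => by simp only [hξz z hz h, mul_zero])
    have h1 := fun α => hW α _ (hte α).1 (hte α).2.1 ((hte α).2.2.1.trans hξΩ)
    have hI : ∀ α, IntegrableOn (fun z => (f z : ℂ) * ∑ l, s z * U α l z *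
        dz l (Ω.indicator fun z => γ α z * (k z * ξ z)) z) Ω := by
      intro α
      refine integrable_test hΩ hξc hξΩ hf (fun z hz => ?_) fun z hz h => ?_
      · exact (tendsto_finsetSum _ fun l _ => (((toR (hs z hz)).continuousAt).mul
          ((toR (hU α l z hz)).continuousAt)).mul
          (cdz l (hte α).1.contDiffAt)).mono_left nhdsWithin_le_nhds
      · have h3 : (Ω.indicator fun z => γ α z * (k z * ξ z)) =ᶠ[𝓝 z] fun _ => 0 :=
          notMem_tsupport_iff_eventuallyEq.1 fun h' => h ((hte α).2.2.1 h')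
        simp only [C2.dz_congr _ h3, C2.dz_const, mul_zero, Finset.sum_const_zero]
    have h2 : ∫ z in Ω, ∑ α, (f z : ℂ) * ∑ l, s z * U α l z *
        dz l (Ω.indicator fun z => γ α z * (k z * ξ z)) z = 0 := by
      rw [integral_finsetSum _ fun α _ => hI α]
      exact Finset.sum_eq_zero fun α _ => h1 α
    rw [← h2]
    refine setIntegral_congr_fun hΩ.measurableSet fun z hz => ?_
    have hd : ∀ α l, dz l (Ω.indicator fun z => γ α z * (k z * ξ z)) z =
        dz l (γ α) z * (k z * ξ z) + γ α z * (dz l k z * ξ z + k z * dz l ξ z) := by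
      intro α l
      have e1 : DifferentiableAt ℝ (γ α) z := (toR (hγ α z hz)).differentiableAt (by simp)
      have e2 : DifferentiableAt ℝ k z := (hk z hz).differentiableAt (by simp)
      have e3 : DifferentiableAt ℝ ξ z := hξ.contDiffAt.differentiableAt (by simp)
      have e4 : DifferentiableAt ℝ (fun y => k y * ξ y) z := e2.mul e3
      rw [C2.dz_congr l ((hte α).2.2.2 z hz), dz_mul l e1 e4, dz_mul l e2 e3]
    simp only [hd]
    rw [← Finset.mul_sum]
    congr 1
    have e1 : ∀ α, ∑ l, s z * U α l z * (dz l (γ α) z * (k z * ξ z) +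
        γ α z * (dz l k z * ξ z + k z * dz l ξ z)) =
        s z * k z * (∑ l, U α l z * dz l (γ α) z) * ξ z +
          ∑ l, s z * (γ α z * U α l z) * (dz l k z * ξ z + k z * dz l ξ z) := by
      intro α
      rw [Finset.mul_sum, Finset.sum_mul, ← Finset.sum_add_distrib]
      exact Finset.sum_congr rfl fun l _ => by ring
    have e2 : ∑ l, s z * (s z * B l z) * (dz l k z * ξ z + k z * dz l ξ z) =
        ∑ α, ∑ l, s z * (γ α z * U α l z) * (dz l k z * ξ z + k z * dz l ξ z) := by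
      rw [Finset.sum_comm]
      refine Finset.sum_congr rfl fun l _ => ?_
      rw [hrel z hz l, ← Finset.sum_mul, ← Finset.mul_sum]
    rw [Finset.sum_congr rfl fun α _ => e1 α, Finset.sum_add_distrib, e2, add_comm,
      ← Finset.sum_mul, ← Finset.mul_sum]
  -- regularisation
  set t : ℕ → ℝ := fun n => 1 / ((n : ℝ) + 1) with ht
  have htp : ∀ n, 0 < t n := fun n => by positivity
  have ht0 : Tendsto t atTop (𝓝 0) := tendsto_one_div_add_atTop_nhds_zero_nat
  set P : Cm d → ℂ := fun z => ∑ l, s z * B l z * dz l ξ z +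
    (∑ α, ∑ l, U α l z * dz l (γ α) z) * ξ z with hP
  set Q : Cm d → ℂ := fun z => (∑ l, B l z * dz l s z) * ξ z with hQ
  have hn : ∀ n, ∫ z in Ω, ((s z * kinv s (t n) z) * ((f z : ℂ) * P z) -
      (s z * kinv s (t n) z) ^ 2 * ((f z : ℂ) * Q z)) = 0 := by
    intro n
    rw [← step (kinv s (t n)) fun z hz => contDiffAt_kinv (htp n) (toR (hs z hz))]
    refine setIntegral_congr_fun hΩ.measurableSet fun z hz => ?_
    simp only [hP, hQ, dz_kinv (htp n) (hs z hz)]
    have e1 : ∑ l, s z * (s z * B l z) * (-kinv s (t n) z ^ 2 * dz l s z * ξ z +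
        kinv s (t n) z * dz l ξ z) = (s z * kinv s (t n) z) * ∑ l, s z * B l z * dz l ξ z -
        (s z * kinv s (t n) z) ^ 2 * ((∑ l, B l z * dz l s z) * ξ z) := by
      rw [Finset.mul_sum, Finset.sum_mul, Finset.mul_sum, ← Finset.sum_sub_distrib]
      exact Finset.sum_congr rfl fun l _ => by ring
    rw [e1]
    ring
  have hIP : IntegrableOn (fun z => (f z : ℂ) * P z) Ω := by
    refine integrable_test hΩ hξc hξΩ hf (fun z hz => ?_) fun z hz h => ?_
    · refine ContinuousAt.continuousWithinAt (ContinuousAt.add ?_ (ContinuousAt.mul ?_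
        hξ.continuous.continuousAt))
      · exact tendsto_finsetSum _ fun l _ => (((toR (hs z hz)).continuousAt).mul
          ((toR (hB l z hz)).continuousAt)).mul (cdz l hξ.contDiffAt)
      · exact tendsto_finsetSum _ fun α _ => tendsto_finsetSum _ fun l _ =>
          ((toR (hU α l z hz)).continuousAt).mul (cdz l (toR (hγ α z hz)))
    · have h3 : ξ =ᶠ[𝓝 z] fun _ => 0 := notMem_tsupport_iff_eventuallyEq.1 h
      simp only [hP, C2.dz_congr _ h3, C2.dz_const, mul_zero, Finset.sum_const_zero,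
        h3.self_of_nhds, add_zero]
  have hIQ : IntegrableOn (fun z => (f z : ℂ) * Q z) Ω := by
    refine integrable_test hΩ hξc hξΩ hf (fun z hz => ?_) fun z hz h => ?_
    · refine ContinuousAt.continuousWithinAt (ContinuousAt.mul ?_ hξ.continuous.continuousAt)
      exact tendsto_finsetSum _ fun l _ => ((toR (hB l z hz)).continuousAt).mul
        (cdz l (toR (hs z hz)))
    · have h3 : ξ =ᶠ[𝓝 z] fun _ => 0 := notMem_tsupport_iff_eventuallyEq.1 h
      simp only [hQ, h3.self_of_nhds, mul_zero]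
  have hmeas : ∀ n, AEStronglyMeasurable (fun z => s z * kinv s (t n) z) (volume.restrict Ω) := by
    intro n
    refine ContinuousOn.aestronglyMeasurable (fun z hz => ?_) hΩ.measurableSet
    exact ((toR (hs z hz)).continuousAt.mul
      (contDiffAt_kinv (htp n) (toR (hs z hz))).continuousAt).continuousWithinAt
  have hlim : Tendsto (fun n => ∫ z in Ω, ((s z * kinv s (t n) z) * ((f z : ℂ) * P z) -
      (s z * kinv s (t n) z) ^ 2 * ((f z : ℂ) * Q z))) atTop
      (𝓝 (∫ z in Ω, ((f z : ℂ) * P z - (f z : ℂ) * Q z))) := by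
    refine tendsto_integral_of_dominated_convergence
      (fun z => ‖(f z : ℂ) * P z‖ + ‖(f z : ℂ) * Q z‖) (fun n => ?_) (hIP.norm.add hIQ.norm)
      (fun n => Eventually.of_forall fun z => ?_) ?_
    · exact ((hmeas n).mul hIP.aestronglyMeasurable).sub
        (((hmeas n).pow 2).mul hIQ.aestronglyMeasurable)
    · refine (norm_sub_le _ _).trans (add_le_add ?_ ?_)
      · rw [norm_mul]
        exact mul_le_of_le_one_left (norm_nonneg _) (norm_s_kinv (htp n) z)
      · rw [norm_mul, norm_pow]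
        exact mul_le_of_le_one_left (norm_nonneg _)
          (pow_le_one₀ (norm_nonneg _) (norm_s_kinv (htp n) z))
    · filter_upwards [hs0] with z hz
      have h1 := tendsto_s_kinv hz ht0
      have h2 := (h1.mul_const ((f z : ℂ) * P z)).sub ((h1.pow 2).mul_const ((f z : ℂ) * Q z))
      rwa [one_pow, one_mul, one_mul] at h2
  simp only [hn] at hlim
  have h1 := tendsto_nhds_unique hlim tendsto_const_nhds
  rw [← h1]
  refine setIntegral_congr_fun hΩ.measurableSet fun z hz => ?_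
  simp only [hP, hQ, zH]
  ring

end main

end Vale.Agent.P301.H794
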